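import Vale.Agent.P134S.Defs2

/-! P134S: coordinates, and the row ACW1 (flux inequalities, monotonicity). -/

open MeasureTheory Metric Filter Topology Set
open scoped RealInnerProductSpace
open Vale.Agent.P366.Stmt (E)
open Vale.Agent.P134 Vale.Agent.P134.H688
open Vale.Agent.P134.M4 (bl)
open Vale.Agent.P134.H891 (Psi Psi_nonneg Psi_le_Psi_one Psi_neg_one Psi_mono contDiff_Psi
  continuous_Psi)
open Vale.Agent.P134.R2.H561 (Mo)

noncomputable section

namespace Vale.Agent.P134S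

variable {N : ℕ} {f u : (Fin N → ℝ) → ℝ}

lemma int_of (f : (Fin N → ℝ) → ℝ) : ∫ x : E N, f x.ofLp = ∫ y, f y :=
  (PiLp.volume_preserving_ofLp (Fin N)).integral_comp
    (MeasurableEquiv.toLp 2 (Fin N → ℝ)).symm.measurableEmbedding f

lemma setInt_of (f : (Fin N → ℝ) → ℝ) (S : Set (Fin N → ℝ)) :
    ∫ x in (fun x : E N => x.ofLp) ⁻¹' S, f x.ofLp = ∫ y in S, f y :=
  (PiLp.volume_preserving_ofLp (Fin N)).setIntegral_preimage_emb
    (MeasurableEquiv.toLp 2 (Fin N → ℝ)).symm.measurableEmbedding f S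

lemma pre_bl {R : ℝ} (hR : 0 ≤ R) :
    (fun x : E N => x.ofLp) ⁻¹' bl R = closedBall (0 : E N) R := by
  ext x
  simp only [mem_preimage, bl, rho, mem_ofPred_eq, mem_closedBall, dist_zero_right]
  rw [← EuclideanSpace.real_norm_sq_eq, sq_le_sq₀ (norm_nonneg _) hR]

lemma ball_ae {R : ℝ} (hR : R ≠ 0) : ball (0 : E N) R =ᵐ[volume] closedBall (0 : E N) R := by
  have h : ∀ᵐ x : E N, x ∉ sphere (0 : E N) R :=
    measure_eq_zero_iff_ae_notMem.1 (Measure.addHaar_sphere_of_ne_zero volume 0 hR)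
  filter_upwards [h] with x hx
  simp only [mem_sphere, dist_zero_right] at hx
  refine propext ⟨fun h1 => ball_subset_closedBall h1, fun h1 => ?_⟩
  have h2 : ‖x‖ ≤ R := by simpa using (show x ∈ closedBall (0 : E N) R from h1)
  exact (show x ∈ ball (0 : E N) R by simpa using lt_of_le_of_ne h2 hx)

lemma ball_of (f : (Fin N → ℝ) → ℝ) {R : ℝ} (hR : 0 < R) :
    ∫ x in ball (0 : E N) R, f x.ofLp = ∫ y in bl R, f y := by
  rw [← setInt_of, pre_bl hR.le, setIntegral_congr_set (ball_ae hR.ne')]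

lemma contDiff_of {k : WithTop ℕ∞} (hf : ContDiff ℝ k f) :
    ContDiff ℝ k fun x : E N => f x.ofLp :=
  hf.comp (EuclideanSpace.equiv (Fin N) ℝ).contDiff

lemma fderiv_of {x : E N} (hf : DifferentiableAt ℝ f x.ofLp) (v : E N) :
    fderiv ℝ (fun x : E N => f x.ofLp) x v = ∑ i, v i * pd i f x.ofLp := by
  have h := hf.hasFDerivAt.comp x (EuclideanSpace.equiv (Fin N) ℝ).hasFDerivAt
  rw [show (fun x : E N => f x.ofLp) = f ∘ WithLp.ofLp from rfl, h.fderiv]
  have e : v.ofLp = ∑ i, v i • (Pi.single i 1 : Fin N → ℝ) := by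
    funext j
    simp [Finset.sum_apply, Pi.single_apply]
  refine (congrArg (fderiv ℝ f x.ofLp) e).trans ?_
  rw [map_sum]
  simp only [map_smul, smul_eq_mul, pd]

lemma norm_fderiv_of {x : E N} (hf : DifferentiableAt ℝ f x.ofLp) :
    ‖fderiv ℝ (fun x : E N => f x.ofLp) x‖ = gn f x.ofLp := by
  have e : fderiv ℝ (fun x : E N => f x.ofLp) x
      = innerSL ℝ (WithLp.toLp 2 fun i => pd i f x.ofLp : E N) := by
    ext v
    rw [fderiv_of hf, innerSL_apply_apply, PiLp.inner_apply]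
    simp
  rw [e, innerSL_apply_norm, EuclideanSpace.norm_eq, gn]
  simp

lemma Psi_one_pos : 0 < Psi 1 := by
  unfold Psi
  have := sqrt2_pos
  apply div_pos _ this
  norm_num

lemma pd_wu (hu : Sol u) (i : Fin N) (y : Fin N → ℝ) :
    pd i (fun y => Psi (u y) / Psi 1) y = psi u y / √2 * pd i u y / Psi 1 := by
  have h1 := ((H891.Psi_comp_contDiff hu).differentiable (by norm_num) y).hasFDerivAt
  have h2 := (h1.mul_const (Psi 1)⁻¹).fderiv
  rw [← H891.pd_Psi hu]
  unfold pd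
  simp only [div_eq_mul_inv]
  rw [h2]
  simp [mul_comm]

lemma gn_wu (hu : Sol u) (y : Fin N → ℝ) :
    gn (fun y => Psi (u y) / Psi 1) y = psi u y / √2 * gn u y / Psi 1 := by
  have h0 : 0 ≤ psi u y / √2 / Psi 1 :=
    div_nonneg (div_nonneg (hu.psi_nonneg y) sqrt2_pos.le) Psi_one_pos.le
  unfold gn
  simp_rw [pd_wu hu]
  have e : ∑ j, (psi u y / √2 * pd j u y / Psi 1) ^ 2
      = (psi u y / √2 / Psi 1) ^ 2 * ∑ j, pd j u y ^ 2 := by
    rw [Finset.mul_sum]
    exact Finset.sum_congr rfl fun j _ => by ring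
  rw [e, Real.sqrt_mul (sq_nonneg _), Real.sqrt_sq h0]
  ring

lemma contDiff_w0 (hu : Sol u) : ContDiff ℝ 1 fun y => Psi (u y) / Psi 1 :=
  (H891.Psi_comp_contDiff hu).div_const _

lemma contDiff_wu (hu : Sol u) : ContDiff ℝ 1 (wu u) := contDiff_of (contDiff_w0 hu)

lemma norm_fderiv_wu (hu : Sol u) (x : E N) :
    ‖fderiv ℝ (wu u) x‖ = psi u x.ofLp / √2 * gn u x.ofLp / Psi 1 := by
  rw [← gn_wu hu]
  exact norm_fderiv_of ((contDiff_w0 hu).differentiable (by norm_num) _)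

lemma wu_bd (hu : Sol u) (x : E N) : 0 ≤ wu u x ∧ wu u x ≤ 1 :=
  ⟨div_nonneg (Psi_nonneg (hu.bd _)) Psi_one_pos.le,
    (div_le_one Psi_one_pos).2 (Psi_le_Psi_one (hu.bd _))⟩

lemma abs_neg_one (hu : Sol u) (y : Fin N → ℝ) : |Ps (-1) - Ps (u y)| = Psi (u y) := by
  have h1 := Psi_eq_Ps (-1)
  have h2 := Psi_eq_Ps (u y)
  have h3 := Psi_nonneg (hu.bd y)
  rw [Psi_neg_one] at h1
  rw [abs_of_nonpos (by linarith)]
  linarith

lemma abs_one' (hu : Sol u) (y : Fin N → ℝ) : |Ps 1 - Ps (u y)| = Psi 1 - Psi (u y) := by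
  have h1 := Psi_eq_Ps 1
  have h2 := Psi_eq_Ps (u y)
  have h3 := Psi_le_Psi_one (hu.bd y)
  rw [abs_of_nonneg (by linarith)]
  linarith

/-- the flux inequality in Euclidean space -/
lemma flux_wu {q : Fin N} (hu : Sol u) (hq : ∀ x, 0 < pd q u x) (hl : Lim q u) {φ : E N → ℝ}
    (hφ : Tf φ) {ε : ℝ} (hε : ε ^ 2 = 1) : ∫ x, φ x * ‖fderiv ℝ (wu u) x‖
      ≤ ∫ x : E N, |Ps ε - Ps (u x.ofLp)| / Psi 1 * ‖fderiv ℝ φ x‖ := by
  obtain ⟨g, hg⟩ : ∃ g : (Fin N → ℝ) → ℝ, g = fun y => φ (WithLp.toLp 2 y) := ⟨_, rfl⟩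
  have e : φ = fun x : E N => g x.ofLp := by rw [hg]
  have g1 : ContDiff ℝ 1 g := by
    rw [hg]; exact hφ.c1.comp (EuclideanSpace.equiv (Fin N) ℝ).symm.contDiff
  have gc : HasCompactSupport g := by
    rw [hg]
    exact hφ.cs.comp_homeomorph (EuclideanSpace.equiv (Fin N) ℝ).symm.toHomeomorph
  have g0 : ∀ y, 0 ≤ g y := fun y => by rw [hg]; exact hφ.nn _
  have h := flux hu hq hl g1 gc g0 hε
  have u1 : ContDiff ℝ 1 u := hu.c2.of_le (by norm_num)
  have e1 : ∫ x, φ x * ‖fderiv ℝ (wu u) x‖ = ∫ y, g y * (psi u y / √2 * gn u y / Psi 1) := by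
    rw [← int_of]
    simp_rw [norm_fderiv_wu hu, e]
  have e2 : ∫ x : E N, |Ps ε - Ps (u x.ofLp)| / Psi 1 * ‖fderiv ℝ φ x‖
      = (∫ y, gn g y * |Ps ε - Ps (u y)|) / Psi 1 := by
    rw [← integral_div, ← int_of]
    refine integral_congr_ae (Eventually.of_forall fun x => ?_)
    simp only [e]
    rw [norm_fderiv_of (g1.differentiable (by norm_num) _)]
    ring
  rw [e1, e2]
  refine le_trans ?_ (div_le_div_of_nonneg_right h Psi_one_pos.le)
  rw [← integral_div]
  have c1 : Continuous fun y => psi u y / √2 * gn u y / Psi 1 :=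
    ((hu.psi_contDiff.continuous.div_const _).mul (continuous_gn u1)).div_const _
  refine integral_mono ((g1.continuous.mul c1).integrable_of_hasCompactSupport gc.mul_right)
    (((g1.continuous.mul (continuous_en u1)).integrable_of_hasCompactSupport
      gc.mul_right).div_const _) fun y => ?_
  simp only [mul_div_assoc (g y)]
  exact mul_le_mul_of_nonneg_left
    (div_le_div_of_nonneg_right (Sol.psi_gn_le hu y) Psi_one_pos.le) (g0 y)

theorem acw1 : ACW1 := by
  intro m q u h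
  have hu : Sol u := h.toSol
  have hl : Lim q u := ⟨h.top, h.bot⟩
  refine ⟨⟨contDiff_wu hu, wu_bd hu, fun φ hφ => ?_, fun φ hφ => ?_⟩, fun x t ht => ?_⟩
  · have h1 := flux_wu hu h.pos hl hφ (ε := -1) (by norm_num)
    simp_rw [abs_neg_one hu] at h1
    exact h1
  · have h1 := flux_wu hu h.pos hl hφ (ε := 1) (by norm_num)
    simp_rw [abs_one' hu, sub_div, div_self Psi_one_pos.ne'] at h1
    exact h1
  · have h1 := (strictMono_line (hu.c2.differentiable (by norm_num)) h.pos x.ofLp).monotone ht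
    simp only [zero_smul, add_zero] at h1
    refine div_le_div_of_nonneg_right (Psi_mono (abs_le.1 (hu.bd _)).1 ?_
      (abs_le.1 (hu.bd _)).2) Psi_one_pos.le
    exact h1

end Vale.Agent.P134S
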