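import Vale.Agent.P134S.Acw1

/-! P134S: the rows ACW2 (behaviour at infinity) and OUT (output of the block). -/

open MeasureTheory Metric Filter Topology Set
open scoped RealInnerProductSpace
open Vale.Agent.P366.Stmt (E)
open Vale.Agent.P134 Vale.Agent.P134.H688 Vale.Agent.P134.SM
open Vale.Agent.P134.M4 (bl)
open Vale.Agent.P134.H891 (Psi Psi_nonneg Psi_le_Psi_one Psi_neg_one Psi_mono contDiff_Psi
  continuous_Psi Psi_one_le ph ph_nonneg ph_contDiff ph_hasCompactSupport)
open Vale.Agent.P134.R2.H561 (Mo E3 E3' S0 OUT1 OUT2 stA lown_density out1n_of_out2 rigid_of_out)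

noncomputable section

namespace Vale.Agent.P134S

variable {N m : ℕ}

lemma sol_one : Sol (fun _ : Fin N → ℝ => (1:ℝ)) := by
  refine ⟨contDiff_const, fun _ => by norm_num, fun x => ?_⟩
  have : ∀ i : Fin N, pd i (fun _ : Fin N → ℝ => (1:ℝ)) = fun _ => 0 := fun i =>
    funext fun y => pd_const _
  simp_rw [this, pd_const]
  simp

lemma mo_e3 {q : Fin (m + 4)} {u : (Fin (m + 4) → ℝ) → ℝ} (h : Mo q u) : E3' u ∧ S0 u :=
  stA m u (fun _ => 1) q h.toSol h.pos sol_one h.top fun x => by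
    unfold defi psi
    simp [pd_const]

lemma s2_Psi_one : √2 * Psi 1 = 4 / 3 := by
  unfold Psi
  have := sqrt2_pos
  field_simp
  norm_num

lemma thin_le {t : ℝ} : Psi t / Psi 1 * (1 - Psi t / Psi 1) ≤ (1 - t ^ 2) ^ 2 := by
  have h1 := Psi_one_pos
  have h2 := sqrt2_pos
  have e1 : Psi t / Psi 1 = (1 + t) ^ 2 * (2 - t) / 4 := by
    rw [H891.Psi_eq t, div_div, mul_assoc 3, s2_Psi_one]
    norm_num
  have e2 : (1 + t) ^ 2 * (2 - t) / 4 * (1 - (1 + t) ^ 2 * (2 - t) / 4)
      = (1 - t ^ 2) ^ 2 * ((4 - t ^ 2) / 16) := by ring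
  rw [e1, e2]
  exact mul_le_of_le_one_right (sq_nonneg _) (by nlinarith [sq_nonneg t])

lemma rad_le {u : (Fin N → ℝ) → ℝ} (hu : Sol u) (x : E N) :
    |fderiv ℝ (wu u) x x| ≤ psi u x.ofLp * |rd u x.ofLp| := by
  have h := fderiv_of (x := x) ((contDiff_w0 hu).differentiable (by norm_num) x.ofLp) x
  have e : fderiv ℝ (wu u) x x = psi u x.ofLp * rd u x.ofLp / (√2 * Psi 1) := by
    refine h.trans ?_
    simp_rw [pd_wu hu]
    unfold rd
    rw [Finset.mul_sum, Finset.sum_div]
    exact Finset.sum_congr rfl fun i _ => by field_simp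
  rw [e, s2_Psi_one, abs_div, abs_mul, abs_of_nonneg (hu.psi_nonneg _)]
  exact div_le_self (mul_nonneg (hu.psi_nonneg _) (abs_nonneg _)) (by norm_num)

theorem acw2 : ACW2 := by
  intro m q u h
  have hu : Sol u := h.toSol
  have hl : Lim q u := ⟨h.top, h.bot⟩
  obtain ⟨hE, hS⟩ := mo_e3 h
  obtain ⟨C0, hC0⟩ := R2.H561.E3'.e3 hE
  obtain ⟨C, hCpos, hC⟩ : ∃ C : ℝ, 0 < C ∧ ∀ R : ℝ, 1 ≤ R →
      ∫ x in bl R, psi u x ^ 2 ≤ C * R ^ (m + 3) :=
    ⟨max C0 1, lt_of_lt_of_le one_pos (le_max_right _ _), fun R hR =>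
      (hC0 R hR).trans (mul_le_mul_of_nonneg_right (le_max_left _ _) (by positivity))⟩
  have cψ : Continuous (psi u) := hu.psi_contDiff.continuous
  have cw : Continuous fun y => Psi (u y) / Psi 1 := (contDiff_w0 hu).continuous
  have crd : Continuous (rd u) := (Sol.rd_c2 hu).continuous
  refine ⟨fun ε hε => ?_, fun ε hε => ?_, ?_⟩
  · filter_upwards [eventually_ge_atTop (1 : ℝ), eventually_ge_atTop (C / ε)] with R h1 h2
    have hR : 0 < R := by linarith
    have hb := bl_subset_box (n := m + 4) hR.le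
    have e := ball_of (fun y => Psi (u y) / Psi 1 * (1 - Psi (u y) / Psi 1)) hR
    refine (le_of_eq e).trans (le_trans ?_ ((hC R h1).trans ?_))
    · exact setIntegral_mono (integrableOn_box (cw.mul (continuous_const.sub cw)) hb)
        (integrableOn_box (cψ.pow 2) hb) fun y => thin_le
    · rw [div_le_iff₀ hε] at h2
      rw [pow_succ R (m + 3)]
      nlinarith [pow_pos hR (m + 3)]
  · filter_upwards [eventually_ge_atTop (1 : ℝ), hS (ε ^ 2 / C) (by positivity)] with R h1 h2
    have hR : 0 < R := by linarith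
    have hb := bl_subset_box (n := m + 4) hR.le
    have h3 : ∫ x in bl R, |rd u x| ^ 2 ≤ ε ^ 2 / C * R ^ (m + 5) := by
      simp_rw [sq_abs]; exact h2
    have hcs := cs_box cψ crd.abs hu.psi_nonneg (fun _ => abs_nonneg _) hb (hC R h1) h3
      (t := ε * R / C) (by positivity)
    have e4 : ε * R / C * (C * R ^ (m + 3)) = ε * R ^ (m + 4) := by field_simp; ring
    have e5 : ε ^ 2 / C * R ^ (m + 5) / (ε * R / C) = ε * R ^ (m + 4) := by field_simp; ring
    rw [e4, e5, ← ball_of (fun y => psi u y * |rd u y|) hR] at hcs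
    have c1 : Continuous fun x : E (m + 4) => |fderiv ℝ (wu u) x x| :=
      (((contDiff_wu hu).continuous_fderiv (by norm_num)).clm_apply continuous_id).abs
    have c2 : Continuous fun x : E (m + 4) => psi u x.ofLp * |rd u x.ofLp| :=
      (cψ.mul crd.abs).comp (EuclideanSpace.equiv (Fin (m + 4)) ℝ).continuous
    have h4 : ∫ x in ball (0 : E (m + 4)) R, |fderiv ℝ (wu u) x x|
        ≤ ∫ x in ball (0 : E (m + 4)) R, psi u x.ofLp * |rd u x.ofLp| :=
      setIntegral_mono ((c1.continuousOn.integrableOn_compact (isCompact_closedBall 0 R)).mono_set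
        ball_subset_closedBall) ((c2.continuousOn.integrableOn_compact
          (isCompact_closedBall 0 R)).mono_set ball_subset_closedBall) (rad_le hu)
    linarith
  · obtain ⟨c, hc, hlow⟩ := lown_density hu fun x => R2.H561.gs_pos_of_pd (h.pos x)
    have key : ∀ {R σ : ℝ} {g : (Fin (m + 4) → ℝ) → ℝ}, 1 ≤ R → σ ^ 2 = 1 → Continuous g →
        (∀ y, 0 ≤ g y) → (∀ y, |Ps σ - Ps (u y)| = Psi 1 * g y) →
        c / 4 * R ^ (m + 4) ≤ ∫ x in ball (0 : E (m + 4)) R, g x.ofLp := by
      intro R σ g h1 hσ cg g0 hg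
      have hR : 0 < R := by linarith
      have k1 := flux hu h.pos hl (ph_contDiff R) (ph_hasCompactSupport hR) (ph_nonneg R) hσ
      simp_rw [hg] at k1
      have k2 := integral_gn_ph_le (g := fun y => Psi 1 * g y) hR (continuous_const.mul cg)
        fun y => mul_nonneg Psi_one_pos.le (g0 y)
      rw [integral_const_mul, ← ball_of g hR] at k2
      have k3 : 0 ≤ ∫ x in ball (0 : E (m + 4)) R, g x.ofLp := integral_nonneg fun x => g0 _
      have k4 := (hlow R h1).trans (k1.trans k2)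
      have k5 : 4 / R * (Psi 1 * ∫ x in ball (0 : E (m + 4)) R, g x.ofLp)
          ≤ 4 / R * ∫ x in ball (0 : E (m + 4)) R, g x.ofLp :=
        mul_le_mul_of_nonneg_left (mul_le_of_le_one_left k3 Psi_one_le) (by positivity)
      have k6 := k4.trans k5
      rw [div_mul_eq_mul_div, le_div_iff₀ hR] at k6
      rw [pow_succ R (m + 3)]
      linarith
    refine ⟨c / 4, by positivity, ?_⟩
    have hp := Psi_one_pos
    filter_upwards [eventually_ge_atTop (1 : ℝ)] with R h1
    refine ⟨key (σ := -1) h1 (by norm_num) cw (fun y => (wu_bd hu (WithLp.toLp 2 y)).1)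
      fun y => ?_, key (σ := 1) (g := fun y => 1 - Psi (u y) / Psi 1) h1 (by norm_num)
      (continuous_const.sub cw) (fun y => sub_nonneg.2 (wu_bd hu (WithLp.toLp 2 y)).2) fun y => ?_⟩
    · rw [abs_neg_one hu]; field_simp
    · rw [abs_one' hu]; field_simp

theorem out_of (h1 : ACW1) (h2 : ACW2) (h3 : OUTE) : OUT := by
  intro m hm q u h
  have hu : Sol u := h.toSol
  obtain ⟨hF, hmono⟩ := h1 m q u h
  have ha : (EuclideanSpace.single q (1 : ℝ) : E (m + 4)) ≠ 0 := by
    intro h0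
    have := congrArg (fun v : E (m + 4) => v q) h0
    simp at this
  have h4 := h3 (m + 4) (wu u) _ (by omega) (by omega) ha hF (h2 m q u h) hmono
  have hp := Psi_one_pos
  have hO : OUT2 u := by
    intro ε hε
    filter_upwards [eventually_gt_atTop (0 : ℝ), h4 ε hε] with R hR hR2
    obtain ⟨e, he, hE⟩ := hR2
    refine ⟨e.ofLp, by rw [← EuclideanSpace.real_norm_sq_eq, he]; norm_num, ?_⟩
    rw [← ball_of _ hR]
    have e1 : ∀ x : E (m + 4), |Psi (u x.ofLp) - if 0 < ∑ i, e.ofLp i * x.ofLp i then Psi 1 else 0|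
        = Psi 1 * |wu u x - ind {y | 0 < ⟪e, y⟫} x| := by
      intro x
      have e2 : ⟪e, x⟫ = ∑ i, e.ofLp i * x.ofLp i := by
        rw [PiLp.inner_apply]
        exact Finset.sum_congr rfl fun i _ => by simp [mul_comm]
      rw [← abs_of_pos hp, ← abs_mul, abs_of_pos hp, ← e2]
      congr 1
      unfold wu ind
      by_cases hx : 0 < ⟪e, x⟫
      · rw [if_pos hx, indicator_of_mem (show x ∈ {y | 0 < ⟪e, y⟫} from hx)]; field_simp
      · rw [if_neg hx, indicator_of_notMem (show x ∉ {y | 0 < ⟪e, y⟫} from hx)]; field_simp; ring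
    simp_rw [e1]
    rw [integral_const_mul]
    exact (mul_le_of_le_one_left (integral_nonneg fun _ => abs_nonneg _) Psi_one_le).trans hE
  have cl : Continuous fun t : ℝ => u ((0 : Fin (m + 4) → ℝ) + t • Pi.single q 1) :=
    hu.c2.continuous.comp (by fun_prop)
  obtain ⟨a, ha⟩ := ((h.bot 0).eventually (gt_mem_nhds (show (-1 : ℝ) < 0 by norm_num))).exists
  obtain ⟨b, hb⟩ := ((h.top 0).eventually (lt_mem_nhds (show (0 : ℝ) < 1 by norm_num))).exists
  obtain ⟨t, ht⟩ := intermediate_value_univ a b cl ⟨ha.le, hb.le⟩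
  exact rigid_of_out hu h.pos (y0 := 0 + t • Pi.single q 1) (by
    simp only at ht
    rw [ht]; norm_num) (out1n_of_out2 h hO) hO

end Vale.Agent.P134S
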