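import Vale.Agent.P134S.Defs
import Mathlib.Analysis.Calculus.DerivativeTest

/-!
# P134S: the barrier for the capillary equation
-/

open MeasureTheory Metric Filter Topology Set
open scoped ContDiff RealInnerProductSpace
open Vale.Agent.P366.Stmt (E)
open Vale.Agent.P366W (dvg trc)

noncomputable section

namespace Vale.Agent.P134S

namespace Bar

variable {n : ℕ}

/-- the first and the second derivative at a local maximum -/
theorem dd_nonpos {φ d : ℝ → ℝ} {c : ℝ} (hm : IsLocalMax φ 0)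
    (h1 : ∀ t, HasDerivAt φ (d t) t) (h2 : HasDerivAt d c 0) : d 0 = 0 ∧ c ≤ 0 := by
  have hd : deriv φ = d := funext fun t => (h1 t).deriv
  refine ⟨hm.hasDerivAt_eq_zero (h1 0), ?_⟩
  by_contra hc
  have hc : 0 < c := not_le.1 hc
  have hdd : deriv (deriv φ) 0 = c := by rw [hd, h2.deriv]
  have hmin : IsLocalMin φ 0 := isLocalMin_of_deriv_deriv_pos (by rw [hdd]; exact hc)
    hm.deriv_eq_zero (h1 0).continuousAt
  have h3 : φ =ᶠ[𝓝 0] fun _ => φ 0 := by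
    filter_upwards [hm, hmin] with t a b using le_antisymm a b
  have h4 : deriv (deriv φ) 0 = 0 := by
    rw [h3.deriv.deriv_eq]; simp
  linarith

/-- the trace of a nonnegative form -/
theorem trc_ge (M : E n →L[ℝ] E n) (p : E n) (h : ∀ v, 0 ≤ ⟪v, M v⟫) :
    ⟪p, M p⟫ / (1 + ‖p‖ ^ 2) ≤ trc M := by
  set c : ℝ := (1 + ‖p‖ ^ 2)⁻¹ with hc
  have h0 : 0 < 1 + ‖p‖ ^ 2 := by positivity
  have h1 : 0 ≤ ∑ i, ⟪EuclideanSpace.single i 1 - (c * p i) • p,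
      M (EuclideanSpace.single i 1 - (c * p i) • p)⟫ := Finset.sum_nonneg fun i _ => h _
  have a1 : ∑ i, p i * ⟪p, M (EuclideanSpace.single i 1)⟫ = ⟪p, M p⟫ := by
    conv_rhs => rw [P366W.map_eq_sum M p]
    simp [inner_sum, inner_smul_right]
  have a2 : ∑ i, p i * M p i = ⟪p, M p⟫ := (P366W.inner_eq_sum _ _).symm
  have a3 : ∑ i, p i * p i = ‖p‖ ^ 2 := by
    rw [← P366W.inner_eq_sum, real_inner_self_eq_norm_sq]
  have h2 : ∀ i, ⟪EuclideanSpace.single i 1 - (c * p i) • p,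
      M (EuclideanSpace.single i 1 - (c * p i) • p)⟫ = M (EuclideanSpace.single i 1) i -
        c * (p i * ⟪p, M (EuclideanSpace.single i 1)⟫) - c * (p i * M p i) +
          c ^ 2 * ⟪p, M p⟫ * (p i * p i) := fun i => by
    simp only [map_sub, map_smul, inner_sub_left, inner_sub_right, real_inner_smul_left,
      real_inner_smul_right, EuclideanSpace.inner_single_left, conj_trivial, one_mul,
      PiLp.smul_apply, smul_eq_mul]
    ring
  simp only [h2, Finset.sum_add_distrib, Finset.sum_sub_distrib, ← Finset.mul_sum, a1, a2,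
    a3] at h1
  have h3 : c * ‖p‖ ^ 2 ≤ 1 := by
    rw [hc, inv_mul_le_iff₀ h0]; linarith
  have h4 : 0 ≤ c * ⟪p, M p⟫ := mul_nonneg (by positivity) (h p)
  have h5 := mul_le_mul_of_nonneg_left h3 h4
  rw [div_eq_inv_mul, ← hc]
  unfold trc
  nlinarith

/-- the mean curvature in terms of the Hessian -/
theorem mc_eq {f : E n → ℝ} (hf : ContDiff ℝ ∞ f) (x : E n) :
    mc f x = (√(1 + ‖gradient f x‖ ^ 2))⁻¹ * (trc (fderiv ℝ (gradient f) x) -
      ⟪gradient f x, fderiv ℝ (gradient f) x (gradient f x)⟫ / (1 + ‖gradient f x‖ ^ 2)) := by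
  have hg : HasFDerivAt (gradient f) (fderiv ℝ (gradient f) x) x :=
    ((P366W.smooth_gradient hf).differentiable (by simp) x).hasFDerivAt
  have h0 : 0 < 1 + ‖gradient f x‖ ^ 2 := by positivity
  have hW := Real.sqrt_pos.2 h0
  have h1 : HasFDerivAt (fun y => (√(1 + ‖gradient f y‖ ^ 2))⁻¹) _ x :=
    (hasDerivAt_inv hW.ne').comp_hasFDerivAt x ((hg.norm_sq.const_add 1).sqrt h0.ne')
  have h2 := P366W.dvg_smul h1.differentiableAt hg.differentiableAt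
  have h3 : mc f x = dvg (fun y => (√(1 + ‖gradient f y‖ ^ 2))⁻¹ • gradient f y) x := rfl
  rw [h3, h2, h1.fderiv, P366W.dvg_eq]
  simp only [smul_apply, ContinuousLinearMap.comp_apply, innerSL_apply_apply,
    smul_eq_mul, nsmul_eq_mul, Real.sq_sqrt h0.le, Nat.cast_ofNat]
  field_simp
  ring

theorem mc_neg (f : E n → ℝ) (x : E n) : mc (fun y => -f y) x = -mc f x := by
  have h1 : ∀ y, gradient (fun y => -f y) y = -gradient f y := fun y => by
    simp [gradient, fderiv_fun_neg]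
  have h2 : nr (fun y => -f y) = fun y => -nr f y := by
    funext y; simp [nr, h1]
  simp [mc, h2, dvg, fderiv_fun_neg]

/-- the conditions at a local maximum of the auxiliary function -/
theorem at_max {f : E n → ℝ} (hf : ContDiff ℝ ∞ f) {x₀ x₁ : E n} {ρ : ℝ} (hρ : 0 < ρ)
    (hm : IsLocalMax (fun x => Real.exp (f x / ρ) * (ρ ^ 2 - ‖x - x₀‖ ^ 2)) x₁) (v : E n) :
    ⟪v, gradient f x₁⟫ * (ρ ^ 2 - ‖x₁ - x₀‖ ^ 2) = 2 * ρ * ⟪v, x₁ - x₀⟫ ∧
    ⟪v, fderiv ℝ (gradient f) x₁ v⟫ * (ρ ^ 2 - ‖x₁ - x₀‖ ^ 2) ≤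
      2 * ⟪v, x₁ - x₀⟫ * ⟪v, gradient f x₁⟫ + 2 * ρ * ‖v‖ ^ 2 := by
  set s := ρ ^ 2 - ‖x₁ - x₀‖ ^ 2 with hs
  set a := ⟪v, x₁ - x₀⟫ with ha
  set q := ‖v‖ ^ 2 with hq
  have hl : ∀ t : ℝ, HasDerivAt (fun t : ℝ => x₁ + t • v) v t := fun t => by
    simpa using ((hasDerivAt_id t).smul_const v).const_add x₁
  have hγ : ∀ t : ℝ, HasDerivAt (fun t : ℝ => f (x₁ + t • v)) ⟪v, gradient f (x₁ + t • v)⟫ t :=
    fun t => by
      rw [real_inner_comm, P366W.inner_grad]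
      exact (hf.differentiable (by simp) _).hasFDerivAt.comp_hasDerivAt t (hl t)
  have hγ2 : HasDerivAt (fun t : ℝ => ⟪v, gradient f (x₁ + t • v)⟫)
      ⟪v, fderiv ℝ (gradient f) x₁ v⟫ 0 := by
    have h1 := ((P366W.smooth_gradient hf).differentiable (by simp)
      (x₁ + (0 : ℝ) • v)).hasFDerivAt.comp_hasDerivAt (0 : ℝ) (hl 0)
    simpa using (hasDerivAt_const (0 : ℝ) v).inner ℝ h1
  have hk : ∀ t : ℝ, HasDerivAt (fun t : ℝ => s - 2 * a * t - q * t ^ 2) (-(2 * a) - q * (2 * t)) t :=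
    fun t => by
      simpa using (((hasDerivAt_id t).const_mul (2 * a)).const_sub s).fun_sub
        ((hasDerivAt_pow 2 t).const_mul q)
  have hk2 : HasDerivAt (fun t : ℝ => -(2 * a) - q * (2 * t)) (-(q * 2)) 0 := by
    simpa using (((hasDerivAt_id (0 : ℝ)).const_mul 2).const_mul q).const_sub (-(2 * a))
  have he : ∀ t : ℝ, HasDerivAt (fun t : ℝ => Real.exp (f (x₁ + t • v) / ρ))
      (Real.exp (f (x₁ + t • v) / ρ) * (⟪v, gradient f (x₁ + t • v)⟫ / ρ)) t :=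
    fun t => ((hγ t).div_const ρ).exp
  have hm1 : IsLocalMax (fun t : ℝ => Real.exp (f (x₁ + t • v) / ρ) *
      (s - 2 * a * t - q * t ^ 2)) 0 := by
    have h1 : IsLocalMax (fun x => Real.exp (f x / ρ) * (ρ ^ 2 - ‖x - x₀‖ ^ 2))
        ((fun t : ℝ => x₁ + t • v) 0) := by simpa using hm
    have h2 := h1.comp_continuous (g := fun t : ℝ => x₁ + t • v) (hl 0).continuousAt
    convert h2 using 2 with t
    have : x₁ + t • v - x₀ = (x₁ - x₀) + t • v := by abel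
    simp only [Function.comp, this, norm_add_sq_real, real_inner_smul_right, norm_smul, mul_pow,
      Real.norm_eq_abs, sq_abs, hs, ha, hq, real_inner_comm (x₁ - x₀) v]
    ring
  have h3 := dd_nonpos hm1 (fun t => (he t).fun_mul (hk t))
    ((((he 0).fun_mul (hγ2.div_const ρ)).fun_mul (hk 0)).fun_add ((he 0).fun_mul hk2))
  simp only [zero_smul, add_zero, mul_zero, sub_zero, ne_eq, OfNat.ofNat_ne_zero,
    not_false_eq_true, zero_pow] at h3
  obtain ⟨h4, h5⟩ := h3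
  have hE := Real.exp_pos (f x₁ / ρ)
  set e := Real.exp (f x₁ / ρ)
  set g := ⟪v, gradient f x₁⟫
  set H := ⟪v, fderiv ℝ (gradient f) x₁ v⟫
  have h6 : g * s = 2 * ρ * a := by
    have : e * (g * s - 2 * ρ * a) = ρ * (e * (g / ρ) * s + e * -(2 * a)) := by
      field_simp; ring
    rw [h4, mul_zero, mul_eq_zero] at this
    rcases this with h | h
    · exact absurd h hE.ne'
    · linarith
  refine ⟨h6, ?_⟩
  have h7 : e * (H * s - (2 * a * g + 2 * ρ * q)) + e * (g / ρ) * (g * s - 2 * ρ * a) =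
      ρ * ((e * (g / ρ) * (g / ρ) + e * (H / ρ)) * s + e * (g / ρ) * -(2 * a) +
        (e * (g / ρ) * -(2 * a) + e * -(q * 2))) := by
    field_simp; ring
  rw [h6, sub_self, mul_zero, add_zero] at h7
  have h8 : e * (H * s - (2 * a * g + 2 * ρ * q)) ≤ 0 := by
    rw [h7]; exact mul_nonpos_of_nonneg_of_nonpos hρ.le h5
  have := nonpos_of_mul_nonpos_right h8 hE
  linarith

/-- the mean curvature at the point of contact -/
theorem mc_le {f : E n → ℝ} (hf : ContDiff ℝ ∞ f) {x₀ x₁ : E n} {ρ : ℝ} (hρ : 0 < ρ)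
    (hm : IsLocalMax (fun x => Real.exp (f x / ρ) * (ρ ^ 2 - ‖x - x₀‖ ^ 2)) x₁)
    (hs : 0 < ρ ^ 2 - ‖x₁ - x₀‖ ^ 2) : mc f x₁ ≤ 2 * n / ρ := by
  have h := at_max hf hρ hm
  set s := ρ ^ 2 - ‖x₁ - x₀‖ ^ 2 with hs'
  set p := gradient f x₁
  set H := fderiv ℝ (gradient f) x₁
  set y := x₁ - x₀
  have hp : s • p = (2 * ρ) • y := ext_inner_left ℝ fun v => by
    rw [real_inner_smul_right, real_inner_smul_right, ← (h v).1, mul_comm]
  have hn : s ^ 2 * ‖p‖ ^ 2 = 4 * ρ ^ 2 * ‖y‖ ^ 2 := by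
    have := congrArg (fun z => ‖z‖ ^ 2) hp
    simp only [norm_smul, mul_pow, Real.norm_eq_abs, sq_abs] at this
    linarith
  have h1 := trc_ge ((2 * ρ / s) • ContinuousLinearMap.id ℝ (E n) +
    ρ⁻¹ • (innerSL ℝ p).smulRight p - H) p fun v => by
      have a1 := (h v).1
      have a2 := (h v).2
      simp only [sub_apply, add_apply,
        smul_apply, ContinuousLinearMap.id_apply,
        ContinuousLinearMap.smulRight_apply, innerSL_apply_apply, inner_sub_right, inner_add_right,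
        real_inner_smul_right, real_inner_self_eq_norm_sq, real_inner_comm v p]
      have a3 : (2 * ρ / s * ‖v‖ ^ 2 + ρ⁻¹ * (⟪v, p⟫ * ⟪v, p⟫) - ⟪v, H v⟫) * s =
          2 * ρ * ‖v‖ ^ 2 + ρ⁻¹ * ⟪v, p⟫ * (⟪v, p⟫ * s) - ⟪v, H v⟫ * s := by
        field_simp
      have a4 : ρ⁻¹ * ⟪v, p⟫ * (2 * ρ * ⟪v, y⟫) = 2 * ⟪v, y⟫ * ⟪v, p⟫ := by field_simp
      rw [a1, a4] at a3
      exact nonneg_of_mul_nonneg_left (by rw [a3]; linarith) hs
  rw [P366W.trc_sub, P366W.trc_add, P366W.trc_smul, P366W.trc_smul, P366W.trc_id,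
    P366W.trc_smulRight] at h1
  simp only [sub_apply, add_apply,
    smul_apply, ContinuousLinearMap.id_apply,
    ContinuousLinearMap.smulRight_apply, innerSL_apply_apply, inner_sub_right, inner_add_right,
    real_inner_smul_right, real_inner_self_eq_norm_sq] at h1
  have h0 : 0 < 1 + ‖p‖ ^ 2 := by positivity
  have h2 : trc H - ⟪p, H p⟫ / (1 + ‖p‖ ^ 2) ≤ 2 * ρ / s * n := by
    have a1 : ρ⁻¹ ≤ 2 * ρ / s := by
      rw [inv_eq_one_div, div_le_div_iff₀ hρ hs]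
      nlinarith [sq_nonneg ‖y‖]
    have a2 : (2 * ρ / s * ‖p‖ ^ 2 + ρ⁻¹ * (‖p‖ ^ 2 * ‖p‖ ^ 2) - ⟪p, H p⟫) / (1 + ‖p‖ ^ 2) =
        ρ⁻¹ * ‖p‖ ^ 2 - ⟪p, H p⟫ / (1 + ‖p‖ ^ 2) +
          (2 * ρ / s - ρ⁻¹) * (‖p‖ ^ 2 / (1 + ‖p‖ ^ 2)) := by
      field_simp; ring
    have a3 : 0 ≤ (2 * ρ / s - ρ⁻¹) * (‖p‖ ^ 2 / (1 + ‖p‖ ^ 2)) :=
      mul_nonneg (by linarith) (by positivity)
    linarith
  have h3 : ρ ^ 2 / s ≤ √(1 + ‖p‖ ^ 2) := by
    refine Real.le_sqrt_of_sq_le ?_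
    rw [div_pow, div_le_iff₀ (by positivity)]
    have : s ^ 2 = (ρ ^ 2 - ‖y‖ ^ 2) ^ 2 := by rw [hs']
    nlinarith [mul_nonneg (sq_nonneg ρ) (sq_nonneg ‖y‖), sq_nonneg (‖y‖ ^ 2)]
  have h4 : (√(1 + ‖p‖ ^ 2))⁻¹ ≤ (ρ ^ 2 / s)⁻¹ := inv_anti₀ (by positivity) h3
  rw [mc_eq hf]
  calc _ ≤ (√(1 + ‖p‖ ^ 2))⁻¹ * (2 * ρ / s * n) := mul_le_mul_of_nonneg_left h2 (by positivity)
    _ ≤ (ρ ^ 2 / s)⁻¹ * (2 * ρ / s * n) := mul_le_mul_of_nonneg_right h4 (by positivity)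
    _ = 2 * n / ρ := by field_simp

/-- the upper bound -/
theorem upper {f b : E n → ℝ} {x₀ : E n} {ρ τ l : ℝ} (hf : ContDiff ℝ ∞ f) (hρ : 0 < ρ)
    (hτ : 0 ≤ τ) (h : ∀ x ∈ ball x₀ ρ, mc f x = τ * f x + b x ∧ |b x| ≤ l) :
    τ * f x₀ ≤ l + 2 * n / ρ := by
  have hc : Continuous fun x => Real.exp (f x / ρ) * (ρ ^ 2 - ‖x - x₀‖ ^ 2) := by
    have := hf.continuous
    fun_prop
  obtain ⟨x₁, -, h1⟩ := (isCompact_closedBall x₀ ρ).exists_isMaxOn
    ⟨x₀, mem_closedBall_self hρ.le⟩ hc.continuousOn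
  have h2 : Real.exp (f x₀ / ρ) * ρ ^ 2 ≤ Real.exp (f x₁ / ρ) * (ρ ^ 2 - ‖x₁ - x₀‖ ^ 2) := by
    simpa using h1 (mem_closedBall_self hρ.le)
  have hE := Real.exp_pos (f x₁ / ρ)
  have hs : 0 < ρ ^ 2 - ‖x₁ - x₀‖ ^ 2 :=
    (mul_pos_iff_of_pos_left hE).1 (lt_of_lt_of_le (by positivity) h2)
  have hx : x₁ ∈ ball x₀ ρ := by
    rw [mem_ball, dist_eq_norm]
    exact lt_of_pow_lt_pow_left₀ 2 hρ.le (by linarith)
  have h3 := mc_le hf hρ (h1.isLocalMax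
    (mem_of_superset (isOpen_ball.mem_nhds hx) ball_subset_closedBall)) hs
  have h4 : f x₀ ≤ f x₁ := by
    have a1 : Real.exp (f x₀ / ρ) * ρ ^ 2 ≤ Real.exp (f x₁ / ρ) * ρ ^ 2 :=
      h2.trans (mul_le_mul_of_nonneg_left (by nlinarith [sq_nonneg ‖x₁ - x₀‖]) hE.le)
    have a2 := Real.exp_le_exp.1 (le_of_mul_le_mul_right a1 (by positivity))
    exact (div_le_div_iff_of_pos_right hρ).1 a2
  have h5 := (abs_le.1 (h x₁ hx).2).1
  have h6 := (h x₁ hx).1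
  have h7 := mul_le_mul_of_nonneg_left h4 hτ
  linarith

end Bar

/-- **BAR** -/
theorem bar : BAR := by
  intro n f b x₀ ρ τ l hf hρ hτ h
  have h1 := Bar.upper hf hρ hτ h
  have h2 := Bar.upper (f := fun y => -f y) (b := fun y => -b y) (l := l) hf.neg hρ hτ
    fun x hx => ⟨by rw [Bar.mc_neg, (h x hx).1]; ring, by rw [abs_neg]; exact (h x hx).2⟩
  rw [abs_le]
  constructor <;> linarith

end Vale.Agent.P134S
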