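import Vale.Agent.P134S.SYM

/-!
# P134S: the blow-down is a monotone cone
-/

open MeasureTheory Metric Filter Topology Set
open Vale.Agent.P366.Stmt (E)

noncomputable section

namespace Vale.Agent.P134S

namespace Bld3

variable {N : ℕ} {ι : Type} {l : Filter ι}

theorem ion {f : E N → ℝ} (hf : Continuous f) (R : ℝ) : IntegrableOn f (ball (0 : E N) R) :=
  (hf.continuousOn.integrableOn_compact (isCompact_closedBall 0 R)).mono_set ball_subset_closedBall

theorem ion_ind {A : Set (E N)} (hA : MeasurableSet A) (R : ℝ) :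
    IntegrableOn (ind A) (ball (0 : E N) R) :=
  (ion continuous_const R).indicator hA

/-- the change of variables on balls -/
theorem cov_ball (v : E N) {t : ℝ} (ht : 0 < t) (R : ℝ) (g : E N → ℝ) :
    ∫ x in ball (0 : E N) R, g (v + t • x) = (t ^ N)⁻¹ * ∫ z in ball v (t * R), g z := by
  rw [← Sym.cov measurableSet_ball v ht g]
  congr 2
  ext x
  simp [norm_smul, abs_of_pos ht, ht]

/-- inclusion of the limits -/
theorem le_lim [l.NeBot] {f g : ι → E N → ℝ} {A B : Set (E N)} (hA : MeasurableSet A)
    (hB : MeasurableSet B) (hf : ∀ i, Continuous (f i)) (hg : ∀ i, Continuous (g i))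
    (h1 : Cv l f A) (h2 : Cv l g B) (h3 : ∀ R > (0 : ℝ),
      Tendsto (fun i => ∫ x in ball (0 : E N) R, max (f i x - g i x) 0) l (𝓝 0)) :
    ∀ᵐ x, x ∈ A → x ∈ B := by
  have key : ∀ k : ℕ, ∀ᵐ x, x ∈ ball (0 : E N) (k + 1) → max (ind A x - ind B x) 0 = 0 := by
    intro k
    set R : ℝ := k + 1
    have hi : IntegrableOn (fun x => max (ind A x - ind B x) 0) (ball (0 : E N) R) :=
      ((ion_ind hA R).sub (ion_ind hB R)).pos_part
    have h4 : ∫ x in ball (0 : E N) R, max (ind A x - ind B x) 0 ≤ 0 := by
      have h5 := ((h1 R).add (h2 R)).add (h3 R (by positivity))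
      rw [add_zero, add_zero] at h5
      refine ge_of_tendsto' h5 fun i => ?_
      have a1 : IntegrableOn (fun x => |f i x - ind A x|) (ball (0 : E N) R) :=
        ((ion (hf i) R).sub (ion_ind hA R)).abs
      have a2 : IntegrableOn (fun x => |g i x - ind B x|) (ball (0 : E N) R) :=
        ((ion (hg i) R).sub (ion_ind hB R)).abs
      have a3 : IntegrableOn (fun x => max (f i x - g i x) 0) (ball (0 : E N) R) :=
        ((ion (hf i) R).sub (ion (hg i) R)).pos_part
      have a4 : IntegrableOn (fun x => |f i x - ind A x| + |g i x - ind B x|)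
        (ball (0 : E N) R) := a1.add a2
      rw [← integral_add a1 a2, ← integral_add a4 a3]
      refine integral_mono hi (a4.add a3) fun x => max_le ?_ ?_
      · have b1 := neg_abs_le (f i x - ind A x)
        have b2 := le_abs_self (g i x - ind B x)
        have b3 := le_max_left (f i x - g i x) 0
        linarith
      · positivity
    have h6 := (setIntegral_eq_zero_iff_of_nonneg_ae (Eventually.of_forall fun x =>
      le_max_right _ _) hi).1 (le_antisymm h4 (integral_nonneg fun x => le_max_right _ _))
    exact (ae_restrict_iff' measurableSet_ball).1 h6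
  filter_upwards [ae_all_iff.2 key] with x hx ha
  obtain ⟨k, hk⟩ := exists_nat_gt ‖x‖
  have h7 := hx k (by rw [mem_ball_zero_iff]; linarith)
  by_contra hb
  simp [ind, ha, hb] at h7

/-- the convergence is stable under similarities -/
theorem cv_aff {f : ι → E N → ℝ} {A : Set (E N)} (hA : MeasurableSet A)
    (hf : ∀ i, Continuous (f i)) (h : Cv l f A) (v : E N) {t : ℝ} (ht : 0 < t) :
    Cv l (fun i x => f i (v + t • x)) {x | v + t • x ∈ A} := by
  intro R
  have h1 := (h (t * R + ‖v‖)).const_mul (t ^ N)⁻¹
  rw [mul_zero] at h1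
  refine squeeze_zero (fun i => integral_nonneg fun x => abs_nonneg _) (fun i => ?_) h1
  have h2 := cov_ball v ht R fun z => |f i z - ind A z|
  refine le_of_eq_of_le h2 (mul_le_mul_of_nonneg_left ?_ (by positivity))
  refine setIntegral_mono_set ((ion (hf i) _).sub (ion_ind hA _)).abs
    (Eventually.of_forall fun x => abs_nonneg _) (Eventually.of_forall ?_)
  exact ball_subset_ball' (by simp)

/-- the variation along rays -/
theorem ray_le {u : E N → ℝ} (hu : ContDiff ℝ 1 u) {t : ℝ} (ht : 1 ≤ t) {R : ℝ} (hR : 0 < R) :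
    ∫ x in ball (0 : E N) R, |u (t • x) - u x| ≤
      (t - 1) * ∫ y in ball (0 : E N) (t * R), |fderiv ℝ u y y| := by
  have cD : Continuous (fderiv ℝ u) := hu.continuous_fderiv one_ne_zero
  have cG : Continuous fun y => |fderiv ℝ u y y| := (cD.clm_apply continuous_id).abs
  have hI : Integrable (Function.uncurry fun (x : E N) (s : ℝ) => |fderiv ℝ u (s • x) (s • x)|)
      ((volume.restrict (ball (0 : E N) R)).prod (volume.restrict (Ioc 1 t))) := by
    rw [Measure.prod_restrict]
    have : Continuous (Function.uncurry fun (x : E N) (s : ℝ) => |fderiv ℝ u (s • x) (s • x)|) :=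
      cG.comp (continuous_snd.smul continuous_fst)
    exact (this.continuousOn.integrableOn_compact ((isCompact_closedBall 0 R).prod
      isCompact_Icc)).mono_set (prod_mono ball_subset_closedBall Ioc_subset_Icc_self)
  have h1 : ∀ x, |u (t • x) - u x| ≤ ∫ s in Ioc 1 t, |fderiv ℝ u (s • x) (s • x)| := fun x => by
    have hd : ∀ s : ℝ, HasDerivAt (fun s : ℝ => u (s • x)) (fderiv ℝ u (s • x) x) s := fun s =>
      (hu.differentiable one_ne_zero _).hasFDerivAt.comp_hasDerivAt s
        (by simpa using (hasDerivAt_id s).smul_const x)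
    have c2 : Continuous fun s : ℝ => fderiv ℝ u (s • x) x :=
      (cD.comp (by fun_prop)).clm_apply continuous_const
    have c3 : Continuous fun s : ℝ => |fderiv ℝ u (s • x) (s • x)| := cG.comp (by fun_prop)
    have e := intervalIntegral.integral_eq_sub_of_hasDerivAt (a := 1) (b := t)
      (fun s _ => hd s) (c2.intervalIntegrable _ _)
    rw [one_smul] at e
    rw [← e, ← intervalIntegral.integral_of_le ht]
    refine (intervalIntegral.abs_integral_le_integral_abs ht).trans
      (intervalIntegral.integral_mono_on ht (c2.abs.intervalIntegrable _ _)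
        (c3.intervalIntegrable _ _) fun s hs => ?_)
    rw [map_smul, smul_eq_mul, abs_mul, abs_of_pos (by linarith [hs.1] : 0 < s)]
    exact le_mul_of_one_le_left (abs_nonneg _) hs.1
  have h2 : ∀ s ∈ Ioc 1 t, ∫ x in ball (0 : E N) R, |fderiv ℝ u (s • x) (s • x)| ≤
      ∫ y in ball (0 : E N) (t * R), |fderiv ℝ u y y| := fun s hs => by
    have a1 := cov_ball 0 (by linarith [hs.1] : 0 < s) R fun y => |fderiv ℝ u y y|
    simp only [zero_add] at a1
    rw [a1]
    refine (mul_le_of_le_one_left (integral_nonneg fun y => abs_nonneg _)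
      (inv_le_one_of_one_le₀ (one_le_pow₀ hs.1.le))).trans ?_
    exact setIntegral_mono_set (ion cG _) (Eventually.of_forall fun y => abs_nonneg _)
      (Eventually.of_forall (ball_subset_ball (by nlinarith [hs.2])))
  have cu := hu.continuous
  calc _ ≤ ∫ x in ball (0 : E N) R, ∫ s in Ioc 1 t, |fderiv ℝ u (s • x) (s • x)| :=
        integral_mono (ion (by fun_prop) R) hI.integral_prod_left h1
    _ = ∫ s in Ioc 1 t, ∫ x in ball (0 : E N) R, |fderiv ℝ u (s • x) (s • x)| :=
        integral_integral_swap hI
    _ ≤ ∫ _s in Ioc 1 t, ∫ y in ball (0 : E N) (t * R), |fderiv ℝ u y y| :=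
        setIntegral_mono_on hI.integral_prod_right (integrableOn_const (by simp))
          measurableSet_Ioc h2
    _ = _ := by simp [ht]

/-- the variation of the rescaled functions along rays tends to zero -/
theorem ray_lim {w : E N → ℝ} {r : ι → ℝ} (hw : ContDiff ℝ 1 w) (ha : Fa w)
    (hr : Tendsto r l atTop) {t : ℝ} (ht : 1 ≤ t) {R : ℝ} (hR : 0 < R) :
    Tendsto (fun i => ∫ x in ball (0 : E N) R, |sc w (r i) (t • x) - sc w (r i) x|) l (𝓝 0) := by
  have hρ : 0 < t * R := by positivity
  have h1 : Tendsto (fun i => ∫ y in ball (0 : E N) (t * R), |fderiv ℝ (sc w (r i)) y y|) l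
      (𝓝 0) := by
    refine tendsto_order.2 ⟨fun c hc => Eventually.of_forall fun i =>
      hc.trans_le (integral_nonneg fun y => abs_nonneg _), fun c hc => ?_⟩
    have h2 := (hr.atTop_mul_const hρ).eventually
      (ha.rad (c / 2 / (t * R) ^ N) (by positivity))
    filter_upwards [h2, hr.eventually_gt_atTop 0] with i a1 a2
    have a3 := cov_ball 0 a2 (t * R) fun y => |fderiv ℝ w y y|
    have a4 : ∀ y, fderiv ℝ (sc w (r i)) y y = fderiv ℝ w (0 + r i • y) (0 + r i • y) := fun y => by
      have : sc w (r i) = fun z => w (r i • z) := rfl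
      rw [this, fderiv_comp_smul]
      simp
    simp only [a4]
    rw [a3]
    refine lt_of_le_of_lt (mul_le_mul_of_nonneg_left a1 (by positivity)) ?_
    have : (r i ^ N)⁻¹ * (c / 2 / (t * R) ^ N * (r i * (t * R)) ^ N) = c / 2 := by
      rw [mul_pow (r i)]; field_simp
    linarith
  have h3 := h1.const_mul (t - 1)
  rw [mul_zero] at h3
  exact squeeze_zero (fun i => integral_nonneg fun x => abs_nonneg _)
    (fun i => ray_le (hw.comp (contDiff_id.const_smul (r i))) ht hR) h3

end Bld3

open Bld3 in
/-- **BLD3** -/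
theorem bld3 : BLD3 := by
  intro N ι l w r A hl hx ha hr hA hc
  have cw : ∀ i, Continuous (sc w (r i)) := fun i =>
    hx.c1.continuous.comp (continuous_const_smul (r i))
  have mA : ∀ (v : E N) (t : ℝ), MeasurableSet {x | v + t • x ∈ A} := fun v t =>
    (by fun_prop : Measurable fun y : E N => v + t • y) hA
  have cT : ∀ (v : E N) (t : ℝ) i, Continuous fun x : E N => sc w (r i) (v + t • x) :=
    fun v t i => (cw i).comp (by fun_prop)
  have big : ∀ t : ℝ, 1 ≤ t → ∀ᵐ x, (t • x ∈ A ↔ x ∈ A) := fun t ht => by
    have h0 := cv_aff hA cw hc 0 (by linarith : 0 < t)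
    have h1 := le_lim hA (mA 0 t) cw (cT 0 t) hc h0 fun R hR => squeeze_zero
      (fun i => integral_nonneg fun x => le_max_right _ _) (fun i => integral_mono
        (ion (((cw i).sub (cT 0 t i)).max continuous_const) R)
        (ion (((cw i).comp (continuous_const_smul t)).sub (cw i)).abs R) fun x =>
          max_le (by rw [zero_add]; exact (le_abs_self _).trans_eq (abs_sub_comm _ _))
            (abs_nonneg _))
      (ray_lim hx.c1 ha hr ht hR)
    have h2 := le_lim (mA 0 t) hA (cT 0 t) cw h0 hc fun R hR => squeeze_zero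
      (fun i => integral_nonneg fun x => le_max_right _ _) (fun i => integral_mono
        (ion (((cT 0 t i).sub (cw i)).max continuous_const) R)
        (ion (((cw i).comp (continuous_const_smul t)).sub (cw i)).abs R) fun x =>
          max_le (by rw [zero_add]; exact le_abs_self _) (abs_nonneg _))
      (ray_lim hx.c1 ha hr ht hR)
    filter_upwards [h1, h2] with x a b
    exact ⟨fun k => b (by simpa using k), fun k => by simpa using a k⟩
  refine ⟨fun t ht => ?_, fun a hm t ht => ?_⟩
  · rcases le_total 1 t with h | h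
    · exact big t h
    · filter_upwards [(Measure.quasiMeasurePreserving_smul volume ht.ne').ae
        (big t⁻¹ ((one_le_inv₀ ht).2 h))] with x hx
      rw [← hx, inv_smul_smul₀ ht.ne']
  · have h1 := le_lim hA (mA (t • a) 1) cw (cT (t • a) 1) hc (cv_aff hA cw hc (t • a) one_pos)
      fun R _ => tendsto_const_nhds.congr' ?_
    · filter_upwards [h1] with x hx k
      simpa [add_comm] using hx k
    · filter_upwards [hr.eventually_ge_atTop 0] with i hi
      refine (integral_eq_zero_of_ae (Eventually.of_forall fun x => max_eq_right ?_)).symm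
      have := hm (r i • x) (r i * t) (mul_nonneg hi ht)
      simp only [sc, one_smul, smul_add, smul_smul, add_comm ((r i * t) • a)]
      exact sub_nonpos.2 this

/-- **BLD3** in the form used by the assembly -/
theorem bld3_of (_h : SCL) : BLD3 := bld3

end Vale.Agent.P134S
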