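import Vale.Agent.P134S.Defs

/-!
# P134S: the blow-down is minimising and not trivial
-/

open MeasureTheory Metric Filter Topology Set
open scoped ContDiff RealInnerProductSpace ENNReal
open Vale.Agent.P366.Stmt (E)
open Vale.Agent.P366W (dvg)

noncomputable section

namespace Vale.Agent.P134S

namespace Bld2

variable {N : ℕ} {ι : Type} {l : Filter ι} {W : ι → E N → ℝ} {A : Set (E N)}

theorem ion {f : E N → ℝ} (hf : Continuous f) (R : ℝ) : IntegrableOn f (ball (0 : E N) R) :=
  (hf.continuousOn.integrableOn_compact (isCompact_closedBall (0 : E N) R)).mono_set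
    ball_subset_closedBall

theorem ind_mul (g : E N → ℝ) : (fun x => ind A x * g x) = A.indicator g := by
  funext x
  by_cases h : x ∈ A <;> simp [ind, h]

theorem cv_compl (h : Cv l W A) : Cv l (fun i x => 1 - W i x) Aᶜ := fun R => by
  refine (h R).congr fun i => integral_congr_ae (Eventually.of_forall fun x => ?_)
  by_cases hx : x ∈ A
  · simp only [ind, hx, indicator_of_mem, mem_compl_iff, not_true_eq_false, not_false_eq_true,
      indicator_of_notMem, sub_zero]
    exact abs_sub_comm _ _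
  · simp [ind, hx]

theorem lim_ball (hA : MeasurableSet A) (hW : ∀ i, Continuous (W i)) (h : Cv l W A)
    {g : E N → ℝ} (hg : Continuous g) (R : ℝ) :
    Tendsto (fun i => ∫ x in ball (0 : E N) R, W i x * g x) l
      (𝓝 (∫ x in ball (0 : E N) R, ind A x * g x)) := by
  obtain ⟨M, hM⟩ := (isCompact_closedBall (0 : E N) R).exists_bound_of_continuousOn hg.continuousOn
  have i1 : IntegrableOn (ind A) (ball (0 : E N) R) :=
    (ion (continuous_const (y := (1 : ℝ))) R).indicator hA
  have i2 : IntegrableOn (fun x => ind A x * g x) (ball (0 : E N) R) := by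
    rw [ind_mul]
    exact (ion hg R).indicator hA
  rw [tendsto_iff_norm_sub_tendsto_zero]
  have h0 := (h R).const_mul M
  rw [mul_zero] at h0
  refine squeeze_zero (fun _ => norm_nonneg _) (fun i => ?_) h0
  have i3 : IntegrableOn (fun x => W i x * g x) (ball (0 : E N) R) := ion ((hW i).mul hg) R
  have i4 : IntegrableOn (fun x => M * |W i x - ind A x|) (ball (0 : E N) R) :=
    (((ion (hW i) R).sub i1).abs).const_mul M
  rw [← integral_sub i3 i2, ← integral_const_mul]
  refine norm_integral_le_of_norm_le i4 ?_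
  refine (ae_restrict_mem measurableSet_ball).mono fun x hx => ?_
  rw [← sub_mul, norm_mul, mul_comm]
  exact mul_le_mul_of_nonneg_right (hM x (ball_subset_closedBall hx)) (abs_nonneg _)

theorem lim_cs (hA : MeasurableSet A) (hW : ∀ i, Continuous (W i)) (h : Cv l W A)
    {g : E N → ℝ} (hg : Continuous g) (hc : HasCompactSupport g) :
    Tendsto (fun i => ∫ x, W i x * g x) l (𝓝 (∫ x in A, g x)) := by
  obtain ⟨R, hR⟩ := hc.isCompact.isBounded.subset_ball (0 : E N)
  have h0 : ∀ f : E N → ℝ, ∫ x in ball (0 : E N) R, f x * g x = ∫ x, f x * g x := fun f =>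
    setIntegral_eq_integral_of_forall_compl_eq_zero fun x hx => by
      rw [image_eq_zero_of_notMem_tsupport fun h' => hx (hR h'), mul_zero]
  have h1 := lim_ball hA hW h hg R
  simp only [h0] at h1
  rwa [ind_mul, integral_indicator hA] at h1

theorem hcs_of {φ : E N → ℝ} {Z : E N → E N} (hφ : Tf φ) (hZ : ∀ x, ‖Z x‖ ≤ φ x) :
    HasCompactSupport Z :=
  hφ.cs.mono fun x hx h0 => hx (norm_le_zero_iff.1 ((hZ x).trans_eq h0))

theorem parts0 {w : E N → ℝ} {Z : E N → E N} (hw : ContDiff ℝ 1 w)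
    (hZ : ContDiff ℝ 1 Z) (hc : HasCompactSupport Z) :
    ∫ x, (w x * dvg Z x + fderiv ℝ w x (Z x)) = 0 := by
  have h1 : ContDiff ℝ 1 fun y => w y • Z y := hw.smul hZ
  have h2 : HasCompactSupport fun y => w y • Z y :=
    hc.mono fun x hx h0 => hx (by simp [h0])
  rw [← P366W.integral_dvg_zero h1 h2]
  refine integral_congr_ae (Eventually.of_forall fun x => ?_)
  exact (P366W.dvg_smul (hw.differentiable one_ne_zero x) (hZ.differentiable one_ne_zero x)).symm

theorem int_app {w : E N → ℝ} {Z : E N → E N} (hw : ContDiff ℝ 1 w)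
    (hZ : Continuous Z) (hc : HasCompactSupport Z) : Integrable fun x => fderiv ℝ w x (Z x) := by
  have h1 : Continuous fun x => fderiv ℝ w x (Z x) :=
    (hw.continuous_fderiv one_ne_zero).clm_apply hZ
  have h2 : HasCompactSupport fun x => fderiv ℝ w x (Z x) :=
    hc.mono fun x hx h0 => hx (by simp [h0])
  exact h1.integrable_of_hasCompactSupport h2

theorem parts {w φ : E N → ℝ} {Z : E N → E N} (hw : ContDiff ℝ 1 w) (hφ : Tf φ)
    (hZ : ContDiff ℝ 1 Z) (hb : ∀ x, ‖Z x‖ ≤ φ x) :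
    ∫ x, w x * dvg Z x ≤ ∫ x, φ x * ‖fderiv ℝ w x‖ := by
  have hc := hcs_of hφ hb
  have hD : Continuous (fderiv ℝ w) := hw.continuous_fderiv one_ne_zero
  have h0 := parts0 hw hZ hc
  have i1 : Integrable fun x => w x * dvg Z x :=
    (hw.continuous.mul (P366W.continuous_dvg hZ)).integrable_of_hasCompactSupport
      (P366W.hcs_dvg hc).mul_left
  have i2 := int_app hw hZ.continuous hc
  have i3 : Integrable fun x => φ x * ‖fderiv ℝ w x‖ :=
    (hφ.c1.continuous.mul hD.norm).integrable_of_hasCompactSupport hφ.cs.mul_right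
  rw [integral_add i1 i2] at h0
  have h1 : ∫ x, -fderiv ℝ w x (Z x) ≤ ∫ x, φ x * ‖fderiv ℝ w x‖ := by
    refine integral_mono i2.neg i3 fun x => ?_
    have h2 := (fderiv ℝ w x).le_opNorm (Z x)
    have h3 := mul_le_mul_of_nonneg_left (hb x) (norm_nonneg (fderiv ℝ w x))
    have h4 := neg_le_abs (fderiv ℝ w x (Z x))
    rw [Real.norm_eq_abs] at h2
    dsimp only
    linarith
  rw [integral_neg] at h1
  linarith

theorem mn_of [l.NeBot] (hA : MeasurableSet A) (hW : ∀ i, Continuous (W i)) (h : Cv l W A)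
    (hF : ∀ᶠ i in l, Fx (W i)) : Mn A := by
  have key : ∀ (φ : E N → ℝ) (Z : E N → E N), Tf φ → ContDiff ℝ 1 Z → (∀ x, ‖Z x‖ ≤ φ x) →
      Tendsto (fun i => ∫ x, W i x * dvg Z x) l (𝓝 (∫ x in A, dvg Z x)) := fun φ Z hφ hZ hb =>
    lim_cs hA hW h (P366W.continuous_dvg hZ) (P366W.hcs_dvg (hcs_of hφ hb))
  have hn : ∀ φ : E N → ℝ, Tf φ → Continuous (fun x => ‖fderiv ℝ φ x‖) ∧
      HasCompactSupport fun x => ‖fderiv ℝ φ x‖ := fun φ hφ =>
    ⟨(hφ.c1.continuous_fderiv one_ne_zero).norm, (hφ.cs.fderiv ℝ).norm⟩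
  refine ⟨hA, fun φ Z hφ hZ hb => ?_, fun φ Z hφ hZ hb => ?_⟩
  · refine le_of_tendsto_of_tendsto (key φ Z hφ hZ hb)
      (lim_cs hA hW h (hn φ hφ).1 (hn φ hφ).2) (hF.mono fun i hi => ?_)
    exact (parts hi.c1 hφ hZ hb).trans (hi.f1 φ hφ)
  · refine le_of_tendsto_of_tendsto (key φ Z hφ hZ hb)
      (lim_cs hA.compl (fun i => continuous_const.sub (hW i)) (cv_compl h) (hn φ hφ).1
        (hn φ hφ).2) (hF.mono fun i hi => ?_)
    exact (parts hi.c1 hφ hZ hb).trans (hi.f2 φ hφ)

theorem ne_zero_of [l.NeBot] (hA : MeasurableSet A) (hW : ∀ i, Continuous (W i)) (h : Cv l W A)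
    {c : ℝ} (hc : 0 < c) (hl : ∀ᶠ i in l, c ≤ ∫ x in ball (0 : E N) 1, W i x) :
    volume A ≠ 0 := fun h0 => by
  have h1 := lim_ball hA hW h (continuous_const (y := (1 : ℝ))) 1
  have h2 : ∫ x in ball (0 : E N) 1, ind A x * 1 = 0 := by
    refine integral_eq_zero_of_ae (ae_restrict_of_ae ?_)
    refine (measure_eq_zero_iff_ae_notMem.1 h0).mono fun x hx => ?_
    simp [ind, hx]
  rw [h2] at h1
  simp only [mul_one] at h1
  exact absurd (ge_of_tendsto h1 hl) (not_le.2 hc)

theorem low_sc (h : SCL) {w : E N → ℝ} {c r : ℝ} (hr : 0 < r)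
    (hl : c * r ^ N ≤ ∫ x in ball (0 : E N) r, w x) : c ≤ ∫ x in ball (0 : E N) 1, sc w r x := by
  rw [(h N w r hr).2 1, mul_one, inv_pow, le_inv_mul_iff₀ (pow_pos hr N), mul_comm]
  exact hl

end Bld2

open Bld2 in
theorem bld2_of (h : SCL) : BLD2 := by
  intro N ι l w r A hl hw ha hr hA hcv
  have hW : ∀ i, Continuous (sc w (r i)) := fun i =>
    hw.c1.continuous.comp (continuous_const_smul (r i))
  have hpos : ∀ᶠ i in l, 0 < r i := hr.eventually_gt_atTop 0
  obtain ⟨c, hc, hlow⟩ := ha.low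
  refine ⟨mn_of hA hW hcv (hpos.mono fun i hi => (h N w _ hi).1 hw), ?_, ?_⟩
  · refine ne_zero_of hA hW hcv hc ?_
    filter_upwards [hpos, hr.eventually hlow] with i hi hi'
    exact low_sc h hi hi'.1
  · refine ne_zero_of hA.compl (fun i => continuous_const.sub (hW i)) (cv_compl hcv) hc ?_
    filter_upwards [hpos, hr.eventually hlow] with i hi hi'
    exact low_sc h (w := fun x => 1 - w x) hi hi'.2

end Vale.Agent.P134S
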