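import Vale.Agent.P134S.Defs

/-!
# P134S: the set is trivial where the measure vanishes
-/

open MeasureTheory Metric Filter Topology Set
open scoped ContDiff RealInnerProductSpace ENNReal
open Vale.Agent.P366.Stmt (E)

noncomputable section

namespace Vale.Agent.P134S

variable {N : ℕ}

theorem const_ball {μ : Measure (E N)} {A U : Set (E N)} {θ η : ℕ → E N → ℝ} (hm : Ml A θ η)
    (hp : Pr μ A) (hU : μ U = 0) {x : E N} {r : ℝ} (hr : 0 < r) (hx : ball x (2 * r) ⊆ U) :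
    (∀ᵐ y, y ∈ ball x r → y ∈ A) ∨ ∀ᵐ y, y ∈ ball x r → y ∉ A := by
  have h1 : ∀ k : ℕ, 1 / ((k : ℝ) + 1) ≤ r → ∀ y ∈ ball x r, fderiv ℝ (θ k) y = 0 := by
    intro k hk y hy
    have h2 := hm.grad μ hp k y
    have h3 : ∫ z, η k (y - z) ∂μ = 0 := by
      apply integral_eq_zero_of_ae
      have : ∀ᵐ z ∂μ, z ∉ U := measure_eq_zero_iff_ae_notMem.1 hU
      filter_upwards [this] with z hz
      apply hm.sup
      have h4 : 2 * r ≤ dist z x := by
        by_contra h5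
        exact hz (hx (mem_ball.2 (not_le.1 h5)))
      have h5 : dist y x < r := mem_ball.1 hy
      have h6 := dist_triangle z y x
      rw [← dist_eq_norm, dist_comm]
      linarith
    rw [h3] at h2
    exact norm_le_zero_iff.1 h2
  have h2 : ∀ k : ℕ, 1 / ((k : ℝ) + 1) ≤ r → ∀ y ∈ ball x r, ∀ z ∈ ball x r, θ k y = θ k z := by
    intro k hk y hy z hz
    refine isOpen_ball.is_const_of_fderiv_eq_zero (𝕜 := ℝ) (convex_ball x r).isPreconnected
      (((hm.smθ k).differentiable (by simp)).differentiableOn) (fun w hw => h1 k hk w hw) hy hz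
  have h3 : ∀ᶠ k : ℕ in atTop, 1 / ((k : ℝ) + 1) ≤ r :=
    (tendsto_one_div_add_atTop_nhds_zero_nat (𝕜 := ℝ)).eventually (eventually_le_nhds hr)
  have h4 : ∀ y ∈ ball x r, ∀ z ∈ ball x r, Tendsto (fun k => θ k y) atTop (𝓝 (ind A y)) →
      Tendsto (fun k => θ k z) atTop (𝓝 (ind A z)) → ind A y = ind A z := by
    intro y hy z hz ty tz
    refine tendsto_nhds_unique_of_eventuallyEq ty tz ?_
    filter_upwards [h3] with k hk using h2 k hk y hy z hz
  by_cases h5 : ∃ y ∈ ball x r, y ∈ A ∧ Tendsto (fun k => θ k y) atTop (𝓝 (ind A y))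
  · obtain ⟨y, hy, hyA, ty⟩ := h5
    left
    filter_upwards [hm.lim] with z tz hz
    have h6 := h4 y hy z hz ty tz
    by_contra hzA
    simp [ind, hyA, hzA] at h6
  · right
    filter_upwards [hm.lim] with z tz hz hzA
    exact h5 ⟨z, hz, hzA, tz⟩

theorem ae_of_loc {U : Set (E N)} {p : E N → Prop}
    (h : ∀ x ∈ U, ∃ r > (0 : ℝ), ∀ᵐ y, y ∈ ball x r → p y) : ∀ᵐ y, y ∈ U → p y := by
  rw [ae_iff]
  apply measure_null_of_locally_null
  intro x hx
  have hxU : x ∈ U := by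
    by_contra h1
    exact hx fun h2 => absurd h2 h1
  obtain ⟨r, hr, h2⟩ := h x hxU
  refine ⟨{a | ¬ (a ∈ U → p a)} ∩ ball x r, inter_mem_nhdsWithin _ (ball_mem_nhds x hr), ?_⟩
  rw [ae_iff] at h2
  refine measure_mono_null ?_ h2
  rintro y ⟨hy1, hy2⟩ hy3
  exact hy1 fun _ => hy3 hy2

theorem open_loc (p : E N → Prop) :
    IsOpen {x : E N | ∃ r > (0 : ℝ), ∀ᵐ y, y ∈ ball x r → p y} := by
  rw [Metric.isOpen_iff]
  rintro x ⟨r, hr, h⟩
  refine ⟨r / 2, by positivity, fun z hz => ⟨r / 2, by positivity, ?_⟩⟩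
  filter_upwards [h] with y hy hyz
  apply hy
  have h1 := dist_triangle y z x
  rw [mem_ball] at *
  linarith

theorem const_of (h : MOL) : CONST := by
  intro N μ A U hp hUo hUc hU
  obtain ⟨θ, η, hm⟩ := h N A hp.ms
  have hcov : U ⊆ {x : E N | ∃ r > (0 : ℝ), ∀ᵐ y, y ∈ ball x r → y ∈ A} ∪
      {x : E N | ∃ r > (0 : ℝ), ∀ᵐ y, y ∈ ball x r → y ∉ A} := by
    intro x hx
    obtain ⟨ε, hε, hb⟩ := Metric.isOpen_iff.1 hUo x hx
    have hr : 0 < ε / 2 := by positivity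
    have hb' : ball x (2 * (ε / 2)) ⊆ U := by
      rwa [show 2 * (ε / 2) = ε by ring]
    rcases const_ball hm hp hU hr hb' with h1 | h1
    · exact Or.inl ⟨_, hr, h1⟩
    · exact Or.inr ⟨_, hr, h1⟩
  have hdis : Disjoint {x : E N | ∃ r > (0 : ℝ), ∀ᵐ y, y ∈ ball x r → y ∈ A}
      {x : E N | ∃ r > (0 : ℝ), ∀ᵐ y, y ∈ ball x r → y ∉ A} := by
    rw [Set.disjoint_left]
    rintro x ⟨r, hr, h1⟩ ⟨s, hs, h2⟩
    have h3 : ∀ᵐ y, y ∉ ball x (min r s) := by
      filter_upwards [h1, h2] with y hy1 hy2 hy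
      exact hy2 (ball_subset_ball (min_le_right _ _) hy)
        (hy1 (ball_subset_ball (min_le_left _ _) hy))
    have h4 : volume (ball x (min r s)) = 0 := measure_eq_zero_iff_ae_notMem.2 h3
    exact (measure_ball_pos volume x (lt_min hr hs)).ne' h4
  rcases hUc.subset_or_subset (open_loc _) (open_loc _) hdis hcov with h1 | h1
  · exact Or.inl (ae_of_loc fun x hx => h1 hx)
  · exact Or.inr (ae_of_loc fun x hx => h1 hx)

end Vale.Agent.P134S
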