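import Vale.Agent.P134S.Defs

/-!
# P134S: cylinders (row CYL)
-/

open MeasureTheory Metric Filter Topology Set
open scoped RealInnerProductSpace
open Vale.Agent.P366.Stmt (E)
open Vale.Agent.P366W (Fr adj)

noncomputable section

namespace Vale.Agent.P134S

variable {n : ℕ} {e : E (n + 1)} {L : E n →ₗᵢ[ℝ] E (n + 1)}

theorem vol_cyl (h : Fr e L) {A : Set (E n)} (hA : MeasurableSet A) :
    volume (cyl L A) = volume A * ⊤ := by
  rw [← h.mp0.measure_preimage (s := cyl L A)
    ((adj L).continuous.measurable hA).nullMeasurableSet, ← Real.volume_univ, ← Measure.prod_prod]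
  congr 1
  ext z
  simp only [cyl, mem_preimage, mem_ofPred_eq, h.adj_pt, mem_prod, mem_univ, and_true]

theorem qmp_adj (h : Fr e L) : Measure.QuasiMeasurePreserving (adj L) volume volume :=
  ⟨(adj L).continuous.measurable, .mk fun s hs h0 => by
    rw [Measure.map_apply (adj L).continuous.measurable hs]
    exact (vol_cyl h hs).trans (by rw [h0, zero_mul])⟩

/-- **CYL** -/
theorem cyl_all : CYL := fun n e L A h hA => by
  have up : ∀ v, adj L v = 0 → Up (cyl L A) v := fun v hv t _ =>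
    .of_forall fun x (m : adj L x ∈ A) => show adj L _ ∈ A by simpa [hv] using m
  refine ⟨fun c t ht => ((qmp_adj h).ae (c t ht)).mono fun x m => by simpa [cyl] using m,
    fun a c t ht => ((qmp_adj h).ae (c t ht)).mono fun x m => by
      simpa [cyl, P366W.adj_L] using m,
    up e h.adj_e, up _ (by simp [h.adj_e]), fun m => by simp [vol_cyl h hA, m],
    fun m => (vol_cyl h hA.compl).trans_ne (by simp [m]), fun e' h1 hs => ?_⟩
  have k : ∀ᵐ y, ∀ᵐ t : ℝ, (y ∈ A ↔ 0 < ⟪adj L e', y⟫ + t * ⟪e, e'⟫) :=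
    (Measure.ae_ae_of_ae_prod (h.mp0.quasiMeasurePreserving.ae hs)).mono fun y m =>
      m.mono fun t m => by
        rwa [cyl, mem_ofPred_eq, h.adj_pt, inner_add_right, inner_smul_right, real_inner_comm,
          ← P366W.inner_adj, real_inner_comm, real_inner_comm e] at m
  have c0 : ⟪e, e'⟫ = 0 := by_contra fun c => by
    obtain ⟨y, m⟩ := k.exists
    have d := Measure.dense_of_ae m
    have o : ∀ s : ℝ, ∃ t : ℝ, 0 < s * (⟪adj L e', y⟫ + t * ⟪e, e'⟫) ∧
        (y ∈ A ↔ 0 < ⟪adj L e', y⟫ + t * ⟪e, e'⟫) ∨ s = 0 := fun s => by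
      by_cases s0 : s = 0
      · exact ⟨0, .inr s0⟩
      obtain ⟨t, t1, t2⟩ := d.inter_open_nonempty
        {t : ℝ | 0 < s * (⟪adj L e', y⟫ + t * ⟪e, e'⟫)} (isOpen_lt continuous_const (by fun_prop))
        ⟨(s - ⟪adj L e', y⟫) / ⟪e, e'⟫, by
          rw [mem_ofPred_eq, div_mul_cancel₀ _ c, add_sub_cancel]; exact mul_self_pos.2 s0⟩
      exact ⟨t, .inl ⟨t1, t2⟩⟩
    obtain ⟨t, ⟨t1, t2⟩ | t0⟩ := o 1
    obtain ⟨u, ⟨u1, u2⟩ | u0⟩ := o (-1)
    · linarith [u2.1 (t2.2 (by linarith))]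
    · norm_num at u0
    · norm_num at t0
  refine ⟨adj L e', ?_, k.mono fun y m => by simpa [c0] using m.exists⟩
  have := h.norm_sq (adj L e') ⟪e, e'⟫
  rw [h.dec, h1, c0] at this
  nlinarith [norm_nonneg (adj L e')]

end Vale.Agent.P134S
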