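import Vale.Agent.P134S.Defs
import Vale.Agent.P366C.All
import Vale.Agent.P366P.MJac2
import Vale.Agent.P366D.Dbl
import Vale.Agent.P366M.Sard

/-!
# P134S: the capillary equation on a ball
-/

open MeasureTheory Metric Filter Topology Set
open scoped ContDiff RealInnerProductSpace
open Vale.Agent.P366.Stmt (E)
open Vale.Agent.P366M Vale.Agent.P366M.Gr Vale.Agent.P366M.Y.C

noncomputable section

namespace Vale.Agent.P134S.C0

variable {n : ℕ}

/-- Euclidean space with one chart -/
@[reducible] def mf (n : ℕ) : Mf0 n (E n) where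
  toMetricSpace := inferInstance
  toMeasurableSpace := inferInstance
  toChartedSpace := chartedSpaceSelf (E n)
  bor := inferInstance
  sc := inferInstance
  ne := inferInstance
  tgt e he := by rw [chartedSpaceSelf_atlas.1 he]; rfl
  trans e he e' he' y _ := by
    rw [chartedSpaceSelf_atlas.1 he, chartedSpaceSelf_atlas.1 he']
    exact contDiffAt_id

attribute [local instance] mf

theorem sm_of {f : E n → ℝ} (h : ContDiff ℝ ∞ f) : Smooth f :=
  cd_of_cAt le_rfl fun _ => h.contDiffAt

theorem of_sm {f : E n → ℝ} (h : Smooth f) : ContDiff ℝ ∞ f := h _ (ch_mem (0 : E n))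

theorem pd_fd {f : E n → ℝ} {x : E n} (h : DifferentiableAt ℝ f x) (i : Fin n) :
    P366.Stmt.pd i f x = fderiv ℝ f x (EuclideanSpace.single i 1) := h.lineDeriv_eq_fderiv

theorem J_one (x y : E n) : J (ch x) y = 1 := by
  ext k i
  show P366.Stmt.pd i (fun z : E n => z k) y = _
  rw [pd_fd (by fun_prop), show (fun z : E n => z k) = EuclideanSpace.proj (𝕜 := ℝ) k from rfl,
    ContinuousLinearMap.fderiv]
  simp [Matrix.one_apply]

theorem rep_eu (x y : E n) (i j : Fin n) :
    rep (ch x) (eu n) y i j = if i = j then 1 else 0 := by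
  simp [rep, J_one, eu, Matrix.one_apply, eq_comm]

theorem mat_eu (x : E n) : mat (eu n) x = 1 := by
  ext i j
  simp [mat, eu, Matrix.one_apply]

theorem met : Met (eu n (M := E n)) where
  sm := smT_of fun x => ⟨_, ch_mem x, mem_ch x, fun i j => by
    simp only [rep_eu]; exact contDiffAt_const⟩
  sy x i j := by simp [eu, eq_comm]
  pos x := by rw [mat_eu]; exact Matrix.PosDef.one

theorem up_eu (x : E n) (i j : Fin n) : up (eu n) i j x = if i = j then 1 else 0 := by
  simp [up, mat_eu, Matrix.one_apply]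

theorem pd_grad {f : E n → ℝ} (h : ContDiff ℝ ∞ f) (x : E n) (i : Fin n) :
    pd i f x = gradient f x i := by
  show P366.Stmt.pd i f x = _
  rw [pd_fd (h.differentiable (by simp) x), ← inner_gradient_left,
    EuclideanSpace.inner_single_right]
  simp

theorem nv_eq {f : E n → ℝ} (h : ContDiff ℝ ∞ f) (i : Fin n) (x : E n) :
    nv (eu n) f i x = nr f x i := by
  have h1 : ip (eu n) f f x = ‖gradient f x‖ ^ 2 := by
    rw [EuclideanSpace.real_norm_sq_eq]
    simp [ip, up_eu, pd_grad h, sq]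
  rw [nv, ww_one, h1]
  simp [P366M.gr, up_eu, pd_grad h, nr, div_eq_inv_mul]

theorem sm_nr {f : E n → ℝ} (h : ContDiff ℝ ∞ f) : ContDiff ℝ ∞ (nr f) := by
  have h1 : ContDiff ℝ ∞ (gradient f) :=
    (InnerProductSpace.toDual ℝ (E n)).symm.contDiff.comp (h.fderiv_right (m := ∞) (by simp))
  have h2 : ∀ x, 0 < 1 + ‖gradient f x‖ ^ 2 := fun x => by positivity
  exact (((contDiff_const.add (h1.norm_sq ℝ)).sqrt fun x => (h2 x).ne').inv
    fun x => (Real.sqrt_pos.2 (h2 x)).ne').smul h1

theorem hw_eq {f : E n → ℝ} (h : ContDiff ℝ ∞ f) (x : E n) :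
    hw (eu n) (fun _ => 0) f x = mc f x := by
  have h1 : dn (eu n) f (fun _ => 0) x = 0 := by simp [dn, ip, pd_const]
  have h2 : ∀ y, P366Z.dens (rep (ch x) (eu n)) y = 1 := fun y => by
    have : P366.Stmt.mat (rep (ch x) (eu n)) y = 1 := by
      ext i j
      exact (rep_eu x y i j).trans (Matrix.one_apply).symm
    simp [P366Z.dens, this]
  have h3 : ∀ i, repV (ch x) (nv (eu n) f) i = fun y => nr f y i := fun i => funext fun y => by
    have : (ch x).symm y = y := rfl
    simp [repV, J_one, Matrix.one_apply, this, nv_eq h]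
  have h4 := (sm_nr h).differentiable (by simp) x
  rw [hw, h1, add_zero, dv, P366Z.dv]
  simp only [h2, h3, one_mul, div_one, mc, P366W.dvg]
  refine Finset.sum_congr rfl fun i _ => ?_
  have h5 := (EuclideanSpace.proj (𝕜 := ℝ) i).hasFDerivAt.comp x h4.hasFDerivAt
  exact (pd_fd h5.differentiableAt i).trans (by rw [h5.fderiv]; rfl)

end C0

open C0

attribute [local instance] mf

theorem cap0 : CAP0 := by
  intro n b R τ hn hb hτ
  have hw0 : Smooth fun x : E n => ‖x‖ ^ 2 := sm_of (contDiff_norm_sq ℝ)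
  obtain ⟨K', k1, k2⟩ := exists_regular hw0 (lt_add_one (R ^ 2 + 1))
  obtain ⟨X, _, _, π, σ, h⟩ := P366D.dbl met hw0 k1.1
    ((isCompact_closedBall (0 : E n) √K').of_isClosed_subset
      (isClosed_le hw0.cont continuous_const) fun x hx =>
        mem_closedBall_zero_iff.2 (Real.le_sqrt_of_sq_le hx)) k2 (z₀ := 0)
    (by simp only [norm_zero]; nlinarith [k1.1, sq_nonneg R])
  have hL : An.Lft (fun _ : X => 0) (fun _ => 0) univ :=
    ⟨cd_const, isOpen_univ, fun _ _ => ⟨0, by simp⟩⟩
  obtain ⟨z, z1, z2⟩ := An.capx n hn X bg (fun _ => 0) (fun _ => 0) (fun _ => 0)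
    (fun x => b (π x)) (fun _ => 0) τ 0 ⟨bg_met, cd_const, fun x => ⟨_, _, hL, mem_univ x⟩,
      cd_const, P366D.smooth_comp h.sm (sm_of hb), fun _ => le_rfl, contDiff_const,
      monotone_const, fun _ => by simp, hτ⟩
  have z3 := fun x => z2 _ _ hL x (mem_univ x)
  simp only [mul_zero, sub_zero, add_zero] at z3
  have hV : ∀ x ∈ closedBall (0 : E n) R, ‖x‖ ^ 2 < R ^ 2 + 1 := fun x hx => by
    linarith [pow_le_pow_left₀ (norm_nonneg _) (mem_closedBall_zero_iff.1 hx) 2]
  obtain ⟨f, f1, f2⟩ := exists_smooth (u := fun x => z (σ x)) (isCompact_closedBall (0 : E n) R)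
    fun x hx => eventually_of_mem (h.opn.mem_nhds (hV x hx)) fun y hy =>
      (h.sms y hy).cAt le_rfl (CD.contDiffAt z1)
  refine ⟨f, of_sm f1, fun x hx => ?_⟩
  replace hx := ball_subset_closedBall hx
  have v := hV x hx
  have e := h.rt x v
  have h1 := hw_iso (φ := fun _ => 0) (φ' := fun _ => 0) (u := f) (w := z) (h.iso x v) (f1.c2 _)
    (dAt_const _) (by
      filter_upwards [h.lf x v, (h.sm _).ct.eventually (show f =ᶠ[𝓝 (π (σ x))] fun x => z (σ x) by
        rw [e]; exact f2 x hx)] with y a b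
      exact (b.trans (congrArg z a)).symm) .rfl
  rw [z3, e, hw_eq (of_sm f1)] at h1
  rw [← h1, (f2 x hx).self_of_nhds]

end Vale.Agent.P134S
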