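import Mathlib

/-! P134S: compactness in `L¹_loc` of bounded families with bounded variation, along an
ultrafilter. -/

set_option linter.unusedSectionVars false

open MeasureTheory Set Filter Topology Metric

namespace Vale.Agent.P134S.L1c

variable {E : Type*} [NormedAddCommGroup E] [NormedSpace ℝ E] [FiniteDimensional ℝ E]
  [MeasurableSpace E] [BorelSpace E] {μ : Measure E} [μ.IsAddHaarMeasure]

lemma ion {f : E → ℝ} (hf : Continuous f) (c : E) (r : ℝ) : IntegrableOn f (closedBall c r) μ :=
  hf.continuousOn.integrableOn_compact (isCompact_closedBall c r)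

lemma swap {Y : Type*} [MetricSpace Y] [ProperSpace Y] [MeasurableSpace Y] [BorelSpace Y]
    {ν : Measure Y} [IsLocallyFiniteMeasure ν] {f : E → Y → ℝ}
    (hf : Continuous (Function.uncurry f)) {s : Set E} {t : Set Y} (hs : IsCompact s)
    (ht : IsCompact t) :
    ∫ x in s, (∫ y in t, f x y ∂ν) ∂μ = ∫ y in t, (∫ x in s, f x y ∂μ) ∂ν := by
  refine integral_integral_swap ?_
  rw [Measure.prod_restrict]
  exact hf.continuousOn.integrableOn_compact (hs.prod ht)

lemma shift_le {D : E → ℝ} (hD : Continuous D) (h0 : ∀ x, 0 ≤ D x) {ρ R : ℝ} {v : E}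
    (h : ρ + ‖v‖ ≤ R) :
    ∫ x in closedBall (0 : E) ρ, D (x + v) ∂μ ≤ ∫ x in closedBall (0 : E) R, D x ∂μ := by
  have e : ∫ x in closedBall (0 : E) ρ, D (x + v) ∂μ = ∫ x in closedBall v ρ, D x ∂μ := by
    rw [← integral_indicator measurableSet_closedBall,
      ← integral_indicator measurableSet_closedBall,
      ← integral_add_right_eq_self (fun x => (closedBall v ρ).indicator D x) v]
    congr 1
    funext x
    by_cases hx : x ∈ closedBall (0 : E) ρ
    · have : x + v ∈ closedBall v ρ := by simpa using hx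
      rw [indicator_of_mem hx, indicator_of_mem this]
    · have : x + v ∉ closedBall v ρ := by simpa using hx
      rw [indicator_of_notMem hx, indicator_of_notMem this]
  rw [e]
  refine setIntegral_mono_set (ion hD _ _) (Eventually.of_forall h0) (Eventually.of_forall ?_)
  exact closedBall_subset_closedBall' (by simpa using h)

omit [FiniteDimensional ℝ E] [MeasurableSpace E] [BorelSpace E] in
lemma seg_le {w : E → ℝ} (hw : ContDiff ℝ 1 w) (x h : E) :
    |w (x + h) - w x| ≤ ‖h‖ * ∫ t in Icc (0 : ℝ) 1, ‖fderiv ℝ w (x + t • h)‖ := by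
  have cD : Continuous (fderiv ℝ w) := hw.continuous_fderiv (by norm_num)
  have c1 : Continuous fun t : ℝ => fderiv ℝ w (x + t • h) := cD.comp (by fun_prop)
  have hd : ∀ t : ℝ, HasDerivAt (fun t : ℝ => w (x + t • h)) (fderiv ℝ w (x + t • h) h) t := by
    intro t
    have h3 : HasDerivAt (fun t : ℝ => x + t • h) h t := by
      simpa using ((hasDerivAt_id t).smul_const h).const_add x
    exact (hw.differentiable (by norm_num) _).hasFDerivAt.comp_hasDerivAt t h3
  have c2 : Continuous fun t : ℝ => fderiv ℝ w (x + t • h) h := c1.clm_apply continuous_const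
  have e := intervalIntegral.integral_eq_sub_of_hasDerivAt (a := 0) (b := 1) (fun t _ => hd t)
    (c2.intervalIntegrable _ _)
  simp only [one_smul, zero_smul, add_zero] at e
  rw [← e, intervalIntegral.integral_of_le zero_le_one, ← integral_Icc_eq_integral_Ioc,
    ← integral_const_mul]
  refine (abs_integral_le_integral_abs).trans (setIntegral_mono_on
    (c2.abs.continuousOn.integrableOn_compact isCompact_Icc)
    ((continuous_const.mul c1.norm).continuousOn.integrableOn_compact isCompact_Icc)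
    measurableSet_Icc fun t _ => ?_)
  rw [mul_comm]
  exact (fderiv ℝ w (x + t • h)).le_opNorm h

/-- the translation estimate. -/
lemma trans_le {w : E → ℝ} (hw : ContDiff ℝ 1 w) {ρ R : ℝ} {c h : E}
    (hR : ρ + ‖c‖ + ‖h‖ ≤ R) :
    ∫ x in closedBall (0 : E) ρ, |w (x + c + h) - w (x + c)| ∂μ
      ≤ ‖h‖ * ∫ x in closedBall (0 : E) R, ‖fderiv ℝ w x‖ ∂μ := by
  have cD : Continuous fun x => ‖fderiv ℝ w x‖ := (hw.continuous_fderiv (by norm_num)).norm
  have cw := hw.continuous
  have cF : Continuous (Function.uncurry fun (x : E) (t : ℝ) => ‖fderiv ℝ w (x + c + t • h)‖) :=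
    cD.comp (f := fun p : E × ℝ => p.1 + c + p.2 • h) (by fun_prop)
  have cI : Continuous fun x : E => ∫ t in Icc (0 : ℝ) 1, ‖fderiv ℝ w (x + c + t • h)‖ :=
    continuous_parametric_integral_of_continuous cF isCompact_Icc
  have cJ : Continuous fun t : ℝ =>
      ∫ x in closedBall (0 : E) ρ, ‖fderiv ℝ w (x + c + t • h)‖ ∂μ :=
    continuous_parametric_integral_of_continuous
      (f := fun (t : ℝ) (x : E) => ‖fderiv ℝ w (x + c + t • h)‖)
      (cD.comp (f := fun p : ℝ × E => p.2 + c + p.1 • h) (by fun_prop)) (isCompact_closedBall _ _)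
  calc ∫ x in closedBall (0 : E) ρ, |w (x + c + h) - w (x + c)| ∂μ
      ≤ ∫ x in closedBall (0 : E) ρ,
          ‖h‖ * (∫ t in Icc (0 : ℝ) 1, ‖fderiv ℝ w (x + c + t • h)‖) ∂μ :=
        setIntegral_mono_on (ion (by fun_prop) _ _) (ion (continuous_const.mul cI) _ _)
          measurableSet_closedBall fun x _ => seg_le hw _ _
    _ = ‖h‖ * ∫ t in Icc (0 : ℝ) 1,
          ∫ x in closedBall (0 : E) ρ, ‖fderiv ℝ w (x + c + t • h)‖ ∂μ := by
        rw [integral_const_mul, swap cF (isCompact_closedBall _ _) isCompact_Icc]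
    _ ≤ ‖h‖ * ∫ _t in Icc (0 : ℝ) 1, ∫ x in closedBall (0 : E) R, ‖fderiv ℝ w x‖ ∂μ := by
        refine mul_le_mul_of_nonneg_left (setIntegral_mono_on
          (cJ.continuousOn.integrableOn_compact isCompact_Icc)
          (continuous_const.continuousOn.integrableOn_compact isCompact_Icc) measurableSet_Icc
          fun t ht => ?_) (norm_nonneg _)
        simp_rw [add_assoc]
        refine shift_le cD (fun _ => norm_nonneg _) ?_
        have h1 : ‖c + t • h‖ ≤ ‖c‖ + ‖h‖ := by
          refine (norm_add_le _ _).trans (add_le_add le_rfl ?_)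
          rw [norm_smul, Real.norm_of_nonneg ht.1]
          exact mul_le_of_le_one_left (norm_nonneg _) ht.2
        linarith
    _ = _ := by simp

/-- averages over small balls. -/
noncomputable def av (μ : Measure E) (ε : ℝ) (w : E → ℝ) (x : E) : ℝ :=
  (μ.real (closedBall (0 : E) ε))⁻¹ * ∫ h in closedBall (0 : E) ε, w (h + x) ∂μ

lemma vol_pos {ε : ℝ} (hε : 0 < ε) : 0 < μ.real (closedBall (0 : E) ε) :=
  ENNReal.toReal_pos (measure_closedBall_pos μ 0 hε).ne' measure_closedBall_lt_top.ne

lemma av_cont {w : E → ℝ} (hw : Continuous w) (ε : ℝ) : Continuous (av μ ε w) :=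
  continuous_const.mul (continuous_parametric_integral_of_continuous
    (f := fun (x h : E) => w (h + x)) (hw.comp (f := fun p : E × E => p.2 + p.1) (by fun_prop))
    (isCompact_closedBall _ _))

lemma av_sub {w : E → ℝ} (hw : Continuous w) {ε : ℝ} (hε : 0 < ε) (x : E) (a : ℝ) :
    |av μ ε w x - a|
      ≤ (μ.real (closedBall (0 : E) ε))⁻¹ * ∫ h in closedBall (0 : E) ε, |w (h + x) - a| ∂μ := by
  have hp := vol_pos (μ := μ) hε
  have e : av μ ε w x - a
      = (μ.real (closedBall (0 : E) ε))⁻¹ * ∫ h in closedBall (0 : E) ε, (w (h + x) - a) ∂μ := by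
    rw [integral_sub (ion (by fun_prop) _ _) (ion continuous_const _ _), setIntegral_const,
      smul_eq_mul, av]
    field_simp
  rw [e, abs_mul, abs_of_pos (inv_pos.mpr hp)]
  exact mul_le_mul_of_nonneg_left abs_integral_le_integral_abs (inv_pos.mpr hp).le

lemma av_abs {w : E → ℝ} (hw : Continuous w) (h1 : ∀ x, |w x| ≤ 1) {ε : ℝ} (hε : 0 < ε)
    (x : E) : |av μ ε w x| ≤ 1 := by
  have hp := vol_pos (μ := μ) hε
  have h2 := av_sub (μ := μ) hw hε x 0
  simp only [sub_zero] at h2
  refine h2.trans ?_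
  rw [inv_mul_le_iff₀ hp]
  calc ∫ h in closedBall (0 : E) ε, |w (h + x)| ∂μ ≤ ∫ _h in closedBall (0 : E) ε, (1 : ℝ) ∂μ :=
        setIntegral_mono_on (ion (by fun_prop) _ _) (ion continuous_const _ _)
          measurableSet_closedBall fun h _ => h1 _
    _ = _ := by simp

lemma av_lip {w : E → ℝ} (hw : ContDiff ℝ 1 w) {ε R : ℝ} (hε : 0 < ε) {x y : E}
    (hR : ε + ‖x‖ + ‖y - x‖ ≤ R) :
    |av μ ε w y - av μ ε w x| ≤ (μ.real (closedBall (0 : E) ε))⁻¹ *
      (‖y - x‖ * ∫ x in closedBall (0 : E) R, ‖fderiv ℝ w x‖ ∂μ) := by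
  have hp := vol_pos (μ := μ) hε
  have cw := hw.continuous
  rw [av, av, ← mul_sub, abs_mul, abs_of_pos (inv_pos.mpr hp),
    ← integral_sub (ion (by fun_prop) _ _) (ion (by fun_prop) _ _)]
  refine mul_le_mul_of_nonneg_left (abs_integral_le_integral_abs.trans ?_) (inv_pos.mpr hp).le
  have h2 := trans_le (μ := μ) hw hR
  simpa [add_assoc] using h2

lemma av_close {w : E → ℝ} (hw : ContDiff ℝ 1 w) {ε r R : ℝ} (hε : 0 < ε) (hR : r + ε ≤ R) :
    ∫ x in closedBall (0 : E) r, |av μ ε w x - w x| ∂μ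
      ≤ ε * ∫ x in closedBall (0 : E) R, ‖fderiv ℝ w x‖ ∂μ := by
  have hp := vol_pos (μ := μ) hε
  have cw := hw.continuous
  have cF : Continuous (Function.uncurry fun (x h : E) => |w (h + x) - w x|) := by
    unfold Function.uncurry; fun_prop
  have cI : Continuous fun x : E => ∫ h in closedBall (0 : E) ε, |w (h + x) - w x| ∂μ :=
    continuous_parametric_integral_of_continuous cF (isCompact_closedBall _ _)
  have cJ : Continuous fun h : E => ∫ x in closedBall (0 : E) r, |w (h + x) - w x| ∂μ :=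
    continuous_parametric_integral_of_continuous (f := fun (h x : E) => |w (h + x) - w x|)
      (by unfold Function.uncurry; fun_prop) (isCompact_closedBall _ _)
  set C := ∫ x in closedBall (0 : E) R, ‖fderiv ℝ w x‖ ∂μ with hC
  have hC0 : 0 ≤ C := integral_nonneg fun _ => norm_nonneg _
  calc ∫ x in closedBall (0 : E) r, |av μ ε w x - w x| ∂μ
      ≤ ∫ x in closedBall (0 : E) r, (μ.real (closedBall (0 : E) ε))⁻¹ *
          (∫ h in closedBall (0 : E) ε, |w (h + x) - w x| ∂μ) ∂μ :=
        setIntegral_mono_on (ion ((av_cont cw ε).sub cw).abs _ _)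
          (ion (continuous_const.mul cI) _ _) measurableSet_closedBall
          fun x _ => av_sub cw hε x _
    _ = (μ.real (closedBall (0 : E) ε))⁻¹ * ∫ h in closedBall (0 : E) ε,
          (∫ x in closedBall (0 : E) r, |w (h + x) - w x| ∂μ) ∂μ := by
        rw [integral_const_mul, swap cF (isCompact_closedBall _ _) (isCompact_closedBall _ _)]
    _ ≤ (μ.real (closedBall (0 : E) ε))⁻¹ * ∫ _h in closedBall (0 : E) ε, ε * C ∂μ := by
        refine mul_le_mul_of_nonneg_left (setIntegral_mono_on (ion cJ _ _)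
          (ion continuous_const _ _) measurableSet_closedBall fun h hh => ?_) (inv_pos.mpr hp).le
        have h1 : ‖h‖ ≤ ε := by simpa using hh
        have h2 := trans_le (μ := μ) hw (ρ := r) (R := R) (c := 0) (h := h)
          (by rw [norm_zero]; linarith)
        simp only [add_zero] at h2
        simp_rw [add_comm h]
        exact h2.trans (mul_le_mul_of_nonneg_right h1 hC0)
    _ = ε * C := by rw [setIntegral_const, smul_eq_mul]; field_simp

variable {ι : Type*} {𝒰 : Ultrafilter ι} {w : ι → E → ℝ}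

/-- the family is Cauchy on every ball. -/
lemma cauchy_ball (hw : ∀ k, ContDiff ℝ 1 (w k)) (h1 : ∀ k x, |w k x| ≤ 1)
    (hb : ∀ r : ℝ, ∃ C : ℝ, ∀ᶠ k in (𝒰 : Filter ι),
      ∫ x in closedBall (0 : E) r, ‖fderiv ℝ (w k) x‖ ∂μ ≤ C) {r δ : ℝ} (hδ : 0 < δ) :
    ∃ S ∈ 𝒰, ∀ k ∈ S, ∀ l ∈ S, ∫ x in closedBall (0 : E) r, |w k x - w l x| ∂μ ≤ δ := by
  obtain ⟨C0, hC⟩ := hb (r + 2)
  set C := max C0 1 with hCd
  have hC1 : 1 ≤ C := le_max_right _ _
  have hC0 : 0 < C := by linarith
  set V := μ.real (closedBall (0 : E) r) + 1 with hV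
  have hV0 : 0 < V := by have : 0 ≤ μ.real (closedBall (0 : E) r) := measureReal_nonneg; linarith
  set ε := min 1 (δ / (4 * C)) with hε
  have hε0 : 0 < ε := lt_min one_pos (by positivity)
  have hε1 : ε ≤ 1 := min_le_left _ _
  have hε2 : ε * C ≤ δ / 4 := by
    have : ε ≤ δ / (4 * C) := min_le_right _ _
    rw [le_div_iff₀ (by positivity)] at this
    linarith
  have hp := vol_pos (μ := μ) hε0
  set m := μ.real (closedBall (0 : E) ε) with hm
  set η := min 1 (m * (δ / (8 * V)) / C) with hη
  have hη0 : 0 < η := lt_min one_pos (by positivity)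
  have hη2 : m⁻¹ * (η * C) ≤ δ / (8 * V) := by
    have : η ≤ m * (δ / (8 * V)) / C := min_le_right _ _
    rw [le_div_iff₀ hC0] at this
    rwa [inv_mul_le_iff₀ hp]
  obtain ⟨T, hT1, hT2, hT3⟩ := (isCompact_closedBall (0 : E) r).finite_cover_balls hη0
  have hlim : ∀ y : E, ∃ a : ℝ, Tendsto (fun k => av μ ε (w k) y) 𝒰 (𝓝 a) := by
    intro y
    obtain ⟨a, -, ha⟩ := (isCompact_Icc (a := (-1 : ℝ)) (b := 1)).ultrafilter_le_nhds
      (𝒰.map fun k => av μ ε (w k) y) (by
        rw [Ultrafilter.coe_map, le_principal_iff, mem_map]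
        exact Eventually.of_forall fun k =>
          abs_le.mp (av_abs (hw k).continuous (h1 k) hε0 y))
    exact ⟨a, ha⟩
  choose a ha using hlim
  have hev : ∀ᶠ k in (𝒰 : Filter ι), ∀ y ∈ T, |av μ ε (w k) y - a y| < δ / (8 * V) := by
    rw [eventually_all_finite hT2]
    intro y _
    simpa [Real.dist_eq] using Metric.tendsto_nhds.mp (ha y) (δ / (8 * V)) (by positivity)
  refine ⟨_, hC.and hev, fun k hk l hl => ?_⟩
  have hsup : ∀ x ∈ closedBall (0 : E) r, |av μ ε (w k) x - av μ ε (w l) x| ≤ δ / (2 * V) := by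
    intro x hx
    obtain ⟨y, hy, hxy⟩ := mem_iUnion₂.mp (hT3 hx)
    have n1 : ‖y‖ ≤ r := by simpa using hT1 hy
    have n2 : ‖x - y‖ ≤ η := by rw [← dist_eq_norm]; exact (mem_ball.mp hxy).le
    have n3 : η ≤ 1 := min_le_left _ _
    have key : ∀ j, (∫ x in closedBall (0 : E) (r + 2), ‖fderiv ℝ (w j) x‖ ∂μ ≤ C0) →
        |av μ ε (w j) x - av μ ε (w j) y| ≤ δ / (8 * V) := by
      intro j hj
      refine (av_lip (R := r + 2) (hw j) hε0 (by linarith)).trans (le_trans ?_ hη2)
      refine mul_le_mul_of_nonneg_left ?_ (inv_pos.mpr hp).le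
      exact mul_le_mul n2 (hj.trans (le_max_left _ _)) (integral_nonneg fun _ => norm_nonneg _)
        hη0.le
    have k1 := abs_le.mp (key k hk.1)
    have k2 := abs_le.mp (key l hl.1)
    have k3 := abs_lt.mp (hk.2 y hy)
    have k4 := abs_lt.mp (hl.2 y hy)
    have e : δ / (2 * V) = 4 * (δ / (8 * V)) := by field_simp; ring
    rw [e, abs_le]
    constructor <;> linarith [k1.1, k1.2, k2.1, k2.2, k3.1, k3.2, k4.1, k4.2]
  have cl : ∀ j, (∫ x in closedBall (0 : E) (r + 2), ‖fderiv ℝ (w j) x‖ ∂μ ≤ C0) →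
      ∫ x in closedBall (0 : E) r, |av μ ε (w j) x - w j x| ∂μ ≤ δ / 4 := fun j hj =>
    (av_close (R := r + 2) (hw j) hε0 (by linarith)).trans
      ((mul_le_mul_of_nonneg_left (hj.trans (le_max_left _ _)) hε0.le).trans hε2)
  have ck := (hw k).continuous
  have cl' := (hw l).continuous
  have i1 : IntegrableOn (fun x => |av μ ε (w k) x - w k x|) (closedBall (0 : E) r) μ :=
    ion ((av_cont (μ := μ) ck ε).sub ck).abs 0 r
  have i2 : IntegrableOn (fun x => |av μ ε (w l) x - w l x|) (closedBall (0 : E) r) μ :=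
    ion ((av_cont (μ := μ) cl' ε).sub cl').abs 0 r
  have i12 : IntegrableOn (fun x => |av μ ε (w k) x - w k x| + |av μ ε (w l) x - w l x|)
      (closedBall (0 : E) r) μ := i1.add i2
  have i3 := ion (μ := μ) (continuous_const (y := δ / (2 * V))) (0 : E) r
  calc ∫ x in closedBall (0 : E) r, |w k x - w l x| ∂μ
      ≤ ∫ x in closedBall (0 : E) r, (|av μ ε (w k) x - w k x| + |av μ ε (w l) x - w l x|
          + δ / (2 * V)) ∂μ := by
        refine setIntegral_mono_on (ion (ck.sub cl').abs _ _) ((i1.add i2).add i3)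
          measurableSet_closedBall fun x hx => ?_
        have k1 := abs_le.mp (hsup x hx)
        have k2 := le_abs_self (av μ ε (w k) x - w k x)
        have k3 := neg_abs_le (av μ ε (w k) x - w k x)
        have k4 := le_abs_self (av μ ε (w l) x - w l x)
        have k5 := neg_abs_le (av μ ε (w l) x - w l x)
        rw [abs_le]
        constructor <;> linarith [k1.1, k1.2]
    _ = (∫ x in closedBall (0 : E) r, |av μ ε (w k) x - w k x| ∂μ)
          + (∫ x in closedBall (0 : E) r, |av μ ε (w l) x - w l x| ∂μ)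
          + μ.real (closedBall (0 : E) r) * (δ / (2 * V)) := by
        rw [integral_add i12 i3, integral_add i1 i2, setIntegral_const, smul_eq_mul]
    _ ≤ δ / 4 + δ / 4 + V * (δ / (2 * V)) := by
        have : μ.real (closedBall (0 : E) r) ≤ V := by linarith
        have := cl k hk.1
        have := cl l hl.1
        gcongr
    _ = δ := by field_simp; ring

/-- **compactness in `L¹_loc`** along an ultrafilter. -/
theorem l1_cpt (𝒰 : Ultrafilter ι) (hw : ∀ k, ContDiff ℝ 1 (w k)) (h1 : ∀ k x, |w k x| ≤ 1)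
    (hb : ∀ r : ℝ, ∃ C : ℝ, ∀ᶠ k in (𝒰 : Filter ι),
      ∫ x in closedBall (0 : E) r, ‖fderiv ℝ (w k) x‖ ∂μ ≤ C) :
    ∃ g : E → ℝ, Measurable g ∧ (∀ x, |g x| ≤ 1) ∧ ∀ r : ℝ,
      Tendsto (fun k => ∫ x in closedBall (0 : E) r, |w k x - g x| ∂μ) 𝒰 (𝓝 0) := by
  set p : ℝ := Module.finrank ℝ E + 1 with hp
  have hp0 : 0 < p := by positivity
  set φ : E → ℝ := fun x => (1 + ‖x‖) ^ (-p) with hφ
  have φ0 : ∀ x, 0 < φ x := fun x => Real.rpow_pos_of_pos (by positivity) _
  have φ1 : ∀ x, φ x ≤ 1 := fun x =>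
    Real.rpow_le_one_of_one_le_of_nonpos (by linarith [norm_nonneg x]) (by linarith)
  have φc : Continuous φ :=
    (continuous_const.add continuous_norm).rpow_const fun x =>
      Or.inl (show (0 : ℝ) < 1 + ‖x‖ by positivity).ne'
  have φi : Integrable φ μ := integrable_one_add_norm (by linarith)
  have hi : ∀ k, Integrable (fun x => φ x * w k x) μ := fun k =>
    φi.mono' (φc.mul (hw k).continuous).aestronglyMeasurable (Eventually.of_forall fun x => by
      rw [Real.norm_eq_abs, abs_mul, abs_of_pos (φ0 x)]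
      exact mul_le_of_le_one_right (φ0 x).le (h1 k x))
  have htail : Tendsto (fun j : ℕ => ∫ x in (closedBall (0 : E) j)ᶜ, φ x ∂μ) atTop (𝓝 0) := by
    have h2 := tendsto_setIntegral_of_antitone (μ := μ) (f := φ)
      (s := fun j : ℕ => (closedBall (0 : E) j)ᶜ) (fun j => measurableSet_closedBall.compl)
      (fun i j hij => compl_subset_compl.mpr
        (closedBall_subset_closedBall (by exact_mod_cast hij))) ⟨0, φi.integrableOn⟩
    rwa [← compl_iUnion, iUnion_closedBall_nat, compl_univ, Measure.restrict_empty,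
      integral_zero_measure] at h2
  set F : ι → E →₁[μ] ℝ := fun k => (hi k).toL1 _ with hF
  have hdist : ∀ (k : ι) (f : E →₁[μ] ℝ), dist (F k) f = ∫ x, |φ x * w k x - f x| ∂μ := by
    intro k f
    rw [dist_eq_norm, L1.norm_eq_integral_norm]
    refine integral_congr_ae ?_
    filter_upwards [Lp.coeFn_sub (F k) f, (hi k).coeFn_toL1] with x e1 e2
    rw [e1, Pi.sub_apply, Real.norm_eq_abs]
    exact congrArg (fun t => |t - f x|) e2
  have hcau : Cauchy (map F (𝒰 : Filter ι)) := by
    rw [Metric.cauchy_iff]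
    refine ⟨inferInstance, fun δ hδ => ?_⟩
    obtain ⟨j, hj⟩ := (htail.eventually (gt_mem_nhds (show (0:ℝ) < δ / 4 by positivity))).exists
    obtain ⟨S, hS, hS2⟩ := cauchy_ball (μ := μ) hw h1 hb (r := j) (δ := δ / 2) (by positivity)
    refine ⟨F '' S, image_mem_map hS, ?_⟩
    rintro _ ⟨k, hk, rfl⟩ _ ⟨l, hl, rfl⟩
    have e : dist (F k) (F l) = ∫ x, |φ x * w k x - φ x * w l x| ∂μ := by
      rw [hdist]
      refine integral_congr_ae ?_
      filter_upwards [(hi l).coeFn_toL1] with x e2
      exact congrArg (fun t => |φ x * w k x - t|) e2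
    have ii : Integrable (fun x => |φ x * w k x - φ x * w l x|) μ := ((hi k).sub (hi l)).abs
    rw [e, ← integral_add_compl (measurableSet_closedBall (x := (0 : E)) (ε := j)) ii]
    have a1 : ∫ x in closedBall (0 : E) j, |φ x * w k x - φ x * w l x| ∂μ ≤ δ / 2 := by
      refine le_trans (setIntegral_mono_on ii.integrableOn
        (ion ((hw k).continuous.sub (hw l).continuous).abs _ _) measurableSet_closedBall
        fun x _ => ?_) (hS2 k hk l hl)
      rw [← mul_sub, abs_mul, abs_of_pos (φ0 x)]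
      exact mul_le_of_le_one_left (abs_nonneg _) (φ1 x)
    have a2 : ∫ x in (closedBall (0 : E) j)ᶜ, |φ x * w k x - φ x * w l x| ∂μ
        ≤ ∫ x in (closedBall (0 : E) j)ᶜ, 2 * φ x ∂μ := by
      refine setIntegral_mono_on ii.integrableOn (φi.const_mul 2).integrableOn
        measurableSet_closedBall.compl fun x _ => ?_
      rw [← mul_sub, abs_mul, abs_of_pos (φ0 x), mul_comm]
      refine mul_le_mul_of_nonneg_right ?_ (φ0 x).le
      have := abs_le.mp (h1 k x)
      have := abs_le.mp (h1 l x)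
      rw [abs_le]; constructor <;> linarith
    rw [integral_const_mul] at a2
    linarith
  obtain ⟨f, hf⟩ := CompleteSpace.complete hcau
  have hf' : Tendsto (fun k => dist (F k) f) 𝒰 (𝓝 0) := tendsto_iff_dist_tendsto_zero.mp hf
  have mf : Measurable fun x => f x / φ x := (Lp.stronglyMeasurable f).measurable.div φc.measurable
  have mg : Measurable fun x => max (-1) (min 1 (f x / φ x)) :=
    measurable_const.max (measurable_const.min mf)
  have g1 : ∀ x, |max (-1) (min 1 (f x / φ x))| ≤ 1 := fun x =>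
    abs_le.mpr ⟨le_max_left _ _, max_le (by norm_num) (min_le_left _ _)⟩
  refine ⟨_, mg, g1, fun r => ?_⟩
  have hlim := hf'.const_mul ((1 + |r|) ^ p)
  rw [mul_zero] at hlim
  refine squeeze_zero (fun k => integral_nonneg fun _ => abs_nonneg _) (fun k => ?_) hlim
  have ii : Integrable (fun x => |φ x * w k x - f x|) μ := ((hi k).sub (L1.integrable_coeFn f)).abs
  rw [hdist, ← integral_const_mul]
  refine le_trans (setIntegral_mono_on ?_ (ii.const_mul ((1 + |r|) ^ p)).integrableOn
    measurableSet_closedBall fun x hx => ?_) (setIntegral_le_integral (ii.const_mul _)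
      (Eventually.of_forall fun x => mul_nonneg (by positivity) (abs_nonneg _)))
  · refine Measure.integrableOn_of_bounded (M := 2) measure_closedBall_lt_top.ne
      (continuous_abs.measurable.comp ((hw k).continuous.measurable.sub mg)).aestronglyMeasurable
      (Eventually.of_forall fun x => ?_)
    have := abs_le.mp (h1 k x)
    have := abs_le.mp (g1 x)
    rw [Real.norm_eq_abs, abs_abs, abs_le]; constructor <;> linarith
  · have n1 : ‖x‖ ≤ |r| := (show ‖x‖ ≤ r by simpa using hx).trans (le_abs_self r)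
    have b1 : |w k x - max (-1) (min 1 (f x / φ x))| ≤ |w k x - f x / φ x| := by
      have := abs_le.mp (h1 k x)
      rcases le_total (f x / φ x) 1 with c1 | c1
      · rw [min_eq_right c1]
        rcases le_total (-1) (f x / φ x) with c2 | c2
        · rw [max_eq_right c2]
        · rw [max_eq_left c2, abs_of_nonneg (by linarith), abs_of_nonneg (by linarith)]; linarith
      · rw [min_eq_left c1, max_eq_right (by norm_num), abs_of_nonpos (by linarith),
          abs_of_nonpos (by linarith)]
        linarith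
    have b2 : w k x - f x / φ x = (φ x)⁻¹ * (φ x * w k x - f x) := by
      have := (φ0 x).ne'
      field_simp
    have b3 : (φ x)⁻¹ ≤ (1 + |r|) ^ p := by
      rw [hφ]
      simp only
      rw [Real.rpow_neg (by positivity), inv_inv]
      exact Real.rpow_le_rpow (by positivity) (by linarith) hp0.le
    refine b1.trans ?_
    rw [b2, abs_mul, abs_of_pos (inv_pos.mpr (φ0 x))]
    exact mul_le_mul_of_nonneg_right b3 (abs_nonneg _)

end Vale.Agent.P134S.L1c
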