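import Vale.Agent.P134S.Defs
import Vale.Agent.P134S.L1c

/-! P134S: the rows CMP, SCL, BLD1, OUTE (the blow-down). -/

open MeasureTheory Metric Filter Topology Set
open scoped RealInnerProductSpace
open Vale.Agent.P366.Stmt (E)

noncomputable section

namespace Vale.Agent.P134S

variable {N : ℕ}

lemma ion_ball {f : E N → ℝ} (hf : Continuous f) (R : ℝ) : IntegrableOn f (ball (0 : E N) R) :=
  (hf.continuousOn.integrableOn_compact (isCompact_closedBall 0 R)).mono_set ball_subset_closedBall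

lemma ion_bdd {f : E N → ℝ} (hf : Measurable f) {C : ℝ} (hC : ∀ x, |f x| ≤ C) (R : ℝ) :
    IntegrableOn f (closedBall (0 : E N) R) :=
  Measure.integrableOn_of_bounded (isCompact_closedBall 0 R).measure_lt_top.ne
    hf.aestronglyMeasurable (Eventually.of_forall hC)

lemma meas_ind {A : Set (E N)} (hA : MeasurableSet A) : Measurable (ind A) :=
  measurable_const.indicator hA

lemma ind_mem (A : Set (E N)) (x : E N) : 0 ≤ ind A x ∧ ind A x ≤ 1 := by
  unfold ind
  by_cases h : x ∈ A <;> simp [h]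

lemma abs_sub_ind {A : Set (E N)} {t : ℝ} (h : 0 ≤ t ∧ t ≤ 1) (x : E N) : |t - ind A x| ≤ 1 := by
  have := ind_mem A x
  rw [abs_le]
  constructor <;> linarith [h.1, h.2]

lemma ion_sub_ind {A : Set (E N)} (hA : MeasurableSet A) {w : E N → ℝ} (hw : Continuous w)
    (R : ℝ) : IntegrableOn (fun x => |w x - ind A x|) (ball (0 : E N) R) :=
  ((ion_ball hw R).sub ((ion_bdd (meas_ind hA) (C := 1) (fun x => by
    rw [abs_of_nonneg (ind_mem A x).1]; exact (ind_mem A x).2) R).mono_set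
      ball_subset_closedBall)).abs

theorem cmp : CMP := by
  intro N ι 𝒰 w hw hb hg ht
  have h1 : ∀ i x, |w i x| ≤ 1 := fun i x => by
    rw [abs_of_nonneg (hb i x).1]; exact (hb i x).2
  obtain ⟨g, gm, g1, hl⟩ := L1c.l1_cpt (μ := volume) 𝒰 hw h1 fun r => by
    obtain ⟨C, hC⟩ := hg (r + 1)
    refine ⟨C, hC.mono fun i hi => le_trans ?_ hi⟩
    exact setIntegral_mono_set (ion_ball ((hw i).continuous_fderiv (by norm_num)).norm _)
      (Eventually.of_forall fun _ => norm_nonneg _)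
      (closedBall_subset_ball (by linarith)).eventuallyLE
  have mA : MeasurableSet {x | 1 / 2 < g x} := measurableSet_lt measurable_const gm
  refine ⟨{x | 1 / 2 < g x}, mA, fun R => ?_⟩
  have h2 := ((ht R).const_mul 4).add ((hl R).const_mul 4)
  rw [mul_zero, add_zero] at h2
  refine squeeze_zero (fun i => integral_nonneg fun _ => abs_nonneg _) (fun i => ?_) h2
  have cw := (hw i).continuous
  have i1 : IntegrableOn (fun x => w i x * (1 - w i x)) (ball (0 : E N) R) :=
    ion_ball (cw.mul (continuous_const.sub cw)) R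
  have i2 : IntegrableOn (fun x => |w i x - g x|) (closedBall (0 : E N) R) :=
    ion_bdd (f := fun x => |w i x - g x|) (cw.measurable.sub gm).abs (C := 2) (fun x => by
      rw [abs_abs]
      linarith [abs_sub (w i x) (g x), h1 i x, g1 x]) R
  have h3 : ∫ x in ball (0 : E N) R, |w i x - g x| ≤ ∫ x in closedBall (0 : E N) R, |w i x - g x| :=
    setIntegral_mono_set i2 (Eventually.of_forall fun _ => abs_nonneg _)
      ball_subset_closedBall.eventuallyLE
  have i3 := i2.mono_set (ball_subset_closedBall (x := (0 : E N)) (ε := R))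
  have h4 : ∫ x in ball (0 : E N) R, |w i x - ind {x | 1 / 2 < g x} x|
      ≤ ∫ x in ball (0 : E N) R, (4 * (w i x * (1 - w i x)) + 4 * |w i x - g x|) := by
    refine setIntegral_mono (ion_sub_ind mA cw R) ((i1.const_mul 4).add (i3.const_mul 4))
      fun x => ?_
    obtain ⟨a, b⟩ := hb i x
    have c1 := le_abs_self (w i x - g x)
    have c2 := neg_abs_le (w i x - g x)
    have c3 := abs_nonneg (w i x - g x)
    have c4 : 0 ≤ w i x * (1 - w i x) := mul_nonneg a (by linarith)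
    show |w i x - ind {x | 1 / 2 < g x} x| ≤ 4 * (w i x * (1 - w i x)) + 4 * |w i x - g x|
    unfold ind
    by_cases hx : 1 / 2 < g x
    · rw [indicator_of_mem (show x ∈ {x | 1 / 2 < g x} from hx), abs_of_nonpos (by linarith)]
      by_cases h5 : 1 / 4 ≤ w i x
      · nlinarith
      · linarith
    · rw [indicator_of_notMem (show x ∉ {x | 1 / 2 < g x} from hx), sub_zero, abs_of_nonneg a]
      by_cases h5 : w i x ≤ 3 / 4
      · nlinarith
      · linarith
  rw [integral_add (i1.const_mul 4) (i3.const_mul 4), integral_const_mul, integral_const_mul] at h4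
  linarith

lemma int_sc (w : E N → ℝ) {r : ℝ} (hr : 0 < r) : ∫ x, w (r • x) = r⁻¹ ^ N * ∫ x, w x := by
  rw [Measure.integral_comp_smul_of_nonneg volume w r (hR := hr.le), finrank_euclideanSpace_fin,
    smul_eq_mul, inv_pow]

lemma ball_sc (w : E N → ℝ) {r : ℝ} (hr : 0 < r) (R : ℝ) :
    ∫ x in ball (0 : E N) R, w (r • x) = r⁻¹ ^ N * ∫ x in ball (0 : E N) (r * R), w x := by
  rw [← integral_indicator measurableSet_ball, ← integral_indicator measurableSet_ball,
    ← int_sc _ hr]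
  refine integral_congr_ae (Eventually.of_forall fun x => ?_)
  have e : r • x ∈ ball (0 : E N) (r * R) ↔ x ∈ ball (0 : E N) R := by
    simp only [mem_ball, dist_zero_right, norm_smul, Real.norm_eq_abs, abs_of_pos hr]
    exact mul_lt_mul_iff_right₀ hr
  by_cases h : x ∈ ball (0 : E N) R
  · simp only [indicator_of_mem h, indicator_of_mem (e.2 h)]
  · simp only [indicator_of_notMem h, indicator_of_notMem (mt e.1 h)]

lemma norm_fderiv_sc {w : E N → ℝ} (hw : ContDiff ℝ 1 w) {r : ℝ} (hr : 0 < r) (x : E N) :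
    ‖fderiv ℝ (fun x => w (r • x)) x‖ = r * ‖fderiv ℝ w (r • x)‖ := by
  have h := (hw.differentiable (by norm_num) (r • x)).hasFDerivAt.comp x
    ((hasFDerivAt_id x).const_smul r)
  have e : fderiv ℝ (fun x => w (r • x)) x = r • fderiv ℝ w (r • x) := by
    refine h.fderiv.trans ?_
    ext v
    simp
  rw [e, norm_smul, Real.norm_eq_abs, abs_of_pos hr]

lemma Tf.sc {φ : E N → ℝ} (h : Tf φ) {r : ℝ} (hr : r ≠ 0) : Tf fun x => φ (r • x) :=
  ⟨h.c1.comp (contDiff_id.const_smul r), h.cs.comp_smul hr, fun _ => h.nn _⟩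

lemma flux_sc {w g : E N → ℝ} (hw : ContDiff ℝ 1 w) {r : ℝ} (hr : 0 < r)
    (h : ∀ φ, Tf φ → ∫ x, φ x * ‖fderiv ℝ w x‖ ≤ ∫ x, g x * ‖fderiv ℝ φ x‖) {φ : E N → ℝ}
    (hφ : Tf φ) :
    ∫ x, φ x * ‖fderiv ℝ (fun x => w (r • x)) x‖ ≤ ∫ x, g (r • x) * ‖fderiv ℝ φ x‖ := by
  have hi : 0 < r⁻¹ := inv_pos.2 hr
  have h1 := h _ (hφ.sc hi.ne')
  have e1 := int_sc (fun y => φ (r⁻¹ • y) * ‖fderiv ℝ w y‖) hr
  have e2 := int_sc (fun y => g y * ‖fderiv ℝ (fun y => φ (r⁻¹ • y)) y‖) hr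
  simp only [norm_fderiv_sc hφ.c1 hi, inv_smul_smul₀ hr.ne'] at e1 e2 h1
  have e3 : ∫ x, φ x * ‖fderiv ℝ (fun x => w (r • x)) x‖
      = r * ∫ x, φ x * ‖fderiv ℝ w (r • x)‖ := by
    rw [← integral_const_mul]
    refine integral_congr_ae (Eventually.of_forall fun x => ?_)
    simp only [norm_fderiv_sc hw hr]
    ring
  have e4 : ∫ x, g (r • x) * ‖fderiv ℝ φ x‖ = r * ∫ x, g (r • x) * (r⁻¹ * ‖fderiv ℝ φ x‖) := by
    rw [← integral_const_mul]
    refine integral_congr_ae (Eventually.of_forall fun x => ?_)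
    field_simp
  rw [e3, e4, e1, e2]
  exact mul_le_mul_of_nonneg_left (mul_le_mul_of_nonneg_left h1 (by positivity)) hr.le

theorem scl : SCL := fun _ w r hr =>
  ⟨fun h => ⟨h.c1.comp (contDiff_id.const_smul r), fun _ => h.bd _,
    fun _ hφ => flux_sc h.c1 hr h.f1 hφ,
    fun _ hφ => flux_sc (g := fun x => 1 - w x) h.c1 hr h.f2 hφ⟩, ball_sc w hr⟩

lemma grad_le {w φ : E N → ℝ} (h : Fx w) (hφ : Tf φ) {R : ℝ}
    (h1 : ∀ x ∈ ball (0 : E N) R, φ x = 1) :
    ∫ x in ball (0 : E N) R, ‖fderiv ℝ w x‖ ≤ ∫ x, ‖fderiv ℝ φ x‖ := by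
  have cw := (h.c1.continuous_fderiv (by norm_num)).norm
  have cφ := (hφ.c1.continuous_fderiv (by norm_num)).norm
  have sφ : HasCompactSupport fun x => ‖fderiv ℝ φ x‖ := (hφ.cs.fderiv ℝ).norm
  calc ∫ x in ball (0 : E N) R, ‖fderiv ℝ w x‖
      = ∫ x in ball (0 : E N) R, φ x * ‖fderiv ℝ w x‖ :=
        setIntegral_congr_fun measurableSet_ball fun x hx => by simp only [h1 x hx, one_mul]
    _ ≤ ∫ x, φ x * ‖fderiv ℝ w x‖ :=
        setIntegral_le_integral ((hφ.c1.continuous.mul cw).integrable_of_hasCompactSupport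
          hφ.cs.mul_right) (Eventually.of_forall fun x => mul_nonneg (hφ.nn x) (norm_nonneg _))
    _ ≤ ∫ x, w x * ‖fderiv ℝ φ x‖ := h.f1 φ hφ
    _ ≤ ∫ x, ‖fderiv ℝ φ x‖ :=
        integral_mono ((h.c1.continuous.mul cφ).integrable_of_hasCompactSupport sφ.mul_left)
          (cφ.integrable_of_hasCompactSupport sφ) fun x =>
            mul_le_of_le_one_left (norm_nonneg _) (h.bd x).2

/-- small quantities at large scales are small after rescaling -/
lemma tendsto_sc {ι : Type} {l : Filter ι} {r : ι → ℝ} (hr : Tendsto r l atTop) {g : E N → ℝ}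
    (g0 : ∀ x, 0 ≤ g x) (hg : ∀ ε > (0 : ℝ), ∀ᶠ R : ℝ in atTop,
      ∫ x in ball (0 : E N) R, g x ≤ ε * R ^ N) (R : ℝ) :
    Tendsto (fun i => ∫ x in ball (0 : E N) R, g (r i • x)) l (𝓝 0) := by
  rcases le_or_gt R 0 with hR | hR
  · simp only [ball_eq_empty.2 hR, Measure.restrict_empty, integral_zero_measure]
    exact tendsto_const_nhds
  refine tendsto_order.2 ⟨fun a ha => Eventually.of_forall fun i =>
    ha.trans_le (integral_nonneg fun _ => g0 _), fun a ha => ?_⟩
  filter_upwards [hr.eventually (eventually_gt_atTop 0), (hr.atTop_mul_const hR).eventually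
    (hg (a / 2 / R ^ N) (by positivity))] with i h1 h2
  rw [ball_sc g h1]
  refine (mul_le_mul_of_nonneg_left h2 (by positivity)).trans_lt ?_
  have e : (r i)⁻¹ ^ N * (a / 2 / R ^ N * (r i * R) ^ N) = a / 2 := by
    rw [mul_pow, inv_pow]
    field_simp
  rw [e]
  linarith

theorem bld1 : BLD1 := by
  intro N ι 𝒰 w r hx ha hr
  refine cmp N ι 𝒰 (fun i => sc w (r i)) (fun i => hx.c1.comp (contDiff_id.const_smul (r i)))
    (fun i x => hx.bd _) (fun R => ?_) fun R => ?_
  · let b : ContDiffBump (0 : E N) := ⟨|R| + 1, |R| + 2, by positivity, by linarith⟩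
    have hb : Tf b := ⟨b.contDiff, b.hasCompactSupport, fun _ => b.nonneg⟩
    refine ⟨∫ x, ‖fderiv ℝ b x‖, ?_⟩
    filter_upwards [hr.eventually (eventually_gt_atTop 0)] with i hi
    refine grad_le ((scl N w (r i) hi).1 hx) hb fun x hx => b.one_of_mem_closedBall ?_
    exact ball_subset_closedBall (ball_subset_ball (by
      show R ≤ |R| + 1
      linarith [le_abs_self R]) hx)
  · exact tendsto_sc hr (g := fun x => w x * (1 - w x))
      (fun x => mul_nonneg (hx.bd x).1 (sub_nonneg.2 (hx.bd x).2)) ha.thin R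

theorem bld1_of (_ : SCL) (_ : CMP) : BLD1 := bld1

theorem oute_of (_ : SCL) (h1 : BLD1) (h2 : BLD2) (h3 : BLD3) (h4 : BERN) : OUTE := by
  intro N w a hN3 hN8 ha hx hfa hm ε hε
  by_contra hcon
  rw [not_eventually, frequently_iff_neBot] at hcon
  obtain ⟨𝒰, h𝒰⟩ := exists_ultrafilter_le _ (h := hcon)
  have hr : Tendsto (fun R : ℝ => R) (𝒰 : Filter ℝ) atTop := h𝒰.trans inf_le_left
  have hbad := le_principal_iff.1 (h𝒰.trans inf_le_right)
  obtain ⟨A, mA, hA⟩ := h1 N ℝ 𝒰 w _ hx hfa hr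
  obtain ⟨k1, k2, k3⟩ := h2 N ℝ 𝒰 w _ A inferInstance hx hfa hr mA hA
  obtain ⟨k4, k5⟩ := h3 N ℝ 𝒰 w _ A inferInstance hx hfa hr mA hA
  obtain ⟨e, he, hH⟩ := h4 N A a hN3 hN8 ha k1 (k5 a hm) k4 k2 k3
  obtain ⟨R, ⟨hR, hs⟩, hb⟩ := (((hr.eventually (eventually_gt_atTop 0)).and
    ((hA 1).eventually (gt_mem_nhds hε))).and hbad).exists
  refine hb ⟨e, he, ?_⟩
  have e1 := ball_sc (fun x => |w x - ind {y | 0 < ⟪e, y⟫} x|) hR 1
  have e2 : ∫ x in ball (0 : E N) 1, |w (R • x) - ind {y | 0 < ⟪e, y⟫} (R • x)|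
      = ∫ x in ball (0 : E N) 1, |sc w R x - ind A x| := by
    refine integral_congr_ae (ae_restrict_of_ae (hH.mono fun x hx => ?_))
    have e3 : R • x ∈ {y | 0 < ⟪e, y⟫} ↔ x ∈ A := by
      rw [hx]
      show 0 < ⟪e, R • x⟫ ↔ _
      rw [inner_smul_right]
      exact mul_pos_iff_of_pos_left hR
    unfold ind sc
    by_cases h : x ∈ A
    · simp only [indicator_of_mem h, indicator_of_mem (e3.2 h)]
    · simp only [indicator_of_notMem h, indicator_of_notMem (mt e3.1 h)]
  rw [e2, mul_one, inv_pow, eq_inv_mul_iff_mul_eq₀ (by positivity)] at e1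
  rw [← e1, mul_comm ε]
  exact mul_le_mul_of_nonneg_left hs.le (by positivity)

end Vale.Agent.P134S
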