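import Vale.Agent.P134S.Defs
import Vale.Agent.P366R.Regl2
import Vale.Agent.P366S.Flat

/-!
# P134S: the assemblies CONE, APP, BERN
-/

open MeasureTheory Metric Filter Topology Set
open scoped ContDiff RealInnerProductSpace ENNReal
open Vale.Agent.P366.Stmt (E)
open Vale.Agent.P366W (dvg Surf Fr gsurf adj)
open Vale.Agent.P366L (Sg Cal Dil Sp Lm CL Cls)
open Vale.Agent.P366S (Lev Stable Cone prj c2)

noncomputable section

namespace Vale.Agent.P134S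

theorem lev_neg {N : ℕ} {S : Set (E N)} {F : E N → ℝ} {x : E N} (h : Lev S F x) :
    Lev S (fun y => -F y) x :=
  ⟨h.sm.mono fun _ k => k.neg, by rw [fderiv_fun_neg]; exact neg_ne_zero.2 h.ne,
    h.mem.mono fun _ k => k.trans neg_eq_zero.symm⟩

theorem hs_of {N : ℕ} {B : Set (E N)} {L : E N →L[ℝ] ℝ} (h0 : L ≠ 0)
    (h : ∀ᵐ x, (x ∈ B ↔ 0 < L x)) : ∃ e, ‖e‖ = 1 ∧ Hs B e := by
  set w := (InnerProductSpace.toDual ℝ (E N)).symm L with hw
  have w0 : w ≠ 0 := by simpa [hw] using h0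
  refine ⟨‖w‖⁻¹ • w, norm_smul_inv_norm w0, h.mono fun x hx => hx.trans ?_⟩
  rw [real_inner_smul_left, mul_pos_iff_of_pos_left (inv_pos.2 (norm_pos_iff.2 w0))]
  simp [hw]

theorem cone_of (h1 : SYM) (h2 : END0) (h3 : HALF) (h4 : LOC) (h5 : SGN) (h6 : JAC) (h7 : TRA)
    (h8 : HYP) (h9 : SPR) : CONE := by
  intro n μ B v a n3 n8 hμ hP hc u1 u2 ua v0 av b1 b2
  obtain ⟨δ, hδ, hC⟩ := P366L.cls P366R.regl n
  replace hC := hC δ le_rfl
  have hE : Module.finrank ℝ (E (n + 1)) = n + 1 := finrank_euclideanSpace_fin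
  have hS : P366L.SIM (E (n + 1)) 7 := P366S.simons _
  have hv : v ∈ Sp μ := (h1 n μ B hP).1 v u1 u2
  have hd : Dil n μ 0 := (h1 n μ B hP).2 hc
  have reg : ∀ μ' ∈ CL n, Dil n μ' 0 → 2 ≤ Module.finrank ℝ (Sp μ') → (0 : E (n + 1)) ∉ Sg n δ μ' :=
    fun μ' k1 k2 k3 => hC.cone_reg hE (by omega) hδ hS 7 le_rfl μ' k1 k2 (by omega)
  by_cases r2 : 2 ≤ Module.finrank ℝ (Sp μ)
  · obtain ⟨e, e1, e2⟩ := h2 n δ _ μ hC hμ hd (reg μ hμ hd r2)
    exact h3 _ μ B e hP e1 e2 b1 b2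
  have r0 : Submodule.span ℝ {v} ≤ Sp μ := (Submodule.span_singleton_le_iff_mem _ _).2 hv
  have r1 := finrank_span_singleton (K := ℝ) v0
  have r3 := Submodule.finrank_mono r0
  have aV : a ∉ Sp μ := by
    rwa [← Submodule.eq_of_le_of_finrank_le r0 (by omega)]
  have op : IsOpen (Sp μ : Set (E (n + 1)))ᶜ := (Sp μ).closed_of_finiteDimensional.isOpen_compl
  have dj : Disjoint (Sp μ : Set (E (n + 1)))ᶜ (Sg n δ μ) := by
    refine disjoint_left.2 fun x hx hx' => ?_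
    obtain ⟨μ', a1, a2, a3, a4, a5⟩ := hC.tangent' hE hμ hx'
    have := Submodule.finrank_lt_finrank_of_lt (lt_of_le_of_ne a3 fun h => hx (h ▸ a4 hd))
    exact reg μ' a1 a2 (by omega) a5
  have st := hC.reg μ hμ _ op dj
  set S := μ.support ∩ (Sp μ : Set (E (n + 1)))ᶜ with hSd
  have cn : Cone (Sp μ) S μ :=
    ⟨fun v hv x hx => ⟨P366L.Sp.supp hv hx.1, fun h => hx.2 (by simpa using (Sp μ).sub_mem h hv)⟩,
      fun t ht x hx => ⟨hd.supp ht hx.1, fun h => hx.2 (((Sp μ).smul_mem_iff ht.ne').1 h)⟩,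
      fun v hv => P366L.Sp.map hv, fun t ht => by rw [hE, add_tsub_cancel_right]; exact hd.map0 ht⟩
  have loc : ∀ x ∈ S, ∀ F, Lev S F x → Side B F x ∨ Side B (fun y => -F y) x := fun x hx F hF =>
    h4 _ μ B S F x hP hF hx.1 (mem_of_superset (op.mem_nhds hx.2) fun y k1 k2 => ⟨k2, k1⟩)
  have jac := h6 _ μ _ S a st cn fun x hx => by
    obtain ⟨F, hF⟩ := st.reg x hx
    rcases loc x hx F hF with k | k
    · exact ⟨F, hF, h5 _ B S F x a hF k ua⟩
    · exact ⟨_, lev_neg hF, h5 _ B S _ x a (lev_neg hF) k ua⟩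
  by_cases z : ∀ x ∈ S, nu S a x = 0
  · exact absurd (h7 _ μ _ S a (hC.cal μ hμ) st (by omega) fun x hx =>
      (sub_eq_zero.1 (norm_eq_zero.1 (z x hx))).symm) aV
  push Not at z
  obtain ⟨x, hx, x0⟩ := z
  obtain ⟨L, l1, -, l3⟩ := h8 _ μ _ S a x st cn (by omega) jac hx x0
  have l0 : L ≠ 0 := by rintro rfl; simp at l1
  refine hs_of l0 (h9 _ B (Sp μ) a L (by omega) l1 ua fun z z1 z2 => ?_)
  have lv : Lev S L z := ⟨.of_forall fun _ => L.contDiff.contDiffAt, by rwa [L.fderiv], l3 z z1 z2⟩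
  have zS : z ∈ S := (l3 z z1 z2).self_of_nhds.2 z1
  refine (loc z zS L lv).resolve_right fun k => ?_
  have := (h5 _ B S _ z a (lev_neg lv) k ua).self_of_nhdsWithin zS
  rw [fderiv_fun_neg, L.fderiv, neg_apply] at this
  linarith

theorem app_of (h1 : SEQ) (h2 : GRB) (h3 : SUB) (h4 : LIM) : APP := by
  intro n e L A n2 hF hA
  have p : ∀ i : ℕ, (0 : ℝ) < 1 / ((i : ℝ) + 1) := fun i => by positivity
  choose u b τ c h using fun i : ℕ => h1 n A ((i : ℝ) + 1) (1 / ((i : ℝ) + 1)) n2 hA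
    (by linarith [Nat.cast_nonneg (α := ℝ) i]) (p i)
    (by rw [div_le_one (by positivity)]; linarith [Nat.cast_nonneg (α := ℝ) i])
  have le : (hyperfilter ℕ : Filter ℕ) ≤ atTop := Nat.hyperfilter_le_atTop
  obtain ⟨μ, hμ⟩ := P366L.exists_lm (𝒰 := hyperfilter ℕ) (S := fun i => gr e L (u i))
    (R := fun i => (i : ℝ) + 1) (η := fun _ => 0) (Λ := fun i => 1 / ((i : ℝ) + 1))
    (.of_forall fun i => h2 n e L A _ _ _ _ _ _ hF (p i).le (h i))
    ((tendsto_atTop_add_const_right _ 1 tendsto_natCast_atTop_atTop).mono_left le)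
    tendsto_const_nhds (tendsto_one_div_add_atTop_nhds_zero_nat.mono_left le)
  exact ⟨μ, ⟨_, _, _, _, _, _, hμ⟩, h4 n _ _ _ _ _ _ μ _ hμ (fun _ => ⟨rfl, rfl⟩)
    ((adj L).continuous.measurable hA.ms) fun R =>
      (h3 n e L A u b τ c hF hA.ms h R).mono_left le⟩

theorem bern_of (h1 : APP) (h2 : CYL) (h3 : CONE) : BERN := by
  intro n A a n3 n8 a0 hA ua hc b1 b2
  obtain ⟨L, hF⟩ := P366W.exists_fr (m := n) (e := EuclideanSpace.single 0 1) (by simp)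
  set e : E (n + 1) := EuclideanSpace.single 0 1
  obtain ⟨μ, hμ, hP⟩ := h1 n e L A (by omega) hF hA
  obtain ⟨c1, c2, c3, c4, c5, c6, c7⟩ := h2 n e L A hF hA.ms
  have e0 : e ≠ 0 := norm_ne_zero_iff.1 (hF.one ▸ one_ne_zero)
  obtain ⟨e', k1, k2⟩ := h3 n μ _ e (L a) n3 n8 hμ hP (c1 hc) c3 c4 (c2 a ua) e0 (fun k => by
    obtain ⟨t, ht⟩ := Submodule.mem_span_singleton.1 k
    have k3 := hF.ort a
    rw [← ht, real_inner_smul_right, hF.ee, mul_one] at k3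
    rw [k3, zero_smul] at ht
    exact a0 (L.injective (by rw [← ht, map_zero]))) (c5 b1) (c6 b2)
  exact c7 e' k1 k2

end Vale.Agent.P134S
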