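import Vale.Agent.P134S.Defs
import Vale.Agent.P366S.Geo

/-!
# P134S: a cone which is regular at the vertex lies in a hyperplane
-/

open MeasureTheory Set Filter Topology
open scoped RealInnerProductSpace
open Vale.Agent.P366L Vale.Agent.P366S

noncomputable section

namespace Vale.Agent.P134S

theorem end0 : END0 := fun n δ C μ hC hμ hd h0 => by
  have := hC.fin μ hμ
  have hU := (Sg_closed (n := n) (μ := μ) δ).isOpen_compl
  have hs := hC.reg μ hμ _ hU disjoint_compl_left
  have lim : ∀ x : P366.Stmt.E (n + 1), Tendsto (fun t : ℝ => t • x) (𝓝[>] 0) (𝓝 0) := fun x => by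
    have : Continuous fun t : ℝ => t • x := by fun_prop
    simpa using (this.tendsto 0).mono_left nhdsWithin_le_nhds
  rcases μ.support.eq_empty_or_nonempty with h | ⟨x₀, hx₀⟩
  · exact ⟨EuclideanSpace.single 0 1, by simp, by simp [h]⟩
  have z0 : (0 : P366.Stmt.E (n + 1)) ∈ μ.support :=
    Measure.isClosed_support.mem_of_tendsto (lim x₀)
      (eventually_nhdsWithin_of_forall fun t ht => hd.supp ht hx₀)
  obtain ⟨F, hF⟩ := hs.reg 0 ⟨z0, h0⟩
  have key : ∀ x ∈ μ.support, fderiv ℝ F 0 x = 0 := fun x hx => by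
    refine (hF.mem_tsp ⟨z0, h0⟩ x).1 (Submodule.subset_span
      (mem_tangentConeAt_of_add_smul_mem (l := 𝓝[>] (0 : ℝ))
        (tendsto_id.mono_right (nhdsGT_le_nhdsNE 0)) ?_))
    filter_upwards [(lim x).eventually (hU.mem_nhds h0), self_mem_nhdsWithin] with t a b
    rw [zero_add]
    exact ⟨hd.supp b hx, a⟩
  have w0 : (InnerProductSpace.toDual ℝ _).symm (fderiv ℝ F 0) ≠ 0 := by simpa using hF.ne
  refine ⟨_, norm_smul_inv_norm (𝕜 := ℝ) w0, fun x hx => ?_⟩
  rw [inner_smul_left, InnerProductSpace.toDual_symm_apply, key x hx, mul_zero]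

end Vale.Agent.P134S
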