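import Vale.Agent.P134S.Defs

/-!
# P134S, row EST: comparison of a capillary graph with a minimising set
-/

set_option linter.all false

open MeasureTheory Metric Filter Topology Set
open scoped ContDiff RealInnerProductSpace ENNReal
open Vale.Agent.P366.Stmt (E)
open Vale.Agent.P366W (dvg dvg_smul integral_dvg_zero continuous_dvg hcs_dvg)
open Vale.Agent.P366L (sg sg_deriv sg_nonneg sg_cont sg_mem sg_cs)

noncomputable section

namespace Vale.Agent.P134S.Est

variable {n : ℕ}

theorem cd_grad {u : E n → ℝ} (hu : ContDiff ℝ ∞ u) : ContDiff ℝ ∞ (gradient u) := by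
  have h1 : ContDiff ℝ ∞ (fderiv ℝ u) := hu.fderiv_right (m := ∞) le_rfl
  exact (InnerProductSpace.toDual ℝ (E n)).symm.contDiff.comp h1

theorem cd_nr {u : E n → ℝ} (hu : ContDiff ℝ ∞ u) : ContDiff ℝ ∞ (nr u) := by
  have h1 := cd_grad hu
  have h2 : ContDiff ℝ ∞ fun x => 1 + ‖gradient u x‖ ^ 2 := contDiff_const.add (h1.norm_sq ℝ)
  have h3 : ∀ x, 0 < 1 + ‖gradient u x‖ ^ 2 := fun x => by positivity
  exact ((h2.sqrt fun x => (h3 x).ne').inv fun x => (Real.sqrt_pos.2 (h3 x)).ne').smul h1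

theorem norm_grad (u : E n → ℝ) (x : E n) : ‖gradient u x‖ = ‖fderiv ℝ u x‖ :=
  (InnerProductSpace.toDual ℝ (E n)).symm.norm_map _

theorem fd_grad (u : E n → ℝ) (x : E n) : fderiv ℝ u x (gradient u x) = ‖gradient u x‖ ^ 2 := by
  rw [← real_inner_self_eq_norm_sq]
  exact (InnerProductSpace.toDual_symm_apply (𝕜 := ℝ)).symm

theorem le_W (a : ℝ) (ha : 0 ≤ a) : a ≤ √(1 + a ^ 2) :=
  Real.le_sqrt_of_sq_le (by linarith)

theorem norm_nr (u : E n → ℝ) (x : E n) : ‖nr u x‖ ≤ 1 := by
  have h3 : 0 < √(1 + ‖gradient u x‖ ^ 2) := Real.sqrt_pos.2 (by positivity)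
  rw [nr, norm_smul, Real.norm_of_nonneg (inv_pos.2 h3).le, inv_mul_le_iff₀ h3, mul_one]
  exact le_W _ (norm_nonneg _)

theorem gap (a : ℝ) (ha : 0 ≤ a) : a - (√(1 + a ^ 2))⁻¹ * a ^ 2 ≤ 1 := by
  have h3 : 0 < √(1 + a ^ 2) := Real.sqrt_pos.2 (by positivity)
  have h4 : √(1 + a ^ 2) ≤ 1 + a := Real.sqrt_le_iff.2 ⟨by linarith, by nlinarith⟩
  have h5 : (a - 1) * √(1 + a ^ 2) ≤ a ^ 2 := by
    rcases le_total a 1 with h | h
    · nlinarith [mul_nonneg (sub_nonneg.2 h) h3.le]
    · nlinarith [mul_le_mul_of_nonneg_left h4 (sub_nonneg.2 h)]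
  rw [inv_mul_eq_div, sub_le_comm, le_div_iff₀ h3]
  exact h5

theorem ind_cases (A : Set (E n)) (x : E n) : ind A x = 0 ∨ ind A x = 1 := by
  by_cases h : x ∈ A
  · right; simp [ind, h]
  · left; simp [ind, h]

theorem meas_ind {A : Set (E n)} (hA : MeasurableSet A) : Measurable (ind A) :=
  measurable_const.indicator hA

theorem sign (t s : ℝ) (hs : s = 0 ∨ s = 1) : -1 ≤ (Real.smoothTransition t - s) * t := by
  have h0 := Real.smoothTransition.nonneg t
  have h1 := Real.smoothTransition.le_one t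
  rcases hs with rfl | rfl
  · rcases le_total t 0 with h | h
    · rw [Real.smoothTransition.zero_of_nonpos h]; simp
    · nlinarith
  · rcases le_total 1 t with h | h
    · rw [Real.smoothTransition.one_of_one_le h]; simp
    · rcases le_total t 0 with h' | h'
      · nlinarith
      · nlinarith

theorem est_of (h : MINM) : EST := by
  obtain ⟨M, hM⟩ := sg_cs.exists_bound_of_continuous sg_cont
  have M0 : 0 ≤ M := (norm_nonneg _).trans (hM 0)
  refine ⟨M, M0, fun n A u b ψ τ c hA hu hb hψ hτ heq => ?_⟩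
  set θ : E n → ℝ := fun x => Real.smoothTransition (u x) with hθ
  have u1 : ContDiff ℝ 1 u := hu.of_le (by exact_mod_cast le_top)
  have ud := u1.differentiable one_ne_zero
  have θ1 : ContDiff ℝ 1 θ := (Real.smoothTransition.contDiff (n := 1)).comp u1
  have θd := θ1.differentiable one_ne_zero
  have θb : ∀ x, 0 ≤ θ x ∧ θ x ≤ 1 := fun x =>
    ⟨Real.smoothTransition.nonneg _, Real.smoothTransition.le_one _⟩
  have N1 : ContDiff ℝ 1 (nr u) := (cd_nr hu).of_le (by exact_mod_cast le_top)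
  have Nd := N1.differentiable one_ne_zero
  have ψd := hψ.c1.differentiable one_ne_zero
  have ψc := hψ.c1.continuous
  have dψc : Continuous (fderiv ℝ ψ) := hψ.c1.continuous_fderiv one_ne_zero
  have dθc : Continuous (fderiv ℝ θ) := θ1.continuous_fderiv one_ne_zero
  set Y : E n → E n := fun x => ψ x • nr u x with hY
  have Y1 : ContDiff ℝ 1 Y := hψ.c1.smul N1
  have Yd := Y1.differentiable one_ne_zero
  have Yc : HasCompactSupport Y := hψ.cs.smul_right
  have Dc : Continuous (dvg Y) := continuous_dvg Y1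
  have Ds : HasCompactSupport (dvg Y) := hcs_dvg Yc
  have DI : Integrable (dvg Y) := Dc.integrable_of_hasCompactSupport Ds
  have ψI : Integrable ψ := ψc.integrable_of_hasCompactSupport hψ.cs
  have wm : Measurable fun x => θ x - ind A x := θ1.continuous.measurable.sub (meas_ind hA.ms)
  have wb : ∀ x, |θ x - ind A x| ≤ 1 := fun x => by
    rcases ind_cases A x with e | e <;> rw [e, abs_le] <;> constructor <;> linarith [θb x]
  have bdd : ∀ {g : E n → ℝ}, Integrable g → Integrable fun x => (θ x - ind A x) * g x :=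
    fun hg => hg.bdd_mul (c := 1) wm.aestronglyMeasurable (Eventually.of_forall wb)
  have gI : Integrable fun x => ‖fderiv ℝ ψ x‖ * |θ x - ind A x| := by
    have h1 : Integrable fun x => ‖fderiv ℝ ψ x‖ :=
      dψc.norm.integrable_of_hasCompactSupport (hψ.cs.fderiv (𝕜 := ℝ)).norm
    refine (bdd h1).abs.congr (Eventually.of_forall fun x => ?_)
    simp only [abs_mul, abs_norm, mul_comm]
  -- the formula for the divergence
  have hD : ∀ x, dvg Y x = ψ x * (τ * u x + c + b x) + fderiv ℝ ψ x (nr u x) := fun x => by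
    rw [hY, dvg_smul (ψd x) (Nd x)]
    by_cases hx : x ∈ tsupport ψ
    · rw [← heq x hx]; rfl
    · rw [image_eq_zero_of_notMem_tsupport hx]; simp
  -- the comparison
  have k1 := h n A ψ θ (fun x => (-1 : ℝ) • Y x) hA hψ θ1 θb (Y1.const_smul (-1 : ℝ)) fun x => by
    rw [norm_smul, hY, norm_smul, Real.norm_of_nonneg (hψ.nn x)]
    simpa using mul_le_mul_of_nonneg_left (norm_nr u x) (hψ.nn x)
  have e1 : ∀ x, dvg (fun x => (-1 : ℝ) • Y x) x = -dvg Y x := fun x => by
    rw [dvg_smul (differentiableAt_const _) (Yd x)]; simp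
  simp only [e1, integral_neg] at k1
  -- integration by parts
  have k2 := integral_dvg_zero (θ1.smul Y1) (Yc.smul_left (f := θ))
  have e2 : ∀ x, dvg (θ • Y) x = θ x * dvg Y x + ψ x * fderiv ℝ θ x (nr u x) := fun x => by
    have := dvg_smul (θd x) (Yd x)
    rw [hY] at this ⊢
    simp only [map_smul, smul_eq_mul] at this
    exact this
  have θDI : Integrable fun x => θ x * dvg Y x :=
    (θ1.continuous.mul Dc).integrable_of_hasCompactSupport Ds.mul_left
  have pI : Integrable fun x => ψ x * fderiv ℝ θ x (nr u x) :=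
    (ψc.mul (dθc.clm_apply N1.continuous)).integrable_of_hasCompactSupport hψ.cs.mul_right
  have qI : Integrable fun x => ψ x * ‖fderiv ℝ θ x‖ :=
    (ψc.mul dθc.norm).integrable_of_hasCompactSupport hψ.cs.mul_right
  simp only [e2] at k2
  rw [integral_add θDI pI] at k2
  have ms : MeasurableSet {x | |u x| ≤ 1} :=
    (isClosed_le u1.continuous.abs continuous_const).measurableSet
  have k3 : (∫ x, ψ x * ‖fderiv ℝ θ x‖) - ∫ x, ψ x * fderiv ℝ θ x (nr u x) ≤
      M * ∫ x in {x | |u x| ≤ 1}, ψ x := by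
    rw [← integral_sub qI pI, ← integral_indicator ms, ← integral_const_mul]
    refine integral_mono (qI.sub pI) ((ψI.indicator ms).const_mul M) fun x => ?_
    have e3 : fderiv ℝ θ x = sg (u x) • fderiv ℝ u x :=
      ((sg_deriv (u x)).comp_hasFDerivAt x (ud x).hasFDerivAt).fderiv
    have g0 := sg_nonneg (u x)
    have g1 := gap _ (norm_nonneg (gradient u x))
    have e4 : ψ x * ‖fderiv ℝ θ x‖ - ψ x * fderiv ℝ θ x (nr u x) = ψ x * sg (u x) *
        (‖gradient u x‖ - (√(1 + ‖gradient u x‖ ^ 2))⁻¹ * ‖gradient u x‖ ^ 2) := by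
      rw [e3, norm_smul, Real.norm_of_nonneg g0, ← norm_grad, nr]
      simp only [ContinuousLinearMap.smul_apply, map_smul, smul_eq_mul, fd_grad]
      ring
    have g2 := mul_le_mul_of_nonneg_left g1 (mul_nonneg (hψ.nn x) g0)
    show ψ x * ‖fderiv ℝ θ x‖ - ψ x * fderiv ℝ θ x (nr u x) ≤ M * indicator _ ψ x
    rw [e4]
    by_cases hx : x ∈ {x | |u x| ≤ 1}
    · rw [indicator_of_mem hx]
      have g3 : sg (u x) ≤ M := (le_abs_self _).trans (hM (u x))
      nlinarith [mul_le_mul_of_nonneg_left g3 (hψ.nn x)]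
    · rw [indicator_of_notMem hx]
      have g3 : sg (u x) = 0 := by
        by_contra g4
        exact hx (abs_le.2 ⟨by linarith [(sg_mem g4).1], (sg_mem g4).2⟩)
      rw [g3]; simp
  have k4 : ∫ x, (θ x - ind A x) * dvg Y x = (∫ x, θ x * dvg Y x) - ∫ x in A, dvg Y x := by
    rw [← integral_indicator hA.ms, ← integral_sub θDI (DI.indicator hA.ms)]
    refine integral_congr_ae (Eventually.of_forall fun x => ?_)
    by_cases hx : x ∈ A
    · simp [ind, hx]; ring
    · simp [ind, hx]
  have lI : Integrable fun x => ψ x * ((θ x - ind A x) * b x) := by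
    refine (bdd ((ψc.mul hb).integrable_of_hasCompactSupport hψ.cs.mul_right)).congr
      (Eventually.of_forall fun x => ?_)
    simp only [Pi.mul_apply]; ring
  have k5 : ∫ x, ψ x * ((θ x - ind A x) * b x) ≤ ∫ x, ((θ x - ind A x) * dvg Y x +
      (τ + |c|) * ψ x + ‖fderiv ℝ ψ x‖ * |θ x - ind A x|) := by
    refine integral_mono lI (((bdd DI).add (ψI.const_mul _)).add gI) fun x => ?_
    have a1 : -1 ≤ (θ x - ind A x) * u x := sign (u x) _ (ind_cases A x)
    have a2 : -|c| ≤ (θ x - ind A x) * c := by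
      refine neg_le_of_abs_le ?_
      rw [abs_mul]
      simpa using mul_le_mul_of_nonneg_right (wb x) (abs_nonneg c)
    have a3 : -(‖fderiv ℝ ψ x‖ * |θ x - ind A x|) ≤ (θ x - ind A x) * fderiv ℝ ψ x (nr u x) := by
      refine neg_le_of_abs_le ?_
      rw [abs_mul, mul_comm]
      refine mul_le_mul_of_nonneg_right ?_ (abs_nonneg _)
      refine ((fderiv ℝ ψ x).le_opNorm _).trans ?_
      simpa using mul_le_mul_of_nonneg_left (norm_nr u x) (norm_nonneg (fderiv ℝ ψ x))
    have a4 := mul_le_mul_of_nonneg_left a1 (mul_nonneg (hψ.nn x) hτ)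
    have a5 := mul_le_mul_of_nonneg_left a2 (hψ.nn x)
    show _ ≤ (θ x - ind A x) * dvg Y x + (τ + |c|) * ψ x + ‖fderiv ℝ ψ x‖ * |θ x - ind A x|
    rw [hD]
    nlinarith
  have sI : Integrable fun x => (θ x - ind A x) * dvg Y x + (τ + |c|) * ψ x :=
    (bdd DI).add (ψI.const_mul _)
  rw [integral_add sI gI, integral_add (bdd DI) (ψI.const_mul _), integral_const_mul, k4] at k5
  show ∫ x, ψ x * ((θ x - ind A x) * b x) ≤ (τ + |c|) * (∫ x, ψ x) +
    M * (∫ x in {x | |u x| ≤ 1}, ψ x) + 2 * ∫ x, ‖fderiv ℝ ψ x‖ * |θ x - ind A x|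
  linarith

end Vale.Agent.P134S.Est

namespace Vale.Agent.P134S

theorem est_of (h : MINM) : EST := Est.est_of h

end Vale.Agent.P134S
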