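import Vale.Agent.P134S.Defs

/-!
# P134S, row GRB: the bounds for a capillary graph
-/

open MeasureTheory Metric Filter Topology Set
open scoped ContDiff RealInnerProductSpace ENNReal
open Vale.Agent.P366.Stmt (E)
open Vale.Agent.P366W

noncomputable section

namespace Vale.Agent.P134S

namespace Grb

variable {n : ℕ} {e : E (n + 1)} {L : E n →ₗᵢ[ℝ] E (n + 1)} {u : E n → ℝ}

theorem smw (hu : ContDiff ℝ ∞ u) : ContDiff ℝ ∞ fun y => (√(1 + ‖gradient u y‖ ^ 2))⁻¹ :=
  ((contDiff_const.add ((smooth_gradient hu).norm_sq ℝ)).sqrt fun _ => by positivity).inv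
    fun _ => by positivity

theorem smn (hu : ContDiff ℝ ∞ u) : ContDiff ℝ ∞ (nr u) := (smw hu).smul (smooth_gradient hu)

theorem norm_nr (u : E n → ℝ) (y : E n) : ‖nr u y‖ ≤ 1 := by
  rw [nr, norm_smul, norm_inv, Real.norm_of_nonneg (Real.sqrt_nonneg _),
    inv_mul_le_one₀ (by positivity)]
  exact Real.le_sqrt_of_sq_le (by linarith)

theorem nu_eq (h : Fr e L) (hu : ContDiff ℝ ∞ u) (x : E (n + 1)) : (gr e L u).ν x =
    (√(1 + ‖gradient u (adj L x)‖ ^ 2))⁻¹ • e - L (nr u (adj L x)) := by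
  have hg : gradient (gr e L u).Φ x = e - L (gradient u (adj L x)) :=
    gradient_gsurf _ _ (hu.differentiable (by simp) _)
  have hn := h.norm_sq (-gradient u (adj L x)) 1
  rw [one_smul, map_neg, neg_add_eq_sub, norm_neg, one_pow, add_comm _ (1 : ℝ)] at hn
  have hW : (gr e L u).W x = √(1 + ‖gradient u (adj L x)‖ ^ 2) := by
    rw [Surf.W, hg, ← hn, ← real_inner_self_eq_norm_sq]
    rfl
  rw [Surf.ν, Surf.n, hW, hg, nr, map_smul L, ← smul_sub]
  rfl

theorem H_eq (h : Fr e L) (hu : ContDiff ℝ ∞ u) (x : E (n + 1)) :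
    (gr e L u).H x = -mc u (adj L x) := by
  have e1 : (fun y => (gr e L u).a y • (gr e L u).ν y) = fun x =>
      (√(1 + ‖gradient u (adj L x)‖ ^ 2))⁻¹ • e - L.toContinuousLinearMap (nr u (adj L x)) :=
    funext fun y => by rw [nu_eq h hu]; exact one_smul _ _
  have d1 := (((smw hu).differentiable (by simp) (adj L x)).hasFDerivAt.comp x
    (adj L).hasFDerivAt).smul_const e
  have d2 := L.toContinuousLinearMap.hasFDerivAt.comp x
    (((smn hu).differentiable (by simp) (adj L x)).hasFDerivAt.comp x (adj L).hasFDerivAt)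
  have d3 : fderiv ℝ (fun x => (√(1 + ‖gradient u (adj L x)‖ ^ 2))⁻¹ • e -
      L.toContinuousLinearMap (nr u (adj L x))) x = _ := (d1.sub d2).fderiv
  rw [Surf.H, e1, dvg_eq, d3, h.trc, show (gr e L u).a x = 1 from rfl, div_one, mc, dvg,
    ← Finset.sum_neg_distrib]
  simp [adj_L, h.adj_e, inner_sub_right, inner_smul_right, h.ort', EuclideanSpace.inner_single_left]

end Grb

theorem grb : GRB := by
  intro n e L A R η u b τ c h hη ap
  have hb : ∀ x ∈ ball (0 : E (n + 1)) R, adj L x ∈ ball (0 : E n) R := fun x hx =>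
    mem_ball_zero_iff.2 ((h.norm_adj x).trans_lt (mem_ball_zero_iff.1 hx))
  have du := ap.smu.differentiable (by simp)
  have db := ap.smb.differentiable (by simp)
  refine ⟨cap n e L u _ _ h ap.smu contDiff_const contDiff_const (fun _ _ _ => rfl)
    (fun _ v hv => real_inner_self_pos.2 hv) fun _ => one_pos, hη, fun x _ => ?_, fun x _ => ?_,
    fun x _ v => ?_, fun x _ => ?_, fun x _ => ?_, fun x _ v => ?_, fun x hx => ?_,
    fun x hx y hy x0 y0 => ?_, fun x hx _ => ?_⟩
  · simp [gr, gsurf]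
  · simp only [gr, gsurf, fderiv_fun_const, Pi.zero_apply]
    exact (ContinuousLinearMap.opNorm_zero).trans_le hη
  · simp only [gr, gsurf, fderiv_fun_const, Pi.zero_apply, zero_apply]
    exact (ContinuousLinearMap.opNorm_zero).trans_le (by positivity)
  · simp [gr, gsurf]
  · simpa [gr, gsurf] using hη
  · simpa [gr, gsurf] using mul_nonneg (sq_nonneg η) (norm_nonneg v)
  · rw [Grb.H_eq h ap.smu, abs_neg]
    exact ap.H0 _ (hb x hx)
  · have x1 : u (adj L x) = ⟪e, x⟫ := (sub_eq_zero.1 x0).symm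
    have y1 : u (adj L y) = ⟪e, y⟫ := (sub_eq_zero.1 y0).symm
    have m := (convex_ball (0 : E n) R).norm_image_sub_le_of_norm_fderiv_le (C := η ^ 2 - τ)
      (fun z _ => db z) (fun z hz => by linarith [ap.H1 z hz]) (hb y hy) (hb x hx)
    have k0 : 0 ≤ η ^ 2 - τ := by linarith [ap.H1 _ (hb x hx), norm_nonneg (fderiv ℝ b (adj L x))]
    have k1 : |⟪e, x - y⟫| ≤ ‖x - y‖ := by simpa [h.one] using abs_real_inner_le_norm e (x - y)
    rw [← map_sub, Real.norm_eq_abs] at m
    have k2 := mul_le_mul_of_nonneg_left (h.norm_adj (x - y)) k0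
    have k3 := mul_le_mul_of_nonneg_left k1 ap.τ0
    rw [Grb.H_eq h ap.smu, Grb.H_eq h ap.smu, ap.eq _ (hb x hx), ap.eq _ (hb y hy), x1, y1,
      show -(τ * ⟪e, x⟫ + c + b (adj L x)) - -(τ * ⟪e, y⟫ + c + b (adj L y)) =
        -(τ * ⟪e, x - y⟫ + (b (adj L x) - b (adj L y))) by rw [inner_sub_right]; ring, abs_neg]
    refine (abs_add_le _ _).trans ?_
    rw [abs_mul, abs_of_nonneg ap.τ0]
    linarith
  · have ev : (gr e L u).H =ᶠ[𝓝 x] fun y => -(τ * u (adj L y) + c + b (adj L y)) := by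
      filter_upwards [isOpen_ball.mem_nhds hx] with y hy
      rw [Grb.H_eq h ap.smu, ap.eq _ (hb y hy)]
    have d := (((((du (adj L x)).hasFDerivAt.comp x (adj L).hasFDerivAt).const_mul τ).add_const
      c).add ((db (adj L x)).hasFDerivAt.comp x (adj L).hasFDerivAt)).neg
    have d' : fderiv ℝ (fun y => -(τ * u (adj L y) + c + b (adj L y))) x = _ := d.fderiv
    have k1 : adj L ((gr e L u).ν x) = -nr u (adj L x) := by
      rw [Grb.nu_eq h ap.smu, map_sub, map_smul, h.adj_e, adj_L, smul_zero, zero_sub]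
    have k2 : 0 ≤ fderiv ℝ u (adj L x) (nr u (adj L x)) := by
      rw [← inner_grad, nr, inner_smul_right, real_inner_self_eq_norm_sq]
      positivity
    have k3 := (fderiv ℝ b (adj L x)).unit_le_opNorm _ (Grb.norm_nr u (adj L x))
    have k4 := ap.H1 _ (hb x hx)
    rw [Real.norm_eq_abs] at k3
    rw [ev.fderiv_eq, d']
    simp only [neg_apply, add_apply, smul_apply, ContinuousLinearMap.comp_apply, k1, map_neg,
      smul_eq_mul]
    linarith [mul_nonneg ap.τ0 k2, neg_abs_le (fderiv ℝ b (adj L x) (nr u (adj L x))), ap.τ0]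

end Vale.Agent.P134S
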