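import Vale.Agent.P134S.Defs

/-!
# P134S, row HALF: the support lies in a hyperplane
-/

open MeasureTheory Metric Filter Topology Set
open scoped RealInnerProductSpace
open Vale.Agent.P366.Stmt (E)

noncomputable section

namespace Vale.Agent.P134S

theorem half_of (h : CONST) : HALF := by
  intro N μ A e P e1 hs a0 a1
  have k : ∀ v : E N, (∀ x ∈ μ.support, ⟪v, x⟫ = 0) →
      (∀ᵐ x, 0 < ⟪v, x⟫ → x ∈ A) ∨ ∀ᵐ x, 0 < ⟪v, x⟫ → x ∉ A := fun v hv =>
    h N μ A {x | 0 < ⟪v, x⟫} P (isOpen_lt continuous_const (by fun_prop))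
      (convex_halfSpace_gt (innerSL ℝ v).toLinearMap.isLinear 0).isPreconnected
      (measure_mono_null (fun x hx c => (hv x c).not_gt hx) Measure.measure_compl_support)
  have z : ∀ᵐ x, 0 < ⟪e, x⟫ ∨ 0 < ⟪-e, x⟫ := by
    have := Measure.addHaar_submodule volume (LinearMap.ker (innerSL ℝ e).toLinearMap) fun c => by
      simpa [e1] using (c ▸ Submodule.mem_top : e ∈ LinearMap.ker (innerSL ℝ e).toLinearMap)
    refine measure_mono_null (fun x hx => by_contra fun c => hx ?_) this
    simpa [eq_comm, c] using lt_or_gt_of_ne (show 0 ≠ ⟪e, x⟫ from fun d => c d.symm)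
  rcases k e hs with p | p <;> rcases k (-e) (fun x hx => by simp [hs x hx]) with q | q
  · refine absurd (ae_iff.1 ?_ : volume {x | ¬x ∈ A} = 0) a1
    filter_upwards [z, p, q] with x z p q using z.elim p q
  · refine ⟨e, e1, ?_⟩
    filter_upwards [z, p, q] with x z p q using ⟨fun a => z.resolve_right fun b => q b a, p⟩
  · refine ⟨-e, (norm_neg e).trans e1, ?_⟩
    filter_upwards [z, p, q] with x z p q using ⟨fun a => z.resolve_left fun b => p b a, q⟩
  · refine absurd (measure_eq_zero_iff_ae_notMem.2 ?_) a0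
    filter_upwards [z, p, q] with x z p q using z.elim p q

end Vale.Agent.P134S
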