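import Vale.Agent.P134S.JAC

/-!
# P134S: a cone which is flat where a direction is transversal contains a hyperplane
-/

open MeasureTheory Set Filter Topology
open scoped ContDiff InnerProductSpace
open Vale.Agent.P366S

noncomputable section

namespace Vale.Agent.P134S.Jc

variable {E : Type} [NormedAddCommGroup E] [InnerProductSpace ℝ E] [FiniteDimensional ℝ E]
variable {S : Set E} {x a : E} {V : Submodule ℝ E} {F : E → ℝ}

theorem fn_cont (hr : ∀ x ∈ S, ∃ F, Lev S F x) : ContinuousOn (fn S a) S := fun x hx => by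
  obtain ⟨F, hF⟩ := hr x hx
  refine ((hF.smN a).cont.abs.continuousWithinAt (s := S)).congr_of_eventuallyEq_of_mem ?_ hx
  filter_upwards [mem_nhdsWithin_of_mem_nhds hF.ev, self_mem_nhdsWithin] with y b1 b2
  exact fn_eq b1 b2

theorem fn_lin {L : E →L[ℝ] ℝ} (h0 : L ≠ 0) (hx : x ∈ S) (h : ∀ᶠ y in 𝓝 x, y ∈ S ↔ L y = 0) :
    fn S a x = |L a / ‖L‖| := by
  have : Lev S L x := ⟨.of_forall fun _ => L.contDiff.contDiffAt, by simpa using h0, h⟩
  simpa using fn_eq (a := a) this hx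

variable [MeasurableSpace E] [BorelSpace E] {μ : Measure E}

omit [BorelSpace E] in
theorem hyp' (hs : Stable (V : Set E)ᶜ S μ) (hc : Cone V S μ)
    (h1 : Module.finrank ℝ V + 3 ≤ Module.finrank ℝ E) (h0 : ∀ y ∈ S, c2 S y * fn S a y = 0)
    (hx : x ∈ S) (hn : fn S a x ≠ 0) : ∃ L : E →L[ℝ] ℝ, L a ≠ 0 ∧ (∀ v ∈ V, L v = 0) ∧
      ∀ z, L z = 0 → z ∉ V → ∀ᶠ y in 𝓝 z, (y ∈ S ↔ L y = 0) := by
  have cf := fn_cont (a := a) hs.reg
  have hl : ∀ y ∈ S, fn S a y ≠ 0 → ∃ L : E →L[ℝ] ℝ, L ≠ 0 ∧ (∀ v ∈ V, L v = 0) ∧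
      ∀ᶠ z in 𝓝 y, z ∈ S ↔ L z = 0 := fun y hy hy0 => by
    obtain ⟨F, hF⟩ := hs.reg y hy
    refine ⟨fderiv ℝ F y, hF.ne, fun v hv => (hF.mem_tsp hy v).1 (hc.mem_tsp hy hv), ?_⟩
    have := flat_loc hF hy (by
      filter_upwards [(cf y hy).eventually_ne hy0, self_mem_nhdsWithin] with z b1 b2
      exact (mul_eq_zero.1 (h0 z b2)).resolve_right b1)
    simpa only [map_sub, (hF.mem_tsp hy y).1 (hc.self_mem_tsp hy), sub_zero] using this
  obtain ⟨L, a1, a2, a3⟩ := hl x hx hn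
  have e := fn_lin (a := a) a1 hx a3
  have cl : closure (S ∩ fn S a ⁻¹' {fn S a x}) ∩ (V : Set E)ᶜ ⊆ S ∩ fn S a ⁻¹' {fn S a x} := by
    rintro w ⟨w1, w2⟩
    have w3 : w ∈ S := hs.cl ⟨closure_mono inter_subset_left w1, w2⟩
    refine ⟨w3, ?_⟩
    have := ((cf w w3).mono inter_subset_left).mem_closure_image w1
    exact (closure_mono (image_subset_iff.2 inter_subset_right)).trans
      isClosed_singleton.closure_subset this
  have loc : ∀ y ∈ S ∩ fn S a ⁻¹' {fn S a x}, ∀ᶠ z in 𝓝 y,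
      (z ∈ S ∩ fn S a ⁻¹' {fn S a x} ↔ z ∈ S) := fun y hy => by
    have hy2 : fn S a y = fn S a x := hy.2
    obtain ⟨L', b1, -, b3⟩ := hl y hy.1 (hy2 ▸ hn)
    filter_upwards [b3.eventually_nhds] with z hz
    refine ⟨fun h => h.1, fun h => ⟨h, ?_⟩⟩
    rw [mem_preimage, mem_singleton_iff, fn_lin b1 h hz, ← fn_lin b1 hy.1 b3, hy2]
  have hx' : x ∈ S ∩ fn S a ⁻¹' {fn S a x} := ⟨hx, rfl⟩
  refine ⟨L, fun h => hn (by simp [e, h]), a2, fun z z1 z2 => ?_⟩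
  have := spread cl h1 (fun y hy => by
      have hy2 : fn S a y = fn S a x := hy.2
      obtain ⟨L', -, -, b3⟩ := hl y hy.1 (hy2 ▸ hn)
      exact ⟨L', ((loc y hy).and b3).mono fun w hw => hw.1.trans hw.2⟩) a1 a2 hx' (hs.sub hx)
    (((loc x hx').and a3).mono fun w hw => hw.1.trans hw.2) z1 z2
  exact ((loc z (this.self_of_nhds.2 z1)).and this).mono fun w hw => hw.1.symm.trans hw.2

end Vale.Agent.P134S.Jc

namespace Vale.Agent.P134S

theorem hyp : HYP := fun N μ V S a x hs hc h1 h0 hx hn => by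
  simp only [nu, ← Jc.fn_norm] at h0 hn
  obtain ⟨L, a1, a2, a3⟩ := Jc.hyp' hs hc (by simpa using h1) h0 hx hn
  rcases a1.lt_or_gt with h | h
  · refine ⟨-L, by simpa using h, fun v hv => by simp [a2 v hv], fun z z1 z2 => ?_⟩
    simpa using a3 z (by simpa using z1) z2
  · exact ⟨L, h, a2, a3⟩

end Vale.Agent.P134S
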