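import Vale.Agent.P134S.Defs
import Vale.Agent.P366S.Flat

/-!
# P134S: the Jacobi field of a direction of monotonicity on a minimal cone
-/

open MeasureTheory Set Filter Topology
open scoped ContDiff InnerProductSpace
open Vale.Agent.P366S

noncomputable section

namespace Vale.Agent.P134S.Jc

theorem lapN {ι R : Type} [Fintype ι] [CommRing R] (D : Dat ι R) (c : ι → R)
    (hc : ∀ k j, D.p k (c j) = 0) : ∑ k, D.d k (D.d k (∑ j, c j * D.n j)) =
      ∑ j, c j * D.d j D.H - (∑ j, c j * D.n j) * D.C := by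
  have h0 : ∀ k j, D.d k (c j) = 0 := fun k j => by simp [Dat.d_def, Dat.nr, hc]
  have h1 : ∀ k, D.d k (∑ j, c j * D.n j) = ∑ j, c j * D.A k j := fun k => by
    simp only [map_sum, D.d_mul, h0, zero_mul, zero_add, Dat.A]
  simp only [h1, map_sum, D.d_mul, h0, zero_mul, zero_add]
  rw [Finset.sum_comm, Finset.sum_mul, ← Finset.sum_sub_distrib]
  refine Finset.sum_congr rfl fun j _ => ?_
  rw [← Finset.mul_sum, D.divA]; ring

variable {E : Type} [NormedAddCommGroup E] [InnerProductSpace ℝ E] [FiniteDimensional ℝ E]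
variable {S : Set E} {x a : E} {V : Submodule ℝ E} {F f g : E → ℝ}

/-- the length of the normal part of `a` -/
def fn (S : Set E) (a y : E) : ℝ := √⟪a, a - prj S y a⟫_ℝ

theorem fn_eq (h : Lev S F x) (hx : x ∈ S) :
    fn S a x = |fderiv ℝ F x a / ‖fderiv ℝ F x‖| := by
  rw [fn, h.prj_eq hx, sub_sub_cancel, inner_smul_right, inner_sum, ← Real.sqrt_mul_self_eq_abs]
  congr 2
  simp only [inner_smul_right, div_mul_eq_mul_div, ← Finset.sum_div]
  rw [← sum_bs (fderiv ℝ F x) a]
  congr 1
  exact Finset.sum_congr rfl fun l _ => by rw [real_inner_comm]; ring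

theorem fn_norm (S : Set E) (a y : E) : fn S a y = ‖a - prj S y a‖ := by
  have h0 : ⟪a - prj S y a, prj S y a⟫_ℝ = 0 :=
    (tsp S y).starProjection_inner_eq_zero a _ (prj_mem S y a)
  have : ⟪a, a - prj S y a⟫_ℝ = ‖a - prj S y a‖ ^ 2 := by
    rw [← real_inner_self_eq_norm_sq, inner_sub_left a (prj S y a), real_inner_comm _ (prj S y a),
      h0, sub_zero]
  rw [fn, this, Real.sqrt_sq (norm_nonneg _)]

theorem jac_pt (h : Lev S F x) (hx : x ∈ S) (hs : ∀ᶠ y in 𝓝[S] x, 0 ≤ fderiv ℝ F y a)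
    (hm : ∀ j, ∀ᶠ y in 𝓝[S] x, P366S.mc S j y = 0) : (∃ G : SG x, Rep S (fn S a) G) ∧
      ∑ k, del S (del S (fn S a) (bs E k)) (bs E k) x = -(fn S a x * c2 S x) := by
  set c : Fin (Module.finrank ℝ E) → SG x := fun j => gm _ (SmAt.const ⟪bs E j, a⟫_ℝ x) with hc
  have r : Rep S (fn S a) (∑ j, c j * h.dat.n j) := by
    refine (Rep.sum Finset.univ fun j => (Rep.mk (SmAt.const ⟪bs E j, a⟫_ℝ x)).mul
      (Rep.mk (h.smN (bs E j)))).congr ?_
    filter_upwards [hs, mem_nhdsWithin_of_mem_nhds h.ev, self_mem_nhdsWithin] with y b1 b2 b3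
    rw [fn_eq b2 b3, abs_of_nonneg (div_nonneg b1 (norm_nonneg _)), ← sum_bs (fderiv ℝ F y) a]
    simp only [Finset.sum_div, mul_div_assoc]
  refine ⟨⟨_, r⟩, ?_⟩
  have e := congrArg vl (lapN h.dat c fun k j => by
    rw [mk_zero]
    exact mk_eq (hf := (SmAt.const ⟪bs E j, a⟫_ℝ x).pd (bs E k)) (.of_forall fun y => by simp))
  have e4 : ∀ k, vl (h.dat.d k (h.dat.d k (∑ j, c j * h.dat.n j))) =
      del S (del S (fn S a) (bs E k)) (bs E k) x := fun k => ((r.del h k).del h k).val hx
  have e5 : ∀ j, vl (h.dat.d j h.dat.H) = 0 := fun j => ((h.repH hm).del0 h j).val hx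
  rw [map_sub, map_mul, r.val hx, h.repC.val hx, map_sum, map_sum] at e
  simp only [e4, map_mul, e5, mul_zero, Finset.sum_const_zero, zero_sub] at e
  exact e

/-- the tangential gradients of `f` and `g` are orthogonal -/
def Ort (S : Set E) (f g : E → ℝ) : Prop :=
  ∀ y ∈ S, ∑ k, del S f (bs E k) y * del S g (bs E k) y = 0

theorem ort_of {z : E → E} (hg : ∀ y ∈ S, HasFDerivAt g (innerSL ℝ (z y)) y)
    (hz : ∀ y ∈ S, z y ∈ tsp S y) (h0 : ∀ y ∈ S, fderivWithin ℝ f S y (z y) = 0) :
    Ort S f g := fun y hy => by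
  have e : prj S y (z y) = z y := Submodule.starProjection_eq_self_iff.2 (hz y hy)
  have := sum_bs ((fderivWithin ℝ f S y).comp (prj S y)) (z y)
  simp only [ContinuousLinearMap.comp_apply, e, h0 y hy] at this
  rw [← this]
  refine Finset.sum_congr rfl fun k _ => ?_
  rw [del_eq (hg y hy).hasFDerivWithinAt, innerSL_apply_apply, del, mul_comm, prj,
    ← Submodule.inner_starProjection_left_eq_right, ← prj, e, real_inner_comm]

theorem flat_loc (h : Lev S F x) (hx : x ∈ S) (h0 : ∀ᶠ y in 𝓝[S] x, c2 S y = 0) :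
    ∀ᶠ y in 𝓝 x, y ∈ S ↔ fderiv ℝ F x (y - x) = 0 := by
  have h1 : ∀ y, c2 S y = 0 → ∀ k i j, del S (Pc S i j) (bs E k) y = 0 := fun y this k i j => by
    rw [c2, div_eq_zero_iff, or_iff_left two_ne_zero,
      Finset.sum_eq_zero_iff_of_nonneg fun _ _ => by positivity] at this
    have := (Finset.sum_eq_zero_iff_of_nonneg fun _ _ => by positivity).1
      (this k (Finset.mem_univ _)) i (Finset.mem_univ _)
    have := (Finset.sum_eq_zero_iff_of_nonneg fun _ _ => by positivity).1 this j (Finset.mem_univ _)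
    exact pow_eq_zero_iff two_ne_zero |>.1 this
  have h2 : ∀ᶠ y in 𝓝[S] x, ∀ i j, Pc S i j y = Pc S i j x :=
    eventually_all.2 fun i => eventually_all.2 fun j => h.const' hx (h.repP i j)
      (h0.mono fun y hy k => h1 y hy k i j)
  have h3 := h.const' hx (f := fderiv ℝ F x)
    (Rep.mk (.of_forall fun _ => (fderiv ℝ F x).contDiff.contDiffAt)) (by
      filter_upwards [h2] with y hy k
      rw [del_eq (fderiv ℝ F x).hasFDerivWithinAt,
        InnerProductSpace.ext_inner_left_basis (bs E).toBasis (x := prj S y (bs E k))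
          (y := prj S x (bs E k)) fun i => hy i k]
      exact (h.mem_tsp hx _).1 (prj_mem _ _ _))
  exact h.flat hx (h3.mono fun y hy => by rw [map_sub, hy, sub_self])

theorem exists_bump {r : ℝ} (hr : 0 < r) : ∃ β : ℝ → ℝ, ContDiff ℝ ∞ β ∧ (∀ t, 0 ≤ β t) ∧
    β r = 1 ∧ ∀ t, β t ≠ 0 → r / 2 ≤ t ∧ t ≤ 2 * r := by
  let b : ContDiffBump r := ⟨r / 4, r / 2, by positivity, by linarith⟩
  refine ⟨b, b.contDiff, fun _ => b.nonneg, b.one_of_mem_closedBall (by simp [b]; positivity),
    fun t ht => ?_⟩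
  have : t ∈ Metric.ball r (r / 2) := by
    rw [← show Function.support b = Metric.ball r (r / 2) from b.support_eq]; exact ht
  rw [Metric.mem_ball, Real.dist_eq, abs_lt] at this
  constructor <;> linarith [this.1, this.2]

variable [MeasurableSpace E] [BorelSpace E] {μ : Measure E}

omit [BorelSpace E] in
/-- an invariant function has an invariant test function at every point -/
theorem exists_test (hc : Cone V S μ) (hs : Stable (V : Set E)ᶜ S μ) (hf : Sm S f)
    (hi : ∀ t : ℝ, 0 < t → ∀ v ∈ V, ∀ y, f (t • y + v) = f y) (hx : x ∈ S) :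
    ∃ ζ, TS (V : Set E)ᶜ S ζ ∧ (∀ y, 0 ≤ ζ y) ∧ ζ x = 1 ∧ Ort S f ζ := by
  have hd : ∀ y ∈ S, ∀ s : ℝ, ∀ v ∈ V, fderivWithin ℝ f S y (s • y + v) = 0 := fun y hy s v hv => by
    have h1 : HasDerivAt (fun t : ℝ => y + t • (s • y + v)) (s • y + v) 0 := by
      simpa using ((hasDerivAt_id (0 : ℝ)).smul_const (s • y + v)).const_add y
    have h2 : ∀ᶠ t : ℝ in 𝓝 0, 0 < 1 + t * s :=
      (by fun_prop : Continuous fun t : ℝ => 1 + t * s).continuousAt.eventually
        (lt_mem_nhds (by simp))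
    have e : ∀ t : ℝ, y + t • (s • y + v) = (1 + t * s) • y + t • v := fun t => by
      simp only [smul_add, add_smul, one_smul, smul_smul, add_assoc]
    have h3 := (hf.diff hy).hasFDerivWithinAt
    have h4 : HasDerivWithinAt (f ∘ fun t : ℝ => y + t • (s • y + v))
        (fderivWithin ℝ f S y (s • y + v)) {t | 0 < 1 + t * s} 0 :=
      HasFDerivWithinAt.comp_hasDerivWithinAt_of_eq 0 h3 h1.hasDerivWithinAt
        (fun t ht => by rw [e]; exact hc.aff ht (V.smul_mem t hv) y hy) (by simp)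
    have h5 : HasDerivAt (f ∘ fun t : ℝ => y + t • (s • y + v)) 0 0 :=
      (hasDerivAt_const (0 : ℝ) (f y)).congr_of_eventuallyEq (h2.mono fun t ht => by
        simp only [Function.comp, e, hi _ ht _ (V.smul_mem t hv)])
    exact (h4.hasDerivAt h2).unique h5
  have mP := V.starProjection_apply_mem
  set σ : E → ℝ := fun y => ‖V.starProjection y‖ ^ 2 + 1 with hσ
  have sσ : ContDiff ℝ ∞ σ := (V.starProjection.contDiff.norm_sq ℝ).add contDiff_const
  have o1 : Ort S f (rho V) := ort_of (z := fun y => (2 : ℝ) • (y - V.starProjection y))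
    (fun y _ => by
      have := ((hasFDerivAt_id y).sub V.starProjection.hasFDerivAt).norm_sq
      refine this.congr_fderiv ?_
      ext w
      have h0 : ⟪y - V.starProjection y, V.starProjection w⟫_ℝ = 0 :=
        V.starProjection_inner_eq_zero y _ (mP w)
      rw [inner_sub_left] at h0
      simp [h0])
    (fun y hy => (tsp S y).smul_mem _ ((tsp S y).sub_mem (hc.self_mem_tsp hy)
      (hc.mem_tsp hy (mP y))))
    (fun y hy => by
      have := hd y hy 2 _ (V.smul_mem (-2) (mP y))
      rwa [neg_smul, ← sub_eq_add_neg, ← smul_sub] at this)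
  have o2 : Ort S f σ := ort_of (z := fun y => (2 : ℝ) • V.starProjection y)
    (fun y _ => by
      have := (V.starProjection.hasFDerivAt (x := y)).norm_sq.add_const 1
      refine this.congr_fderiv ?_
      ext w
      have h0 : ⟪V.starProjection y, V.starProjection w⟫_ℝ = ⟪V.starProjection y, w⟫_ℝ := by
        rw [← Submodule.inner_starProjection_left_eq_right,
          Submodule.starProjection_eq_self_iff.2 (mP y)]
      simp [h0])
    (fun y hy => (tsp S y).smul_mem _ (hc.mem_tsp hy (mP y)))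
    (fun y hy => by simpa using hd y hy 0 _ (V.smul_mem 2 (mP y)))
  have r0 := rho_pos (hs.sub hx)
  have s0 : 0 < σ x := by positivity
  obtain ⟨β, b1, b2, b3, b4⟩ := exists_bump r0
  obtain ⟨γ, c1, c2, c3, c4⟩ := exists_bump s0
  have m1 : Sm S (rho V) := .of_smAt fun _ _ => .of_forall fun _ => rho_smooth.contDiffAt
  have m2 : Sm S σ := .of_smAt fun _ _ => .of_forall fun _ => sσ.contDiffAt
  have m3 : Sm S fun y => β (rho V y) := m1.comp fun _ _ => .of_forall fun _ => b1.contDiffAt
  have m4 : Sm S fun y => γ (σ y) := m2.comp fun _ _ => .of_forall fun _ => c1.contDiffAt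
  refine ⟨fun y => β (rho V y) * γ (σ y), ⟨m3.mul m4, _,
    box_compact (V := V) (Real.log (rho V x / 2)) (Real.log (2 * rho V x)) (2 * σ x),
    box_sub _ _ _, fun y _ hy => ?_⟩, fun y => mul_nonneg (b2 _) (c2 _), by simp [b3, c3],
    fun y hy => ?_⟩
  · by_contra hne
    have d1 := b4 _ (left_ne_zero_of_mul hne)
    have d2 := (c4 _ (right_ne_zero_of_mul hne)).2
    refine hy ⟨by rw [Real.exp_log (by positivity)]; exact d1.1,
      by rw [Real.exp_log (by positivity)]; exact d1.2, le_trans ?_ d2⟩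
    simp only [hσ]
    nlinarith [sq_nonneg (‖V.starProjection y‖ - 1)]
  · simp only [del_mul m3 m4 hy, del_comp m1 hy (b1.differentiable (by simp) _).hasDerivAt,
      del_comp m2 hy (c1.differentiable (by simp) _).hasDerivAt]
    have e1 := o1 y hy
    have e2 := o2 y hy
    have e : ∀ p q r s u v w : ℝ, p * (q * r * s + u * (v * w)) = q * s * (p * r) + u * v * (p * w) :=
      fun _ _ _ _ _ _ _ => by ring
    simp only [e, Finset.sum_add_distrib, ← Finset.mul_sum, e1, e2, mul_zero, add_zero]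

/-- **the Jacobi field is locally constant and vanishes where the cone is curved** -/
theorem jac_zero (hc : Cone V S μ) (hs : Stable (V : Set E)ᶜ S μ)
    (hg : ∀ x ∈ S, ∃ F, Lev S F x ∧ ∀ᶠ y in 𝓝[S] x, 0 ≤ fderiv ℝ F y a) (hx : x ∈ S) :
    fn S a x * c2 S x = 0 ∧ ∀ᶠ y in 𝓝[S] x, fn S a y = fn S a x := by
  have hU := isOpen_spine V
  have hp : ∀ y ∈ S, (∃ G : SG y, Rep S (fn S a) G) ∧
      ∑ k, del S (del S (fn S a) (bs E k)) (bs E k) y = -(fn S a y * c2 S y) := fun y hy =>
    let ⟨_, h1, h2⟩ := hg y hy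
    jac_pt h1 hy h2 fun j => eventually_nhdsWithin_of_forall fun z hz => hs.minimal hU j hz
  have hf : Sm S (fn S a) := fun y hy => (hp y hy).1
  have hT := fun y (hy : y ∈ S) => exists_test hc hs hf
    (fun t ht v hv y => by simp only [fn, hc.prj_aff ht hv]) hy
  have dv : ∀ {h : Fin (Module.finrank ℝ E) → E → ℝ}, (∀ k, TS (V : Set E)ᶜ S (h k)) →
      ∫ y in S, ∑ k, del S (h k) (bs E k) y ∂μ = 0 := fun hh => by
    rw [integral_finsetSum _ fun k _ => hs.int hU ((hh k).del hs.reg k)]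
    simp only [fun k => hs.var' hU (hh k), Finset.sum_const_zero]
  have z1 : ∀ y ∈ S, fn S a y * c2 S y = 0 := fun y hy => by
    obtain ⟨ζ, t1, t2, t3, t4⟩ := hT y hy
    have i1 := dv fun k => t1.mul (hf.del hs.reg k)
    have := hs.zero_of_int hU (t1.mul (hf.mul (sm_c2 hs.reg)))
      (fun z _ => mul_nonneg (t2 z) (mul_nonneg (Real.sqrt_nonneg _) (c2_nonneg S z))) (by
        rw [← neg_eq_zero, ← integral_neg, ← i1]
        refine setIntegral_congr_fun (hs.meas hU) fun z hz => ?_
        have e1 := t4 z hz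
        simp only [mul_comm (del S (fn S a) _ z)] at e1
        simp only [fun k => del_mul t1.sm (hf.del hs.reg k) hz, Finset.sum_add_distrib,
          ← Finset.mul_sum, e1, (hp z hz).2, zero_add, mul_neg]) hy
    simpa [t3] using this
  have z2 : ∀ y ∈ S, ∀ k, del S (fn S a) (bs E k) y = 0 := fun y hy k => by
    obtain ⟨ζ, t1, t2, t3, t4⟩ := hT y hy
    have i1 := dv fun k => (t1.mul hf).mul (hf.del hs.reg k)
    have := hs.zero_of_int hU (t1.mul (Sm.sum Finset.univ fun k =>
      (hf.del hs.reg k).mul (hf.del hs.reg k)))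
      (fun z _ => mul_nonneg (t2 z) (Finset.sum_nonneg fun _ _ => mul_self_nonneg _)) (by
        rw [← i1]
        refine setIntegral_congr_fun (hs.meas hU) fun z hz => ?_
        have e1 := t4 z hz
        have e : ∀ p q r s : ℝ, (p * q + r * s) * s = q * (s * p) + r * (s * s) :=
          fun _ _ _ _ => by ring
        simp only [fun k => del_mul (t1.mul hf).sm (hf.del hs.reg k) hz, del_mul t1.sm hf hz, e,
          Finset.sum_add_distrib, ← Finset.mul_sum, e1, (hp z hz).2, z1 z hz, mul_zero, zero_add,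
          neg_zero, add_zero]) hy
    simp only [t3, one_mul] at this
    exact mul_self_eq_zero.1 ((Finset.sum_eq_zero_iff_of_nonneg fun _ _ => mul_self_nonneg _).1
      this k (Finset.mem_univ _))
  obtain ⟨F, h1, -⟩ := hg x hx
  obtain ⟨G, hG⟩ := hf x hx
  exact ⟨z1 x hx, h1.const' hx hG (eventually_nhdsWithin_of_forall z2)⟩

end Vale.Agent.P134S.Jc

namespace Vale.Agent.P134S

theorem jac : JAC := fun _ _ _ S a hs hc hg x hx => by
  rw [mul_comm, nu, ← Jc.fn_norm]
  exact (Jc.jac_zero hc hs hg hx).1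

end Vale.Agent.P134S
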