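import Vale.Agent.P134S.Defs

/-!
# P134S: the limit of the areas
-/

open MeasureTheory Metric Filter Topology Set
open scoped ContDiff RealInnerProductSpace ENNReal
open Vale.Agent.P366.Stmt (E)
open Vale.Agent.P366W (dvg Surf Fr gsurf adj)
open Vale.Agent.P366L (Lm)

noncomputable section

namespace Vale.Agent.P134S

variable {N : ℕ}

theorem ind_bd (A : Set (E N)) (x : E N) : 0 ≤ ind A x ∧ ind A x ≤ 1 := by
  by_cases h : x ∈ A <;> simp [ind, h]

theorem ind_meas {A : Set (E N)} (h : MeasurableSet A) : Measurable (ind A) :=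
  measurable_const.indicator h

theorem ind_int {A : Set (E N)} (h : MeasurableSet A) (g : E N → ℝ) :
    ∫ x, ind A x * g x = ∫ x in A, g x := by
  rw [← integral_indicator h]
  congr 1
  funext x
  by_cases k : x ∈ A <;> simp [ind, k]

/-- convergence of the integrals against a continuous function with compact support -/
theorem Cv.int {ι : Type} {l : Filter ι} {w : ι → E N → ℝ} {A : Set (E N)} (h : Cv l w A)
    (hA : MeasurableSet A) (hw : ∀ᶠ i in l, Measurable (w i) ∧ ∀ x, 0 ≤ w i x ∧ w i x ≤ 1)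
    {g : E N → ℝ} (g1 : Continuous g) (g2 : HasCompactSupport g) :
    Tendsto (fun i => ∫ x, w i x * g x) l (𝓝 (∫ x in A, g x)) := by
  obtain ⟨R, hR⟩ := g2.isCompact.isBounded.subset_ball 0
  obtain ⟨M, hM⟩ := g1.bounded_above_of_compact_support g2
  have gi : Integrable g := g1.integrable_of_hasCompactSupport g2
  have im : ∀ v : E N → ℝ, Measurable v → (∀ x, 0 ≤ v x ∧ v x ≤ 1) →
      Integrable fun x => v x * g x := fun v v1 v2 =>
    gi.bdd_mul (c := 1) v1.aestronglyMeasurable (.of_forall fun x => by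
      rw [Real.norm_eq_abs, abs_of_nonneg (v2 x).1]; exact (v2 x).2)
  rw [← ind_int hA, tendsto_iff_dist_tendsto_zero]
  refine squeeze_zero' (.of_forall fun _ => dist_nonneg) ?_ (by simpa using (h R).const_mul M)
  filter_upwards [hw] with i hi
  have i1 := im _ hi.1 hi.2
  have i2 := im _ (ind_meas hA) (ind_bd A)
  have i3 : IntegrableOn (fun x => |w i x - ind A x|) (ball (0 : E N) R) :=
    Measure.integrableOn_of_bounded (M := 1) measure_ball_lt_top.ne
      (hi.1.sub (ind_meas hA)).abs.aestronglyMeasurable (.of_forall fun x => by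
        have := hi.2 x
        have := ind_bd A x
        rw [Real.norm_eq_abs, abs_abs, abs_le]
        constructor <;> linarith)
  rw [Real.dist_eq, ← integral_sub i1 i2, ← integral_const_mul,
    ← integral_indicator measurableSet_ball]
  refine abs_integral_le_integral_abs.trans (integral_mono (i1.sub i2).abs
    ((integrable_indicator_iff measurableSet_ball).2 (i3.const_mul M)) fun x => ?_)
  by_cases k : x ∈ ball (0 : E N) R
  · simp only [indicator_of_mem k]
    rw [← sub_mul, abs_mul, mul_comm]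
    exact mul_le_mul_of_nonneg_right (hM x) (abs_nonneg _)
  · simp [indicator_of_notMem k, image_eq_zero_of_notMem_tsupport fun h => k (hR h)]

section one

variable {S : Surf N} {R e : ℝ}

theorem n_one (h : S.Ok) (hB : S.B = fun _ => ContinuousLinearMap.id ℝ _) (x : E N) :
    S.ν x = S.n x ∧ ‖S.n x‖ = 1 := by
  have e : S.ν x = S.n x := by simp [Surf.ν, hB]
  have := h.nν x
  rw [e, real_inner_self_eq_norm_sq] at this
  exact ⟨e, by nlinarith [norm_nonneg (S.n x)]⟩

theorem bvS (h : S.Ok) (hB : S.B = fun _ => ContinuousLinearMap.id ℝ _) (ha : S.a = fun _ => 1)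
    {Z : E N → E N} (z1 : ContDiff ℝ 1 Z) (z2 : HasCompactSupport Z) :
    ∫ x in {x | S.Φ x < 0}, dvg Z x ≤ ∫ x, ‖Z x‖ ∂S.μ := by
  have := h.div Z z1 z2
  simp only [ha, one_smul] at this
  rw [← this]
  refine integral_mono (h.integrable (h.smn.continuous.inner z1.continuous)
    (z2.mono fun x hx h0 => hx (by simp [h0]))) (h.integrable z1.continuous.norm z2.norm) fun x => ?_
  simpa [(n_one h hB x).2] using real_inner_le_norm (S.n x) (Z x)

theorem flS (h : S.Ok) (hb : S.Bd 0 R e e) (hB : S.B = fun _ => ContinuousLinearMap.id ℝ _)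
    (ha : S.a = fun _ => 1) {φ : E N → ℝ} (hφ : Tf φ) (hR : tsupport φ ⊆ ball 0 R) :
    ∫ x, φ x ∂S.μ ≤ (∫ x in {x | S.Φ x < 0}, ‖fderiv ℝ φ x‖) + e * ∫ x, φ x ∧
    ∫ x, φ x ∂S.μ ≤ (∫ x in {x | S.Φ x < 0}ᶜ, ‖fderiv ℝ φ x‖) + e * ∫ x, φ x := by
  set g : E N → ℝ := fun x => S.a x * (fderiv ℝ φ x (S.ν x) + φ x * S.H x) with hg
  have c1 : ContDiff ℝ 1 fun y => φ y • (S.a y • S.ν y) :=
    hφ.c1.smul ((h.sma.smul h.smν).of_le (by simp))
  have eq : ∀ x, dvg (fun y => φ y • (S.a y • S.ν y)) x = g x := fun x => by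
    rw [P366W.dvg_smul (hφ.c1.differentiable one_ne_zero x) ((h.da x).fun_smul (h.dν x)), h.aH]
    simp only [hg, map_smul, smul_eq_mul]
    ring
  have i1 : Integrable g := by
    rw [← funext eq]
    exact (P366W.continuous_dvg c1).integrable_of_hasCompactSupport
      (P366W.hcs_dvg hφ.cs.smul_right)
  have z : ∫ x, g x = 0 := by
    rw [← funext eq]; exact P366W.integral_dvg_zero c1 hφ.cs.smul_right
  have m : MeasurableSet {x | S.Φ x < 0} :=
    (isOpen_lt h.smΦ.continuous continuous_const).measurableSet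
  have a1 := integral_add_compl m i1
  have j1 : Integrable fun y => ‖fderiv ℝ φ y‖ :=
    ((hφ.c1.continuous_fderiv one_ne_zero).integrable_of_hasCompactSupport (hφ.cs.fderiv ℝ)).norm
  have j2 : Integrable φ := hφ.c1.continuous.integrable_of_hasCompactSupport hφ.cs
  have pt : ∀ x, |g x| ≤ ‖fderiv ℝ φ x‖ + e * φ x := fun x => by
    have b4 : |fderiv ℝ φ x (S.ν x)| ≤ ‖fderiv ℝ φ x‖ := by
      simpa [(n_one h hB x).1, (n_one h hB x).2] using (fderiv ℝ φ x).le_opNorm (S.ν x)
    have b5 : |φ x * S.H x| ≤ e * φ x := by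
      by_cases hx : x ∈ tsupport φ
      · rw [abs_mul, abs_of_nonneg (hφ.nn x), mul_comm]
        exact mul_le_mul_of_nonneg_right (hb.H0 x (hR hx)) (hφ.nn x)
      · simp [image_eq_zero_of_notMem_tsupport hx]
    simp only [hg, ha, one_mul]
    exact (abs_add_le _ _).trans (add_le_add b4 b5)
  have key : ∀ T : Set (E N), |∫ x in T, g x| ≤ (∫ x in T, ‖fderiv ℝ φ x‖) + e * ∫ x, φ x :=
    fun T => by
      refine abs_integral_le_integral_abs.trans ((integral_mono i1.abs.restrict
        (j1.add (j2.const_mul e)).restrict pt).trans ?_)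
      simp only [Pi.add_apply]
      rw [integral_add j1.restrict (j2.const_mul e).restrict, integral_const_mul]
      exact add_le_add le_rfl (mul_le_mul_of_nonneg_left
        (setIntegral_le_integral j2 (.of_forall hφ.nn)) hb.Λ0)
  rw [h.flux hφ.c1 hφ.cs]
  exact ⟨(le_abs_self _).trans (key _), by linarith [(abs_le.1 (key {x | S.Φ x < 0}ᶜ)).1]⟩

end one

theorem lim : LIM := by
  intro n ι 𝒰 S R η Λ μ B h hS hB hc
  have m : ∀ᶠ i in (𝒰 : Filter ι), MeasurableSet {x | (S i).Φ x < 0} := h.ok.mono fun i hi =>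
    (isOpen_lt hi.1.smΦ.continuous continuous_const).measurableSet
  have cv : ∀ g : E (n + 1) → ℝ, Continuous g → HasCompactSupport g →
      Tendsto (fun i => ∫ x in {x | (S i).Φ x < 0}, g x) 𝒰 (𝓝 (∫ x in B, g x)) := fun g g1 g2 =>
    (hc.int hB (m.mono fun i hi => ⟨ind_meas hi, ind_bd _⟩) g1 g2).congr'
      (m.mono fun i hi => ind_int hi g)
  have cv' : ∀ g : E (n + 1) → ℝ, Continuous g → HasCompactSupport g →
      Tendsto (fun i => ∫ x in {x | (S i).Φ x < 0}ᶜ, g x) 𝒰 (𝓝 (∫ x in Bᶜ, g x)) := fun g g1 g2 => by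
    have gi : Integrable g := g1.integrable_of_hasCompactSupport g2
    rw [setIntegral_compl hB gi]
    exact ((cv g g1 g2).const_sub _).congr' (m.mono fun i hi => (setIntegral_compl hi gi).symm)
  have fl : ∀ φ : E (n + 1) → ℝ, Tf φ → ∫ x, φ x ∂μ ≤ ∫ x in B, ‖fderiv ℝ φ x‖ ∧
      ∫ x, φ x ∂μ ≤ ∫ x in Bᶜ, ‖fderiv ℝ φ x‖ := fun φ hφ => by
    obtain ⟨ρ, hρ⟩ := hφ.cs.isCompact.isBounded.subset_ball 0
    have d1 := (hφ.c1.continuous_fderiv one_ne_zero).norm
    have d2 := (hφ.cs.fderiv ℝ).norm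
    have v := h.vg φ hφ.c1.continuous hφ.cs
    have ev := fun e (he : (0 : ℝ) < e) => (h.ev ρ he).mono fun i hi =>
      flS hi.1 hi.2 (hS i).1 (hS i).2 hφ hρ
    have lm : ∀ c : ℝ, (∀ e > (0 : ℝ), ∫ x, φ x ∂μ ≤ c + e * ∫ x, φ x) → ∫ x, φ x ∂μ ≤ c :=
      fun c k => by
        have k1 : Tendsto (fun e : ℝ => c + e * ∫ x, φ x) (𝓝[>] 0) (𝓝 (c + 0 * ∫ x, φ x)) :=
          (Continuous.tendsto (by fun_prop) 0).mono_left nhdsWithin_le_nhds
        simpa using ge_of_tendsto k1 (mem_of_superset self_mem_nhdsWithin k)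
    exact ⟨lm _ fun e he => le_of_tendsto_of_tendsto v ((cv _ d1 d2).add_const _)
      ((ev e he).mono fun i hi => hi.1), lm _ fun e he => le_of_tendsto_of_tendsto v
      ((cv' _ d1 d2).add_const _) ((ev e he).mono fun i hi => hi.2)⟩
  exact ⟨h.fin, hB, fun Z z1 z2 => le_of_tendsto_of_tendsto
    (cv _ (P366W.continuous_dvg z1) (P366W.hcs_dvg z2)) (h.vg _ z1.continuous.norm z2.norm)
    (h.ok.mono fun i hi => bvS hi.1 (hS i).1 (hS i).2 z1 z2), fun φ hφ => (fl φ hφ).1,
    fun φ hφ => (fl φ hφ).2⟩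

end Vale.Agent.P134S
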