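import Vale.Agent.P134S.Defs

/-!
# P134S, row LOC: at a regular point the set is one side of the surface
-/

open MeasureTheory Metric Filter Topology Set
open scoped ContDiff RealInnerProductSpace ENNReal Pointwise
open Vale.Agent.P366.Stmt (E)
open Vale.Agent.P366S (Lev)

noncomputable section

namespace Vale.Agent.P134S

namespace LocAux

variable {N : ℕ}

/-- strictly increasing in the direction `w` on a ball -/
def Inc (F : E N → ℝ) (w x : E N) (ρ : ℝ) : Prop :=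
  ∀ y ∈ ball x ρ, ∀ t : ℝ, 0 < t → y + t • w ∈ ball x ρ → F y < F (y + t • w)

theorem Inc.neg {F : E N → ℝ} {w x : E N} {ρ : ℝ} (h : Inc F w x ρ) :
    Inc (fun y => -F y) (-w) x ρ := fun y hy t ht hz => by
  have e : y + t • -w + t • w = y := by rw [smul_neg]; abel
  have := h _ hz t ht (by rwa [e])
  rw [e] at this
  exact neg_lt_neg this

theorem seg_mem {w x y : E N} {ρ s t : ℝ} (hy : y ∈ ball x ρ) (hz : y + t • w ∈ ball x ρ)
    (ht : 0 < t) (hs : s ∈ Icc 0 t) : y + s • w ∈ ball x ρ := by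
  have := (convex_ball x ρ).add_smul_mem hy hz (t := s / t)
    ⟨div_nonneg hs.1 ht.le, (div_le_one ht).2 hs.2⟩
  rwa [smul_smul, div_mul_cancel₀ _ ht.ne'] at this

theorem inc_of {F : E N → ℝ} {w x : E N} {ρ : ℝ}
    (h : ∀ y ∈ ball x ρ, DifferentiableAt ℝ F y ∧ 0 < fderiv ℝ F y w) : Inc F w x ρ := by
  intro y hy t ht hz
  have hd : ∀ s ∈ Icc 0 t, HasDerivAt (fun s : ℝ => F (y + s • w)) (fderiv ℝ F (y + s • w) w) s :=
    fun s hs => by
      have h1 : HasDerivAt (fun s : ℝ => y + s • w) w s := by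
        simpa using ((hasDerivAt_id s).smul_const w).const_add y
      exact (h _ (seg_mem hy hz ht hs)).1.hasFDerivAt.comp_hasDerivAt s h1
  have := strictMonoOn_of_deriv_pos (convex_Icc 0 t)
    (fun s hs => (hd s hs).continuousAt.continuousWithinAt) (fun s hs => by
      rw [(hd s (interior_subset hs)).deriv]
      exact (h _ (seg_mem hy hz ht (interior_subset hs))).2)
    (left_mem_Icc.2 ht.le) (right_mem_Icc.2 ht.le) ht
  simpa using this

theorem null {F : E N → ℝ} {w x : E N} {ρ : ℝ} (hc : ContinuousOn F (ball x ρ))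
    (h : Inc F w x ρ) : volume {y | y ∈ ball x ρ ∧ F y = 0} = 0 := by
  have key : ∀ m n : ℕ, m < n → Disjoint ({(1 / ((m : ℝ) + 1)) • w} + {y | y ∈ ball x ρ ∧ F y = 0})
      ({(1 / ((n : ℝ) + 1)) • w} + {y | y ∈ ball x ρ ∧ F y = 0}) := fun m n hmn => by
    rw [Set.disjoint_left]
    rintro _ ⟨_, rfl, y, hy, rfl⟩ ⟨_, rfl, z, hz, e⟩
    have ht : 0 < 1 / ((m : ℝ) + 1) - 1 / ((n : ℝ) + 1) :=
      sub_pos.2 (Nat.one_div_lt_one_div hmn)
    have e' : y + (1 / ((m : ℝ) + 1) - 1 / ((n : ℝ) + 1)) • w = z := by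
      have e2 : (1 / ((n : ℝ) + 1)) • w + z = (1 / ((m : ℝ) + 1)) • w + y := e
      rw [sub_smul, eq_sub_of_add_eq' e2]
      abel
    have := h y hy.1 _ ht (by rw [e']; exact hz.1)
    rw [e', hy.2, hz.2] at this
    exact lt_irrefl _ this
  refine Measure.addHaar_eq_zero_of_disjoint_translates volume (fun n => (1 / ((n : ℝ) + 1)) • w)
    ((isBounded_closedBall (x := (0 : E N)) (r := ‖w‖)).subset ?_) ?_ ?_
  · rintro _ ⟨n, rfl⟩
    rw [mem_closedBall_zero_iff, norm_smul, Real.norm_of_nonneg (by positivity)]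
    refine mul_le_of_le_one_left (norm_nonneg _) ((div_le_one (by positivity)).2 ?_)
    linarith [Nat.cast_nonneg (α := ℝ) n]
  · intro m n hmn
    rcases lt_or_gt_of_ne hmn with h1 | h1
    · exact key m n h1
    · exact (key n m h1).symm
  · have ho : IsOpen (ball x ρ ∩ F ⁻¹' {0}ᶜ) :=
      hc.isOpen_inter_preimage isOpen_ball isOpen_compl_singleton
    have e : {y | y ∈ ball x ρ ∧ F y = 0} = ball x ρ \ (ball x ρ ∩ F ⁻¹' {0}ᶜ) := by
      ext y
      simp only [mem_ofPred_eq, Set.mem_sdiff, mem_inter_iff, mem_preimage, mem_compl_iff,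
        mem_singleton_iff]
      tauto
    rw [e]
    exact measurableSet_ball.diff ho.measurableSet

theorem side {F : E N → ℝ} {w x : E N} {ρ : ℝ} (hρ : 0 < ρ) (hc : ContinuousOn F (ball x ρ))
    (h : Inc F w x ρ) (h0 : F x = 0) : ∃ U : Set (E N), IsOpen U ∧ IsPreconnected U ∧
      (∀ y ∈ U, y ∈ ball x ρ ∧ 0 < F y) ∧ ∀ᶠ y in 𝓝 x, 0 < F y → y ∈ U := by
  have ho : IsOpen (ball x ρ ∩ F ⁻¹' Ioi 0) := hc.isOpen_inter_preimage isOpen_ball isOpen_Ioi
  obtain ⟨s, hs, hs0⟩ : ∃ s : ℝ, x + s • w ∈ ball x ρ ∧ 0 < s := by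
    have h1 : Tendsto (fun s : ℝ => x + s • w) (𝓝[>] 0) (𝓝 x) := by
      have : Continuous fun s : ℝ => x + s • w := by fun_prop
      simpa using (this.tendsto 0).mono_left (nhdsWithin_le_nhds (s := Ioi 0))
    exact ((h1.eventually (ball_mem_nhds x hρ)).and self_mem_nhdsWithin).exists
  have hp : x + s • w ∈ ball x ρ ∩ F ⁻¹' Ioi 0 := ⟨hs, h0 ▸ h x (mem_ball_self hρ) s hs0 hs⟩
  obtain ⟨δ, hδ, hb⟩ := Metric.isOpen_iff.1 ho _ hp
  refine ⟨connectedComponentIn (ball x ρ ∩ F ⁻¹' Ioi 0) (x + s • w), ho.connectedComponentIn,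
    isPreconnected_connectedComponentIn, fun y hy =>
      connectedComponentIn_subset (ball x ρ ∩ F ⁻¹' Ioi 0) (x + s • w) hy, ?_⟩
  filter_upwards [ball_mem_nhds x hρ, ball_mem_nhds x hδ] with y hy hy' hF
  have hz : y + s • w ∈ ball (x + s • w) δ := by simpa using hy'
  have hT : IsPreconnected ((fun t : ℝ => y + t • w) '' Icc 0 s ∪ ball (x + s • w) δ) :=
    IsPreconnected.union (y + s • w) ⟨s, right_mem_Icc.2 hs0.le, rfl⟩ hz
      (isPreconnected_Icc.image _ (by fun_prop)) (convex_ball _ _).isPreconnected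
  refine hT.subset_connectedComponentIn (Or.inr (mem_ball_self hδ)) ?_
    (Or.inl ⟨0, left_mem_Icc.2 hs0.le, by simp⟩)
  rintro _ (⟨t, ht, rfl⟩ | hq)
  · have hm := seg_mem hy (hb hz).1 hs0 ht
    refine ⟨hm, ?_⟩
    rcases ht.1.eq_or_lt with e | e
    · simpa [← e] using hF
    · exact hF.trans (h y hy t e hm)
  · exact hb hq

theorem not_null {μ : Measure (E N)} [IsFiniteMeasureOnCompacts μ] {B : Set (E N)} {x : E N}
    (hx : x ∈ μ.support)
    (hf : ∀ φ : E N → ℝ, Tf φ → ∫ x, φ x ∂μ ≤ ∫ x in B, ‖fderiv ℝ φ x‖) {U : Set (E N)}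
    (hU : U ∈ 𝓝 x) (h : ∀ᵐ y, y ∈ U → y ∉ B) : False := by
  obtain ⟨δ, hδ, hb⟩ := nhds_basis_closedBall.mem_iff.1 hU
  let φ : ContDiffBump x := ⟨δ / 2, δ, half_pos hδ, half_lt_self hδ⟩
  have h1 := hf φ ⟨φ.contDiff, φ.hasCompactSupport, fun _ => φ.nonneg⟩
  have h2 : ∫ y in B, ‖fderiv ℝ φ y‖ = 0 := by
    refine setIntegral_eq_zero_of_ae_eq_zero ?_
    filter_upwards [h] with y hy hyB
    rw [fderiv_of_notMem_tsupport ℝ (fun hm => hy (hb ?_) hyB), norm_zero]
    rwa [φ.tsupport_eq] at hm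
  have h3 : 0 < ∫ y, φ y ∂μ := by
    rw [integral_pos_iff_support_of_nonneg (fun _ => φ.nonneg)
      (φ.continuous.integrable_of_hasCompactSupport φ.hasCompactSupport), φ.support_eq]
    exact (Measure.mem_support_iff_forall x).1 hx _ (ball_mem_nhds x hδ)
  linarith

end LocAux

open LocAux

theorem loc_of (h : CONST) : LOC := by
  intro N μ A S F x hP hL hx hS
  have := hP.fin
  have h0 : F x = 0 := hL.mem.self_of_nhds.1 (hS.self_of_nhds hx)
  obtain ⟨w, hw⟩ : ∃ w, 0 < fderiv ℝ F x w := by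
    by_contra hc
    push Not at hc
    refine hL.ne (ContinuousLinearMap.ext fun v => le_antisymm (hc v) ?_)
    have := hc (-v)
    rw [map_neg] at this
    exact neg_nonpos.1 this
  have h1 : ContinuousAt (fderiv ℝ F) x :=
    (hL.sm.self_of_nhds.fderiv_right (m := 0) (by simp)).continuousAt
  have h2 : ∀ᶠ y in 𝓝 x, 0 < fderiv ℝ F y w :=
    continuousAt_const.eventually_lt (h1.clm_apply continuousAt_const) hw
  obtain ⟨ρ, hρ, hb⟩ := Metric.eventually_nhds_iff_ball.1 (hL.sm.and (h2.and (hL.mem.and hS)))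
  have hc : ContinuousOn F (ball x ρ) := fun y hy => (hb y hy).1.continuousAt.continuousWithinAt
  have hI : Inc F w x ρ := inc_of fun y hy => ⟨(hb y hy).1.differentiableAt (by simp), (hb y hy).2.1⟩
  obtain ⟨U, oU, cU, sU, eU⟩ := side hρ hc hI h0
  obtain ⟨W, oW, cW, sW, eW⟩ := side hρ hc.neg hI.neg (by simp [h0])
  have z : ∀ T : Set (E N), (∀ y ∈ T, y ∈ ball x ρ ∧ F y ≠ 0) → μ T = 0 := fun T hT =>
    measure_mono_null (fun y hy hm => (hT y hy).2 ((hb y (hT y hy).1).2.2.1.1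
      ((hb y (hT y hy).1).2.2.2 hm))) Measure.measure_compl_support
  have hU := h N μ A U hP oU cU (z U fun y hy => ⟨(sU y hy).1, (sU y hy).2.ne'⟩)
  have hW := h N μ A W hP oW cW (z W fun y hy => ⟨(sW y hy).1, (neg_pos.1 (sW y hy).2).ne⟩)
  have hZ : ∀ᵐ y, y ∈ ball x ρ → F y ≠ 0 := by
    filter_upwards [measure_eq_zero_iff_ae_notMem.1 (null hc hI)] with y hy h1 h2
    exact hy ⟨h1, h2⟩
  have hO : {y | y ∈ ball x ρ ∧ (0 < F y → y ∈ U) ∧ (0 < -F y → y ∈ W)} ∈ 𝓝 x :=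
    (eventually_mem_set.2 (ball_mem_nhds x hρ)).and (eU.and eW)
  rcases hU with hU | hU <;> rcases hW with hW | hW
  · refine (not_null hx hP.f2 hO ?_).elim
    filter_upwards [hU, hW, hZ] with y a b c hy hn
    rcases lt_or_gt_of_ne (c hy.1) with e | e
    · exact hn (b (hy.2.2 (neg_pos.2 e)))
    · exact hn (a (hy.2.1 e))
  · refine Or.inl ⟨_, hO, ?_⟩
    filter_upwards [hU, hW, hZ] with y a b c hy
    refine ⟨fun hA => ?_, fun e => a (hy.2.1 e)⟩
    rcases lt_or_gt_of_ne (c hy.1) with e | e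
    · exact (b (hy.2.2 (neg_pos.2 e)) hA).elim
    · exact e
  · refine Or.inr ⟨_, hO, ?_⟩
    filter_upwards [hU, hW, hZ] with y a b c hy
    refine ⟨fun hA => ?_, fun e => b (hy.2.2 e)⟩
    rcases lt_or_gt_of_ne (c hy.1) with e | e
    · exact neg_pos.2 e
    · exact (a (hy.2.1 e) hA).elim
  · refine (not_null hx hP.f1 hO ?_).elim
    filter_upwards [hU, hW, hZ] with y a b c hy
    rcases lt_or_gt_of_ne (c hy.1) with e | e
    · exact b (hy.2.2 (neg_pos.2 e))
    · exact a (hy.2.1 e)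

end Vale.Agent.P134S
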