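import Vale.Agent.P134S.Defs

/-!
# P134S: the row MOL
-/

open MeasureTheory Metric Filter Topology Set ContinuousLinearMap
open scoped ContDiff RealInnerProductSpace ENNReal Convolution
open Vale.Agent.P366.Stmt (E)
open Vale.Agent.P366W (dvg dvg_smul dvg_eq trc)

noncomputable section

namespace Vale.Agent.P134S

namespace Mol

variable {N : ℕ} {A : Set (E N)}

/-- the bump functions -/
def bp (N k : ℕ) : ContDiffBump (0 : E N) :=
  ⟨1 / ((k : ℝ) + 1) / 2, 1 / ((k : ℝ) + 1), by positivity, half_lt_self (by positivity)⟩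

theorem ind_mem (A : Set (E N)) (x : E N) : 0 ≤ ind A x ∧ ind A x ≤ 1 := by
  by_cases h : x ∈ A <;> simp [ind, h]

theorem li (hA : MeasurableSet A) : LocallyIntegrable (ind A) :=
  (locallyIntegrable_const (1 : ℝ)).indicator hA

theorem grad (hA : MeasurableSet A) {η : E N → ℝ} (h1 : ContDiff ℝ 1 η) (hc : HasCompactSupport η)
    (h0 : ∀ x, 0 ≤ η x) {μ : Measure (E N)} (h : Pr μ A) (x : E N) :
    ‖fderiv ℝ (η ⋆[lsmul ℝ ℝ, volume] ind A) x‖ ≤ ∫ y, η (x - y) ∂μ := by
  have hs : HasCompactSupport fun y => η (x - y) := hc.comp_homeomorph (Homeomorph.subLeft x)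
  have c1 : ContDiff ℝ 1 fun y => η (x - y) := h1.comp (contDiff_const.sub contDiff_id)
  have key : ∀ v, fderiv ℝ (η ⋆[lsmul ℝ ℝ, volume] ind A) x v ≤ (∫ y, η (x - y) ∂μ) * ‖v‖ := by
    intro v
    have e : ∀ y, dvg (fun y => η (x - y) • -v) y = fderiv ℝ η (x - y) v := fun y => by
      have d : HasFDerivAt (fun y => η (x - y)) _ y :=
        (h1.differentiable one_ne_zero _).hasFDerivAt.comp y ((hasFDerivAt_id y).const_sub x)
      rw [dvg_smul d.differentiableAt (differentiableAt_const _), d.fderiv, dvg_eq]
      simp [trc]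
    have h2 := h.bv (fun y => η (x - y) • -v) (c1.smul contDiff_const) hs.smul_right
    simp only [e, norm_smul, norm_neg, Real.norm_of_nonneg (h0 _), integral_mul_const] at h2
    rw [← convolution_flip, (hc.hasFDerivAt_convolution_right _ (li hA) h1 x).fderiv,
      convolution_precompR_apply _ (li hA) (hc.fderiv ℝ) (h1.continuous_fderiv one_ne_zero),
      convolution_def]
    refine le_of_eq_of_le ?_ h2
    rw [← integral_indicator hA]
    refine integral_congr_ae (.of_forall fun y => ?_)
    by_cases hy : y ∈ A <;> simp [ind, hy]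
  refine opNorm_le_bound _ (integral_nonneg fun y => h0 _) fun v => abs_le.2 ⟨?_, key v⟩
  have := key (-v)
  rw [map_neg, norm_neg] at this
  linarith

end Mol

open Mol

/-- row MOL -/
theorem mol : MOL := by
  intro N A hA
  have i1 : ∀ k x, Integrable fun t : E N => (bp N k).normed volume (x - t) := fun k x =>
    (bp N k).integrable_normed.comp_sub_left x
  refine ⟨fun k => (bp N k).normed volume ⋆[lsmul ℝ ℝ, volume] ind A,
    fun k => (bp N k).normed volume, fun k => (bp N k).hasCompactSupport_normed
      |>.contDiff_convolution_left _ (bp N k).contDiff_normed (li hA), fun k x => ?_,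
    fun k => (bp N k).contDiff_normed, fun k x => (bp N k).nonneg_normed x, fun k x hx => ?_,
    fun k => (bp N k).integral_normed, ContDiffBump.ae_convolution_tendsto_right_of_locallyIntegrable
      (K := 2) tendsto_one_div_add_atTop_nhds_zero_nat (.of_forall fun k => by
        simp only [bp]; linarith) (li hA), fun μ h k x => grad hA (bp N k).contDiff_normed
      (bp N k).hasCompactSupport_normed (bp N k).nonneg_normed h x⟩
  · rw [convolution_lsmul_swap]
    refine ⟨integral_nonneg fun t => mul_nonneg ((bp N k).nonneg_normed _) (ind_mem A t).1, ?_⟩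
    refine (integral_mono_of_nonneg (.of_forall fun t =>
      mul_nonneg ((bp N k).nonneg_normed _) (ind_mem A t).1) (i1 k x) (.of_forall fun t =>
        mul_le_of_le_one_right ((bp N k).nonneg_normed _) (ind_mem A t).2)).trans_eq ?_
    rw [integral_sub_left_eq_self, (bp N k).integral_normed]
  · rw [← Function.notMem_support, (bp N k).support_normed_eq, mem_ball_zero_iff, not_lt]
    exact hx

end Vale.Agent.P134S
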