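import Vale.Agent.P134S.Defs

/-!
# P134S: the choice of the parameters of the capillary graphs (row SEQ)
-/

open MeasureTheory Metric Filter Topology Set
open scoped ContDiff
open Vale.Agent.P366.Stmt (E)

noncomputable section

namespace Vale.Agent.P134S

namespace Sqn

variable {n : ℕ}

theorem ind_cases (A : Set (E n)) (x : E n) : ind A x = 0 ∨ ind A x = 1 := by
  unfold ind
  by_cases h : x ∈ A <;> simp [h]

theorem ind_meas {A : Set (E n)} (h : MeasurableSet A) : Measurable (ind A) := measurable_const.indicator h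

theorem abs_le_one {s i : ℝ} (h0 : 0 ≤ s) (h1 : s ≤ 1) (hi : i = 0 ∨ i = 1) : |s - i| ≤ 1 := by
  rw [abs_le]
  rcases hi with rfl | rfl <;> constructor <;> linarith

theorem sgn_le {s θ i : ℝ} (h0 : 0 ≤ s) (h1 : s ≤ 1) (g0 : 0 ≤ θ) (g1 : θ ≤ 1) (hi : i = 0 ∨ i = 1) :
    |s - i| - 2 * |θ - i| ≤ (s - i) * (1 - 2 * θ) := by
  rcases hi with rfl | rfl
  · rw [sub_zero, sub_zero, abs_of_nonneg h0, abs_of_nonneg g0]
    nlinarith
  · rw [abs_of_nonpos (by linarith), abs_of_nonpos (by linarith)]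
    nlinarith

theorem int_mul {A : Set (E n)} (hA : MeasurableSet A) {g w : E n → ℝ} (hg : Integrable g) (hw : Continuous w)
    (hb : ∀ x, 0 ≤ w x ∧ w x ≤ 1) : Integrable fun x => g x * |w x - ind A x| :=
  hg.mul_bdd (c := 1) ((hw.measurable.sub (ind_meas hA)).abs.aestronglyMeasurable)
    (Eventually.of_forall fun x => by
      rw [Real.norm_eq_abs, abs_abs]
      exact abs_le_one (hb x).1 (hb x).2 (ind_cases A x))

theorem near {A : Set (E n)} (hA : MeasurableSet A) {θ η : ℕ → E n → ℝ} (h : Ml A θ η) {ψ : E n → ℝ}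
    (hψ : Integrable ψ) {ε : ℝ} (hε : 0 < ε) : ∃ k, ∫ x, ψ x * |θ k x - ind A x| ≤ ε := by
  have h1 := tendsto_integral_of_dominated_convergence (μ := volume) (F := fun k x => ψ x * |θ k x - ind A x|)
    (f := fun _ => (0 : ℝ)) (fun x => ‖ψ x‖)
    (fun k => (int_mul hA hψ (h.smθ k).continuous (h.bd k)).aestronglyMeasurable) hψ.norm
    (fun k => Eventually.of_forall fun x => by
      rw [norm_mul, Real.norm_eq_abs (|_|), abs_abs]
      exact mul_le_of_le_one_right (norm_nonneg _) (abs_le_one (h.bd k x).1 (h.bd k x).2 (ind_cases A x)))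
    (h.lim.mono fun x hx => by
      have := ((hx.sub_const (ind A x)).abs).const_mul (ψ x)
      simpa using this)
  rw [integral_zero] at h1
  exact (h1.eventually (eventually_le_nhds hε)).exists

theorem slab {K : Set (E n)} (hK : IsCompact K) {f : E n → ℝ} (hf : Continuous f) {R : ℝ} (hR : 0 < R) (m : ℕ) :
    ∃ j : ℕ, j ≤ m ∧ volume.real {x | x ∈ K ∧ |f x - 3 * R * j| ≤ R} ≤ volume.real K / (m + 1) := by
  set S : ℕ → Set (E n) := fun j => {x | x ∈ K ∧ |f x - 3 * R * j| ≤ R} with hS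
  have hm : ∀ j, MeasurableSet (S j) := fun j =>
    hK.measurableSet.inter (measurableSet_le (hf.measurable.sub measurable_const).abs measurable_const)
  have hd : (↑(Finset.range (m + 1)) : Set ℕ).PairwiseDisjoint S := by
    intro i _ j _ hij
    refine Set.disjoint_left.2 fun x hi hj => hij ?_
    have a := abs_le.1 hi.2
    have b := abs_le.1 hj.2
    have c1 : (i : ℝ) < j + 1 := by nlinarith [a.1, b.2]
    have c2 : (j : ℝ) < i + 1 := by nlinarith [a.2, b.1]
    have d1 : i < j + 1 := by exact_mod_cast c1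
    have d2 : j < i + 1 := by exact_mod_cast c2
    omega
  have hfin := hK.measure_lt_top (μ := volume)
  have h1 := measureReal_biUnion_finset (μ := volume) hd (fun j _ => hm j)
    fun j _ => ((measure_mono fun x hx => hx.1).trans_lt hfin).ne
  have h2 : volume.real (⋃ j ∈ Finset.range (m + 1), S j) ≤ volume.real K :=
    measureReal_mono (iUnion₂_subset fun j _ x hx => hx.1) hfin.ne
  obtain ⟨j, hj, h3⟩ := Finset.exists_le_of_sum_le (s := Finset.range (m + 1)) (f := fun j => volume.real (S j))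
    (g := fun _ => volume.real K / (m + 1)) Finset.nonempty_range_add_one (by
      rw [← h1, Finset.sum_const, Finset.card_range, nsmul_eq_mul]
      refine h2.trans (le_of_eq ?_)
      push_cast
      field_simp)
  exact ⟨j, Nat.lt_succ_iff.1 (Finset.mem_range.1 hj), h3⟩

theorem mc_sub (f : E n → ℝ) (c : ℝ) : mc (fun x => f x - c) = mc f := by
  have h : gradient (fun x => f x - c) = gradient f := by
    ext1 x
    unfold gradient
    rw [fderiv_sub_const]
  unfold mc nr
  rw [h]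

theorem int4 {a b c d : E n → ℝ} (ha : Integrable a) (hb : Integrable b) (hc : Integrable c) (hd : Integrable d) :
    ∫ x, (a x + b x + c x + d x) = (∫ x, a x) + (∫ x, b x) + (∫ x, c x) + ∫ x, d x := by
  have h1 : Integrable fun x => a x + b x := ha.add hb
  have h2 : Integrable fun x => a x + b x + c x := h1.add hc
  rw [integral_add h2 hd, integral_add h1 hc, integral_add ha hb]

theorem pick {a c : ℝ} (ha : 0 < a) (b : ℝ) (hb : 0 < b) (hc : 0 < c) : ∃ t, 0 < t ∧ t ≤ a ∧ t * c ≤ b :=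
  ⟨min a (b / c), lt_min ha (by positivity), min_le_left _ _, (le_div_iff₀ hc).1 (min_le_right _ _)⟩

theorem pickT {I a : ℝ} (hI : 0 ≤ I) (ha : 0 < a) : ∃ T, 0 < T ∧ 4 / T * I ≤ a := by
  refine ⟨4 * I / a + 1, by positivity, ?_⟩
  rw [div_mul_eq_mul_div, div_le_iff₀ (by positivity)]
  have : a * (4 * I / a + 1) = 4 * I + a := by field_simp
  linarith

/-- the integrated inequality -/
theorem main {A : Set (E n)} (hA : MeasurableSet A) {ζ χ w θ₁ θ₂ : E n → ℝ} {l T X : ℝ} (hζ : ContDiff ℝ 1 ζ)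
    (hc : HasCompactSupport ζ) (h0 : ∀ x, 0 ≤ ζ x) (cχ : Continuous χ) (bχ : ∀ x, 0 ≤ χ x ∧ χ x ≤ 1)
    (hχ : ∀ x, fderiv ℝ ζ x ≠ 0 → χ x = 1) (cw : Continuous w) (bw : ∀ x, 0 ≤ w x ∧ w x ≤ 1)
    (c1 : Continuous θ₁) (b1 : ∀ x, 0 ≤ θ₁ x ∧ θ₁ x ≤ 1) (c2 : Continuous θ₂) (b2 : ∀ x, 0 ≤ θ₂ x ∧ θ₂ x ≤ 1)
    (hl : 0 ≤ l) (hT : 0 < T)
    (h : ∫ x, ζ x * ζ x * ((w x - ind A x) * (l * (1 - 2 * θ₁ x) + T * (χ x * (1 - 2 * θ₂ x)))) ≤
      X + 2 * ∫ x, ‖fderiv ℝ (fun x => ζ x * ζ x) x‖ * |w x - ind A x|) :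
    l * ∫ x, ζ x * ζ x * |w x - ind A x| ≤ X + 2 * l * (∫ x, ζ x * ζ x * |θ₁ x - ind A x|) +
      2 * T * (∫ x, ζ x * ζ x * |θ₂ x - ind A x|) + 4 / T * ∫ x, ‖fderiv ℝ ζ x‖ ^ 2 := by
  have cζ := hζ.continuous
  have hc2 : HasCompactSupport fun x => ζ x * ζ x := hc.mul_right
  have iψ : Integrable fun x => ζ x * ζ x := (cζ.mul cζ).integrable_of_hasCompactSupport hc2
  have iD : Integrable fun x => ‖fderiv ℝ (fun x => ζ x * ζ x) x‖ :=
    (((hζ.mul hζ).continuous_fderiv one_ne_zero).integrable_of_hasCompactSupport (hc2.fderiv ℝ)).norm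
  have iζ : Integrable fun x => ‖fderiv ℝ ζ x‖ ^ 2 := by
    refine ((hζ.continuous_fderiv one_ne_zero).norm.pow 2).integrable_of_hasCompactSupport ?_
    have a : HasCompactSupport fun x => ‖fderiv ℝ ζ x‖ := (hc.fderiv ℝ).norm
    rw [sq]
    exact a.mul_right
  have i0 := int_mul hA iψ cw bw
  have i1 := int_mul hA iψ c1 b1
  have i2 := int_mul hA iψ c2 b2
  have i3 := int_mul hA iD cw bw
  have i4 : Integrable fun x => ζ x * ζ x *
      ((w x - ind A x) * (l * (1 - 2 * θ₁ x) + T * (χ x * (1 - 2 * θ₂ x)))) := by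
    have a1 : Integrable fun x => ζ x * ζ x * (l * (1 - 2 * θ₁ x) + T * (χ x * (1 - 2 * θ₂ x))) :=
      Continuous.integrable_of_hasCompactSupport (by fun_prop) hc2.mul_right
    have a2 := a1.mul_bdd (c := 1) (cw.measurable.sub (ind_meas hA)).aestronglyMeasurable
      (Eventually.of_forall fun x => abs_le_one (bw x).1 (bw x).2 (ind_cases A x))
    refine a2.congr (Eventually.of_forall fun x => ?_)
    simp only [Pi.sub_apply]
    ring
  have key : ∫ x, (l * (ζ x * ζ x * |w x - ind A x|) + 2 * (‖fderiv ℝ (fun x => ζ x * ζ x) x‖ * |w x - ind A x|)) ≤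
      ∫ x, (ζ x * ζ x * ((w x - ind A x) * (l * (1 - 2 * θ₁ x) + T * (χ x * (1 - 2 * θ₂ x)))) +
        2 * l * (ζ x * ζ x * |θ₁ x - ind A x|) + 2 * T * (ζ x * ζ x * |θ₂ x - ind A x|) +
        4 / T * ‖fderiv ℝ ζ x‖ ^ 2) := by
    refine integral_mono ((i0.const_mul _).add (i3.const_mul _))
      (((i4.add (i1.const_mul _)).add (i2.const_mul _)).add (iζ.const_mul _)) fun x => ?_
    simp only
    have d := (hζ.differentiable one_ne_zero x).hasFDerivAt
    have e1 : ‖fderiv ℝ (fun x => ζ x * ζ x) x‖ ≤ 2 * (ζ x * ‖fderiv ℝ ζ x‖) := by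
      rw [(d.fun_mul d).fderiv]
      refine (norm_add_le _ _).trans (le_of_eq ?_)
      rw [norm_smul, Real.norm_of_nonneg (h0 x)]
      ring
    have s1 := sgn_le (bw x).1 (bw x).2 (b1 x).1 (b1 x).2 (ind_cases A x)
    have s2 := sgn_le (bw x).1 (bw x).2 (b2 x).1 (b2 x).2 (ind_cases A x)
    have D1 := abs_le_one (bw x).1 (bw x).2 (ind_cases A x)
    have D0 := abs_nonneg (w x - ind A x)
    have F0 := abs_nonneg (θ₂ x - ind A x)
    have z0 := h0 x
    have g0 := norm_nonneg (fderiv ℝ ζ x)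
    have e2 : 4 * (ζ x * ‖fderiv ℝ ζ x‖) * |w x - ind A x| ≤
        T * (ζ x * ζ x * (χ x * |w x - ind A x|)) + 4 / T * ‖fderiv ℝ ζ x‖ ^ 2 := by
      by_cases hx : fderiv ℝ ζ x = 0
      · have := (bχ x).1
        rw [hx, norm_zero]
        simp only [mul_zero, zero_mul]
        positivity
      · rw [hχ x hx, one_mul]
        generalize ‖fderiv ℝ ζ x‖ = g at g0 ⊢
        generalize |w x - ind A x| = D at D0 D1 ⊢
        generalize ζ x = z at z0 ⊢
        have a1 : 4 * (z * g) ≤ T * (z * z) + 4 / T * g ^ 2 := by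
          have : T * (z * z) + 4 / T * g ^ 2 - 4 * (z * g) = (T * z - 2 * g) ^ 2 / T := by field_simp; ring
          have a2 : 0 ≤ (T * z - 2 * g) ^ 2 / T := by positivity
          linarith
        have a3 : 4 / T * g ^ 2 * D ≤ 4 / T * g ^ 2 := mul_le_of_le_one_right (by positivity) D1
        nlinarith [mul_le_mul_of_nonneg_right a1 D0]
    have e3 : ‖fderiv ℝ (fun x => ζ x * ζ x) x‖ * |w x - ind A x| ≤ 2 * (ζ x * ‖fderiv ℝ ζ x‖) * |w x - ind A x| :=
      mul_le_mul_of_nonneg_right e1 D0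
    have zz : 0 ≤ ζ x * ζ x := mul_nonneg z0 z0
    have e4 := mul_le_mul_of_nonneg_left s1 (mul_nonneg hl zz)
    have e5 := mul_le_mul_of_nonneg_left s2 (mul_nonneg (mul_nonneg hT.le zz) (bχ x).1)
    have e6 : T * (ζ x * ζ x) * χ x * |θ₂ x - ind A x| ≤ T * (ζ x * ζ x) * 1 * |θ₂ x - ind A x| :=
      mul_le_mul_of_nonneg_right (mul_le_mul_of_nonneg_left (bχ x).2 (mul_nonneg hT.le zz)) F0
    nlinarith
  rw [integral_add (i0.const_mul _) (i3.const_mul _), int4 i4 (i1.const_mul _) (i2.const_mul _) (iζ.const_mul _),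
    integral_const_mul, integral_const_mul, integral_const_mul, integral_const_mul, integral_const_mul] at key
  linarith

end Sqn

open Sqn in
/-- **SEQ** -/
theorem seq_of (h1 : MOL) (h2 : CAP0) (h3 : BAR) (h4 : EST) : SEQ := by
  intro n A R η hn hA hR hη hη1
  obtain ⟨M, hM, est⟩ := h4
  obtain ⟨θ, κ, hθ⟩ := h1 n A hA.ms
  have hn0 : (0 : ℝ) < n := by exact_mod_cast (by omega : 0 < n)
  set ρ := 8 * n / η with hρ
  have ρ0 : 0 < ρ := by positivity
  set R1 := R + ρ with hR1
  have R10 : 0 < R1 := by linarith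
  let ζ : ContDiffBump (0 : E n) := ⟨R1 + 1, R1 + 2, by linarith, by linarith⟩
  let σ : ContDiffBump (0 : E n) := ⟨R1, R1 + 1, R10, by linarith⟩
  have cζ : ContDiff ℝ 1 ζ := ζ.contDiff
  have hc2 : HasCompactSupport fun x => ζ x * ζ x := ζ.hasCompactSupport.mul_right
  have iψ : Integrable fun x => ζ x * ζ x := (ζ.continuous.mul ζ.continuous).integrable_of_hasCompactSupport hc2
  have zz : ∀ x, 0 ≤ ζ x * ζ x := fun x => mul_nonneg ζ.nonneg ζ.nonneg
  have hsup : tsupport (fun x => ζ x * ζ x) ⊆ closedBall 0 (R1 + 2) :=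
    (tsupport_mul_subset_left (f := ζ) (g := ζ)).trans ζ.tsupport_eq.le
  obtain ⟨k₁, hk₁⟩ := near hA.ms hθ iψ (ε := η / 10) (by positivity)
  obtain ⟨G, hG⟩ := (isCompact_closedBall (0 : E n) R).exists_bound_of_continuousOn
    ((hθ.smθ k₁).continuous_fderiv (by simp)).continuousOn
  have G0 : 0 ≤ G := (norm_nonneg _).trans (hG 0 (mem_closedBall_self (by linarith)))
  obtain ⟨l, l0, l1, l2⟩ := pick (a := η / 4) (c := 4 * (G + 1)) (by positivity) (η ^ 2) (by positivity) (by positivity)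
  obtain ⟨T, T0, T1⟩ := pickT (I := ∫ x, ‖fderiv ℝ ζ x‖ ^ 2) (a := l * η / 5)
    (integral_nonneg fun x => by positivity) (by positivity)
  obtain ⟨k₂, hk₂⟩ := near hA.ms hθ iψ (ε := l * η / (10 * T)) (by positivity)
  obtain ⟨δ, δ0, δ1, δ2⟩ := pick (c := M + 1) hη (l * η / 5) (by positivity) (by positivity)
  obtain ⟨m, hm⟩ := exists_nat_ge (volume.real (closedBall (0 : E n) (R1 + 2)) / δ)
  have I10 : 0 ≤ ∫ x, ζ x * ζ x := integral_nonneg zz
  obtain ⟨τ, τ0, τ1, τ2⟩ := pick (a := η ^ 2 / 2) (c := (1 + 3 * R * m) * ((∫ x, ζ x * ζ x) + 1)) (by positivity)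
    (l * η / 5) (by positivity) (by positivity)
  set b : E n → ℝ := fun x => l * (1 - 2 * θ k₁ x) + T * ((1 - σ x) * (1 - 2 * θ k₂ x)) with hb
  have cb : ContDiff ℝ ∞ b := by
    have a1 := hθ.smθ k₁
    have a2 := hθ.smθ k₂
    have a3 : ContDiff ℝ ∞ σ := σ.contDiff
    exact (contDiff_const.mul (contDiff_const.sub (contDiff_const.mul a1))).add
      (contDiff_const.mul ((contDiff_const.sub a3).mul (contDiff_const.sub (contDiff_const.mul a2))))
  have hb1 : ∀ x ∈ ball (0 : E n) R1, b x = l * (1 - 2 * θ k₁ x) := fun x hx => by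
    have : σ x = 1 := σ.one_of_mem_closedBall (ball_subset_closedBall hx)
    simp only [hb, this, sub_self, zero_mul, mul_zero, add_zero]
  have hb2 : ∀ x ∈ ball (0 : E n) R1, |b x| ≤ l := fun x hx => by
    rw [hb1 x hx, abs_mul, abs_of_pos l0]
    refine mul_le_of_le_one_right l0.le (abs_le.2 ⟨?_, ?_⟩) <;> linarith [(hθ.bd k₁ x).1, (hθ.bd k₁ x).2]
  obtain ⟨f, cf, hf⟩ := h2 n b (R1 + 3) τ hn cb τ0
  obtain ⟨j, hj, hs⟩ := slab (isCompact_closedBall (0 : E n) (R1 + 2)) cf.continuous (by linarith : 0 < R) m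
  have hsδ : volume.real {x | x ∈ closedBall (0 : E n) (R1 + 2) ∧ |f x - 3 * R * j| ≤ R} ≤ δ := by
    refine hs.trans ?_
    rw [div_le_iff₀ δ0] at hm
    rw [div_le_iff₀ (by positivity), mul_add, mul_comm δ]
    linarith
  have hfin : volume {x | x ∈ closedBall (0 : E n) (R1 + 2) ∧ |f x - 3 * R * j| ≤ R} ≠ ⊤ :=
    ((measure_mono fun x hx => hx.1).trans_lt measure_closedBall_lt_top).ne
  have cu : ContDiff ℝ ∞ fun x => f x - 3 * R * j := cf.sub contDiff_const
  have heq : ∀ x ∈ ball (0 : E n) (R1 + 3), mc (fun x => f x - 3 * R * j) x =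
      τ * (f x - 3 * R * j) + 3 * R * j * τ + b x := fun x hx => by
    rw [mc_sub, hf x hx]
    ring
  have sR : ball (0 : E n) R ⊆ ball 0 R1 := ball_subset_ball (by linarith)
  have cw : Continuous fun x => Real.smoothTransition (f x - 3 * R * j) :=
    Real.smoothTransition.continuous.comp cu.continuous
  have bw : ∀ x, 0 ≤ Real.smoothTransition (f x - 3 * R * j) ∧ Real.smoothTransition (f x - 3 * R * j) ≤ 1 :=
    fun x => ⟨Real.smoothTransition.nonneg _, Real.smoothTransition.le_one _⟩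
  refine ⟨fun x => f x - 3 * R * j, b, τ, 3 * R * j * τ, cu, cb, τ0.le,
    fun x hx => heq x (ball_subset_ball (by linarith) hx), fun x hx => ?_, fun x hx => ?_, ?_, ?_⟩
  · have sx : ball x ρ ⊆ ball 0 R1 := ball_subset_ball' (by
      have := mem_ball.1 hx
      linarith)
    have a1 := h3 n f b x ρ τ l cf ρ0 τ0.le fun y hy =>
      ⟨hf y (ball_subset_ball (by linarith) (sx hy)), hb2 y (sx hy)⟩
    have a2 : 2 * n / ρ = η / 4 := by rw [hρ]; field_simp; ring
    rw [mc_sub, hf x (ball_subset_ball (by linarith) hx)]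
    have a3 := abs_add_le (τ * f x) (b x)
    linarith [hb2 x (sR hx)]
  · have a1 : b =ᶠ[𝓝 x] fun y => l * (1 - 2 * θ k₁ y) :=
      eventually_of_mem (isOpen_ball.mem_nhds (sR hx)) hb1
    have d := (((hθ.smθ k₁).differentiable (by simp) x).hasFDerivAt.const_mul 2).const_sub 1 |>.const_mul l
    rw [a1.fderiv_eq, d.fderiv, norm_smul, norm_neg, norm_smul, Real.norm_of_nonneg l0.le, Real.norm_two]
    have a2 := mul_le_mul_of_nonneg_left (hG x (ball_subset_closedBall hx)) l0.le
    linarith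
  · refine (measureReal_mono (fun x hx => ?_) hfin).trans (hsδ.trans δ1)
    exact ⟨ball_subset_closedBall (ball_subset_ball (by linarith) hx.1), hx.2⟩
  · have e1 := est n A (fun x => f x - 3 * R * j) b (fun x => ζ x * ζ x) τ (3 * R * j * τ) hA cu cb.continuous
      ⟨cζ.mul cζ, hc2, zz⟩ τ0.le fun x hx => heq x (closedBall_subset_ball (by linarith) (hsup hx))
    have e2 := main hA.ms (χ := fun x => 1 - σ x) cζ ζ.hasCompactSupport (fun x => ζ.nonneg)
      (continuous_const.sub σ.continuous) (fun x => ⟨by linarith [σ.le_one (x := x)], by linarith [σ.nonneg (x := x)]⟩)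
      (fun x hx => by
        have a1 : R1 + 1 ≤ dist x 0 := by
          by_contra hlt
          refine hx ?_
          rw [(ζ.eventuallyEq_one_of_mem_ball (mem_ball.2 (not_le.1 hlt))).fderiv_eq, fderiv_one]
          rfl
        rw [σ.zero_of_le_dist a1, sub_zero]) cw bw (hθ.smθ k₁).continuous (hθ.bd k₁) (hθ.smθ k₂).continuous
      (hθ.bd k₂) l0.le T0 e1
    have mS : MeasurableSet {x : E n | |f x - 3 * R * j| ≤ 1} :=
      measurableSet_le cu.continuous.measurable.abs measurable_const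
    have mK : MeasurableSet {x | x ∈ closedBall (0 : E n) (R1 + 2) ∧ |f x - 3 * R * j| ≤ R} :=
      measurableSet_closedBall.inter (measurableSet_le cu.continuous.measurable.abs measurable_const)
    have e3 : ∫ x in {x : E n | |f x - 3 * R * j| ≤ 1}, ζ x * ζ x ≤ δ := by
      refine le_trans ?_ hsδ
      rw [← integral_indicator mS, ← integral_indicator_one mK]
      refine integral_mono (iψ.indicator mS) ((integrable_indicator_iff mK).2 (integrableOn_const hfin)) fun x => ?_
      by_cases hx : x ∈ {x : E n | |f x - 3 * R * j| ≤ 1}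
      · rw [indicator_of_mem hx]
        by_cases hz : ζ x * ζ x = 0
        · rw [hz]
          exact indicator_nonneg (fun _ _ => zero_le_one) x
        · rw [indicator_of_mem (show x ∈ {x | x ∈ closedBall (0 : E n) (R1 + 2) ∧ |f x - 3 * R * j| ≤ R} from
            ⟨hsup (subset_tsupport _ hz), le_trans hx hR⟩)]
          exact mul_le_one₀ ζ.le_one ζ.nonneg ζ.le_one
      · rw [indicator_of_notMem hx]
        exact indicator_nonneg (fun _ _ => zero_le_one) x
    have e4 : (τ + |3 * R * j * τ|) * ∫ x, ζ x * ζ x ≤ l * η / 5 := by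
      have a1 : (j : ℝ) ≤ m := by exact_mod_cast hj
      generalize ∫ x, ζ x * ζ x = I1 at I10 τ2 ⊢
      rw [abs_of_nonneg (by positivity)]
      calc (τ + 3 * R * j * τ) * I1 = τ * ((1 + 3 * R * j) * I1) := by ring
        _ ≤ τ * ((1 + 3 * R * m) * (I1 + 1)) := by gcongr; linarith
        _ ≤ _ := τ2
    have e5 : M * ∫ x in {x : E n | |f x - 3 * R * j| ≤ 1}, ζ x * ζ x ≤ l * η / 5 := by
      refine (mul_le_mul_of_nonneg_left e3 hM).trans (le_trans ?_ δ2)
      rw [mul_add, mul_comm δ]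
      linarith
    have e6 : 2 * T * ∫ x, ζ x * ζ x * |θ k₂ x - ind A x| ≤ l * η / 5 := by
      refine (mul_le_mul_of_nonneg_left hk₂ (by positivity)).trans (le_of_eq ?_)
      field_simp
      ring
    have e7 : 2 * l * ∫ x, ζ x * ζ x * |θ k₁ x - ind A x| ≤ l * η / 5 := by
      refine (mul_le_mul_of_nonneg_left hk₁ (by positivity)).trans (le_of_eq ?_)
      ring
    have e8 : ∫ x, ζ x * ζ x * |Real.smoothTransition (f x - 3 * R * j) - ind A x| ≤ η :=
      le_of_mul_le_mul_left (by linarith) l0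
    refine le_trans (le_of_eq (setIntegral_congr_fun measurableSet_ball fun x hx => ?_))
      ((setIntegral_le_integral (int_mul hA.ms iψ cw bw)
        (Eventually.of_forall fun x => mul_nonneg (zz x) (abs_nonneg _))).trans e8)
    have : ζ x = 1 := ζ.one_of_mem_closedBall (ball_subset_closedBall (ball_subset_ball (by
      show R ≤ R1 + 1
      linarith) hx))
    simp only [this, one_mul]

end Vale.Agent.P134S
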