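import Vale.Agent.P134S.Defs

/-!
# P134S: a monotone set which is locally a half space along a hyperplane (row SPR)
-/

open MeasureTheory Metric Filter Topology Set
open Vale.Agent.P366.Stmt (E)

noncomputable section

namespace Vale.Agent.P134S

theorem spr_loc {N : ℕ} {A : Set (E N)} {a z : E N} {L : E N →L[ℝ] ℝ} {t : ℝ} (ha : 0 < L a)
    (up : Up A a) (hz : L z = 0) (hs : Side A L z) (ht : t ≠ 0) :
    ∃ W ∈ 𝓝 (z + t • a), ∀ᵐ y, y ∈ W → (y ∈ A ↔ 0 < L y) := by
  obtain ⟨U, hU, h⟩ := hs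
  have c : Tendsto (fun s : ℝ => z + s • a) (𝓝 0) (𝓝 z) :=
    (by fun_prop : Continuous fun s : ℝ => z + s • a).tendsto' _ _ (by simp)
  have ev : ∀ᶠ s : ℝ in 𝓝 0, U ∈ 𝓝 (z + s • a) := c (eventually_mem_nhds_iff.2 hU)
  have nb : ∀ s : ℝ, U ∈ 𝓝 (z + s • a) → ∀ O, IsOpen O → s * L a ∈ O →
      {y | y + (s - t) • a ∈ U ∧ L (y + (s - t) • a) ∈ O} ∈ 𝓝 (z + t • a) := fun s e O o m => by
    have k : Tendsto (fun y : E N => y + (s - t) • a) (𝓝 (z + t • a)) (𝓝 (z + s • a)) :=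
      (by fun_prop : Continuous fun y : E N => y + (s - t) • a).tendsto' _ _
        (by rw [sub_smul]; abel)
    exact k (inter_mem e (L.continuous.continuousAt (o.mem_nhds (by simpa [hz] using m))))
  have tr : ∀ (v : E N) {p : E N → Prop}, (∀ᵐ y, p y) → ∀ᵐ y, p (y + v) := fun v p h =>
    (measurePreserving_add_right volume v).quasiMeasurePreserving.ae h
  rcases ht.lt_or_gt with ht | ht
  · obtain ⟨s, s1, s2, s3⟩ : ∃ s, U ∈ 𝓝 (z + s • a) ∧ t < s ∧ s < 0 :=
      ((ev.filter_mono nhdsWithin_le_nhds).and (Ioo_mem_nhdsLT ht)).exists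
    refine ⟨_, nb s s1 (Iio 0) isOpen_Iio (mul_neg_of_neg_of_pos s3 ha), ?_⟩
    filter_upwards [tr ((s - t) • a) h, up (s - t) (by linarith)] with y h1 h2 ⟨h3, h4⟩
    have h5 : L (y + (s - t) • a) < 0 := h4
    refine iff_of_false (fun m => h5.not_gt ((h1 h3).1 (h2 m))) fun m => ?_
    rw [map_add, map_smul, smul_eq_mul] at h5
    nlinarith
  · obtain ⟨s, s1, s2, s3⟩ : ∃ s, U ∈ 𝓝 (z + s • a) ∧ 0 < s ∧ s < t :=
      ((ev.filter_mono nhdsWithin_le_nhds).and (Ioo_mem_nhdsGT ht)).exists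
    refine ⟨_, nb s s1 (Ioi 0) isOpen_Ioi (mul_pos s2 ha), ?_⟩
    filter_upwards [tr ((s - t) • a) h, tr ((s - t) • a) (up (t - s) (by linarith))]
      with y h1 h2 ⟨h3, h4⟩
    have h5 : 0 < L (y + (s - t) • a) := h4
    refine iff_of_true (by simpa [add_assoc, ← add_smul] using h2 ((h1 h3).2 h5)) ?_
    rw [map_add, map_smul, smul_eq_mul] at h5
    nlinarith

/-- **SPR** -/
theorem spr : SPR := fun N A V a L hV ha up hs => by
  have n1 : volume (V ⊔ Submodule.span ℝ {a} : Submodule ℝ (E N)).carrier = 0 :=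
    Measure.addHaar_submodule _ _ fun e => by
      have h1 := Submodule.finrank_add_le_finrank_add_finrank V (Submodule.span ℝ {a})
      have h2 := finrank_span_le_card (R := ℝ) ({a} : Set (E N))
      rw [e, finrank_top, finrank_euclideanSpace_fin] at h1
      rw [Set.toFinset_singleton, Finset.card_singleton] at h2
      omega
  have n2 : volume (LinearMap.ker (L : E N →ₗ[ℝ] ℝ)).carrier = 0 :=
    Measure.addHaar_submodule _ _ fun e => ha.ne' (by
      simpa using (e ▸ Submodule.mem_top : a ∈ LinearMap.ker (L : E N →ₗ[ℝ] ℝ)))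
  have n3 : volume {x | x ∉ V ⊔ Submodule.span ℝ {a} ∧ L x ≠ 0 ∧ ¬ (x ∈ A ↔ 0 < L x)} = 0 :=
    measure_null_of_locally_null _ fun x ⟨x1, x2, _⟩ => by
      obtain ⟨W, w1, w2⟩ := spr_loc (z := x - (L x / L a) • a) ha up (by simp [ha.ne'])
        (hs _ (by simp [ha.ne']) fun m => x1 (by
          simpa using Submodule.add_mem_sup m (Submodule.smul_mem _ (L x / L a)
            (Submodule.mem_span_singleton_self a)))) (div_ne_zero x2 ha.ne')
      rw [sub_add_cancel] at w1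
      exact ⟨_, inter_mem_nhdsWithin _ w1, measure_eq_zero_iff_ae_notMem.2
        (w2.mono fun y k ⟨⟨_, _, h⟩, m⟩ => h (k m))⟩
  filter_upwards [measure_eq_zero_iff_ae_notMem.1 n1, measure_eq_zero_iff_ae_notMem.1 n2,
    measure_eq_zero_iff_ae_notMem.1 n3] with x h1 h2 h3
  exact by_contra fun h => h3 ⟨h1, h2, h⟩

end Vale.Agent.P134S
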