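import Vale.Agent.P134S.Defs

/-!
# P134S: the subgraphs converge to the cylinder
-/

open MeasureTheory Metric Filter Topology Set
open scoped ContDiff RealInnerProductSpace ENNReal
open Vale.Agent.P366.Stmt (E)
open Vale.Agent.P366W (dvg Surf Fr gsurf adj)

noncomputable section

namespace Vale.Agent.P134S

namespace SUBp

variable {N n : ℕ}

theorem intb {g : E N → ℝ} (hg : Measurable g) {c : ℝ} (h : ∀ x, |g x| ≤ c) {S : Set (E N)}
    (hS : Bornology.IsBounded S) : IntegrableOn g S :=
  Measure.integrableOn_of_bounded hS.measure_lt_top.ne hg.aestronglyMeasurable (.of_forall h)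

theorem fub {e : E (n + 1)} {L : E n →ₗᵢ[ℝ] E (n + 1)} (h : Fr e L) {g : E n → ℝ}
    (hg : Measurable g) (g0 : ∀ y, 0 ≤ g y) {c : ℝ} (g1 : ∀ y, |g y| ≤ c) {R : ℝ} (hR : 0 ≤ R) :
    ∫ x in ball 0 R, g (adj L x) ≤ (∫ y in ball 0 R, g y) * (2 * R) := by
  have h1 := (h.mp 0 (measurable_const (a := (0 : ℝ)))).setIntegral_preimage_emb
    (h.sh 0 continuous_const).measurableEmbedding (fun x => g (adj L x))
    {x | adj L x ∈ ball 0 R ∧ ⟪e, x⟫ ∈ Ioo (-R) R}
  have h2 := setIntegral_prod_mul (μ := volume) (ν := volume) g (fun _ : ℝ => (1 : ℝ))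
    (ball 0 R) (Ioo (-R) R)
  simp only [zero_add, preimage_ofPred_eq, h.adj_pt, h.e_pt] at h1
  simp only [mul_one, integral_const, MeasurableSet.univ, measureReal_restrict_apply, univ_inter,
    Real.volume_real_Ioo_of_le (show -R ≤ R by linarith), smul_eq_mul] at h2
  rw [show 2 * R = R - -R by ring, ← h2]
  refine le_of_le_of_eq (setIntegral_mono_set (intb (hg.comp (adj L).measurable) (fun x => g1 _)
    ((isBounded_ball (x := 0) (r := 2 * R)).subset fun x hx => ?_)) (.of_forall fun x => g0 _)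
    (LE.le.eventuallyLE fun x hx => ?_)) h1.symm
  · rw [mem_ball_zero_iff, ← h.dec x]
    refine (norm_add_le _ _).trans_lt ?_
    rw [norm_smul, h.one, L.norm_map, Real.norm_eq_abs]
    linarith [mem_ball_zero_iff.1 hx.1, abs_lt.2 hx.2]
  · have := mem_ball_zero_iff.1 hx
    exact ⟨mem_ball_zero_iff.2 ((h.norm_adj x).trans_lt this), abs_lt.1
      ((abs_real_inner_le_norm e x).trans_lt (by rwa [h.one, one_mul]))⟩

theorem ind_mem (A : Set (E N)) (x : E N) : 0 ≤ ind A x ∧ ind A x ≤ 1 := by
  by_cases h : x ∈ A <;> simp [ind, h]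

theorem ind_of {A : Set (E N)} {x : E N} (h : x ∈ A) : ind A x = 1 := indicator_of_mem h _

theorem ind_not {A : Set (E N)} {x : E N} (h : x ∉ A) : ind A x = 0 := indicator_of_notMem h _

theorem one {e : E (n + 1)} {L : E n →ₗᵢ[ℝ] E (n + 1)} (h : Fr e L) {A : Set (E n)}
    (hA : MeasurableSet A) {u b : E n → ℝ} {τ c R R' η : ℝ} (hu : Ap A R' η u b τ c) (h0 : 0 ≤ R)
    (h1 : R ≤ R') (h2 : 1 ≤ R') :
    ∫ x in ball 0 R, |ind {x | (gr e L u).Φ x < 0} x - ind (cyl L A) x| ≤ 2 * η * (2 * R) := by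
  have mu := hu.smu.continuous.measurable
  have m1 : Measurable fun y => |Real.smoothTransition (u y) - ind A y| :=
    continuous_abs.measurable.comp ((Real.smoothTransition.continuous.measurable.comp mu).sub
      (measurable_const.indicator hA))
  have s2 : MeasurableSet {y | |u y| ≤ R'} :=
    (isClosed_le hu.smu.continuous.abs continuous_const).measurableSet
  have m2 : Measurable (ind {y | |u y| ≤ R'}) := measurable_const.indicator s2
  have b1 : ∀ y, |(|Real.smoothTransition (u y) - ind A y|)| ≤ 1 := fun y => by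
    rw [abs_abs, abs_le]
    constructor <;> linarith [ind_mem A y, Real.smoothTransition.nonneg (u y),
      Real.smoothTransition.le_one (u y)]
  have b2 : ∀ y, |ind {y | |u y| ≤ R'} y| ≤ 1 := fun y =>
    (abs_of_nonneg (ind_mem _ y).1).trans_le (ind_mem _ y).2
  have b3 : ∀ y, |(|Real.smoothTransition (u y) - ind A y| + ind {y | |u y| ≤ R'} y)| ≤ 1 + 1 :=
    fun y => (abs_add_le _ _).trans (add_le_add (b1 y) (b2 y))
  have g0 : ∀ y, 0 ≤ |Real.smoothTransition (u y) - ind A y| + ind {y | |u y| ≤ R'} y :=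
    fun y => add_nonneg (abs_nonneg _) (ind_mem _ y).1
  refine le_trans (integral_mono_of_nonneg (.of_forall fun x => abs_nonneg _)
    (intb ((m1.add m2).comp (adj L).measurable) (fun x => b3 _) isBounded_ball)
    ((ae_restrict_iff' measurableSet_ball).2 (.of_forall fun x hx => ?_)))
    ((fub h (m1.add m2) g0 b3 h0).trans (mul_le_mul_of_nonneg_right ?_ (by linarith)))
  · have a1 : |⟪e, x⟫| < R := (abs_real_inner_le_norm e x).trans_lt
      (by rw [h.one, one_mul]; exact mem_ball_zero_iff.1 hx)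
    change |ind {x | ⟪e, x⟫ - u (adj L x) < 0} x - ind A (adj L x)| ≤
      |Real.smoothTransition (u (adj L x)) - ind A (adj L x)| + ind {y | |u y| ≤ R'} (adj L x)
    rw [abs_lt] at a1
    by_cases a2 : |u (adj L x)| ≤ R'
    · rw [ind_of (A := {y | |u y| ≤ R'}) a2]
      refine le_trans (abs_le.2 ⟨?_, ?_⟩) (le_add_of_nonneg_left (abs_nonneg _)) <;>
        linarith [ind_mem A (adj L x), ind_mem {x | ⟪e, x⟫ - u (adj L x) < 0} x]
    refine le_trans (le_of_eq ?_) (le_add_of_nonneg_right (ind_mem _ _).1)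
    rcases lt_abs.1 (not_le.1 a2) with a3 | a3
    · rw [Real.smoothTransition.one_of_one_le (by linarith),
        ind_of (A := {x | ⟪e, x⟫ - u (adj L x) < 0}) (by rw [mem_ofPred_eq]; linarith)]
    · rw [Real.smoothTransition.zero_of_nonpos (by linarith),
        ind_not (A := {x | ⟪e, x⟫ - u (adj L x) < 0}) (by rw [mem_ofPred_eq, not_lt]; linarith)]
  · refine (setIntegral_mono_set (intb (m1.add m2) b3 isBounded_ball) (.of_forall g0)
      (ball_subset_ball h1).eventuallyLE).trans ?_
    simp only [Pi.add_apply]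
    rw [integral_add (intb m1 b1 isBounded_ball) (intb m2 b2 isBounded_ball)]
    have : ∫ y in ball 0 R', ind {y | |u y| ≤ R'} y ≤ η := by
      unfold ind
      rw [integral_indicator_const _ s2, measureReal_restrict_apply s2, inter_comm, smul_eq_mul,
        mul_one]
      exact hu.thin
    linarith [hu.close]

end SUBp

theorem sub_all : SUB := fun n e L A u b τ c h hA hu R => by
  rcases le_total R 0 with h0 | h0
  · simp [ball_eq_empty.2 h0]
  refine squeeze_zero' (.of_forall fun i => integral_nonneg fun x => abs_nonneg _)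
    ((tendsto_natCast_atTop_atTop.eventually_ge_atTop R).mono fun i hi =>
      SUBp.one h hA (hu i) h0 (by linarith) (by linarith [Nat.cast_nonneg (α := ℝ) i])) ?_
  simpa using (tendsto_one_div_add_atTop_nhds_zero_nat.const_mul (2 : ℝ)).mul_const (2 * R)

end Vale.Agent.P134S
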