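import Vale.Agent.P134S.Defs

/-!
# P134S: the symmetries of a set are symmetries of its area measure
-/

open MeasureTheory Metric Filter Topology Set
open scoped ContDiff RealInnerProductSpace ENNReal
open Vale.Agent.P366.Stmt (E)
open Vale.Agent.P366W (dvg)
open Vale.Agent.P366L (Dil Sp zoom int_zoom zoom_fin)

noncomputable section

namespace Vale.Agent.P134S

namespace Sym

variable {N n : ℕ}

/-- changing the set by a null set -/
theorem pr_congr {μ : Measure (E N)} {A A' : Set (E N)} (h : Pr μ A) (hm : MeasurableSet A')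
    (he : ∀ᵐ x, (x ∈ A' ↔ x ∈ A)) : Pr μ A' := by
  have h1 : A' =ᵐ[volume] A := eventuallyEq_set.2 he
  refine ⟨h.fin, hm, fun Z hZ hc => ?_, fun φ hφ => ?_, fun φ hφ => ?_⟩
  · rw [setIntegral_congr_set h1]; exact h.bv Z hZ hc
  · rw [setIntegral_congr_set h1]; exact h.f1 φ hφ
  · rw [setIntegral_congr_set h1.compl]; exact h.f2 φ hφ

/-- the change of variables -/
theorem cov {A : Set (E N)} (hA : MeasurableSet A) (x : E N) {r : ℝ} (hr : 0 < r)
    (g : E N → ℝ) : ∫ y in {y | x + r • y ∈ A}, g (x + r • y) = (r ^ N)⁻¹ * ∫ z in A, g z := by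
  have hm : MeasurableSet {y | x + r • y ∈ A} :=
    (by fun_prop : Measurable fun y : E N => x + r • y) hA
  have h1 := Measure.integral_comp_smul_of_nonneg (volume : Measure (E N))
    (fun z => A.indicator g (x + z)) r (hR := hr.le)
  rw [integral_add_left_eq_self (fun z => A.indicator g z), integral_indicator hA] at h1
  rw [← integral_indicator hm]
  simp only [finrank_euclideanSpace, Fintype.card_fin, smul_eq_mul] at h1
  rw [← h1]
  rfl

theorem fderiv_zoom {V : Type} [NormedAddCommGroup V] [NormedSpace ℝ V] (f : E N → V)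
    (x y : E N) {r : ℝ} (hr : 0 < r) :
    fderiv ℝ f y = r • fderiv ℝ (fun z => f (r⁻¹ • (z - x))) (x + r • y) := by
  rw [fderiv_comp_sub (f := fun z => f (r⁻¹ • z)), fderiv_comp_smul]
  simp [smul_smul, hr.ne']

theorem cs_zoom {V : Type} [Zero V] {f : E N → V} (hf : HasCompactSupport f) (x : E N) {r : ℝ}
    (hr : 0 < r) : HasCompactSupport fun z => f (r⁻¹ • (z - x)) :=
  hf.comp_homeomorph
    ((Homeomorph.subRight x).trans (Homeomorph.smulOfNeZero r⁻¹ (inv_ne_zero hr.ne')))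

theorem cd_zoom (x : E N) (r : ℝ) : ContDiff ℝ 1 fun z : E N => r⁻¹ • (z - x) :=
  (contDiff_id.sub contDiff_const).const_smul _

theorem flux_zoom {μ : Measure (E (n + 1))} {A : Set (E (n + 1))} (hA : MeasurableSet A)
    (h : ∀ φ : E (n + 1) → ℝ, Tf φ → ∫ x, φ x ∂μ ≤ ∫ x in A, ‖fderiv ℝ φ x‖) (x : E (n + 1))
    {r : ℝ} (hr : 0 < r) (φ : E (n + 1) → ℝ) (hφ : Tf φ) :
    ∫ y, φ y ∂zoom n μ x r ≤ ∫ y in {y | x + r • y ∈ A}, ‖fderiv ℝ φ y‖ := by
  have h1 := h (fun z => φ (r⁻¹ • (z - x)))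
    ⟨hφ.c1.comp (cd_zoom x r), cs_zoom hφ.cs x hr, fun z => hφ.nn _⟩
  have h2 : ∀ y, ‖fderiv ℝ φ y‖ = r * ‖fderiv ℝ (fun z => φ (r⁻¹ • (z - x))) (x + r • y)‖ :=
    fun y => by rw [fderiv_zoom φ x y hr, norm_smul, Real.norm_of_nonneg hr.le]
  simp only [h2]
  rw [int_zoom n μ x hr hφ.c1.continuous, integral_const_mul,
    cov hA x hr fun z => ‖fderiv ℝ (fun z => φ (r⁻¹ • (z - x))) z‖, ← mul_assoc]
  have h3 : r * (r ^ (n + 1))⁻¹ = r⁻¹ ^ n := by rw [inv_pow]; field_simp; ring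
  rw [h3]
  exact mul_le_mul_of_nonneg_left h1 (by positivity)

/-- the rescaled measure is the area of the rescaled set -/
theorem pr_zoom {μ : Measure (E (n + 1))} {A : Set (E (n + 1))} (h : Pr μ A) (x : E (n + 1))
    {r : ℝ} (hr : 0 < r) : Pr (zoom n μ x r) {y | x + r • y ∈ A} := by
  have := h.fin
  refine ⟨zoom_fin n μ x hr, (by fun_prop : Measurable fun y : E (n + 1) => x + r • y) h.ms,
    fun Z hZ hc => ?_, flux_zoom h.ms h.f1 x hr, flux_zoom h.ms.compl h.f2 x hr⟩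
  have h1 := h.bv (fun z => Z (r⁻¹ • (z - x))) (hZ.comp (cd_zoom x r)) (cs_zoom hc x hr)
  have h2 : ∀ y, dvg Z y = r * dvg (fun z => Z (r⁻¹ • (z - x))) (x + r • y) := fun y => by
    rw [P366W.dvg_eq, P366W.dvg_eq, fderiv_zoom Z x y hr, P366W.trc_smul]
  simp only [h2]
  rw [int_zoom n μ x hr hZ.continuous.norm, integral_const_mul,
    cov h.ms x hr (dvg fun z => Z (r⁻¹ • (z - x))), ← mul_assoc]
  have h3 : r * (r ^ (n + 1))⁻¹ = r⁻¹ ^ n := by rw [inv_pow]; field_simp; ring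
  rw [h3]
  exact mul_le_mul_of_nonneg_left h1 (by positivity)

theorem inv_pos {A : Set (E N)} {v : E N} (h1 : Up A v) (h2 : Up A (-v)) {s : ℝ} (hs : 0 ≤ s) :
    ∀ᵐ x, (x + s • v ∈ A ↔ x ∈ A) := by
  have h3 := (measurePreserving_add_right volume (s • v)).quasiMeasurePreserving.ae (h2 s hs)
  filter_upwards [h1 s hs, h3] with x a b
  exact ⟨fun k => by simpa using b k, a⟩

/-- invariance under the translations along a line -/
theorem inv_all {A : Set (E N)} {v : E N} (h1 : Up A v) (h2 : Up A (-v)) (s : ℝ) :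
    ∀ᵐ x, (x + s • v ∈ A ↔ x ∈ A) := by
  rcases le_total 0 s with hs | hs
  · exact inv_pos h1 h2 hs
  · simpa using inv_pos h2 (by rwa [neg_neg]) (neg_nonneg.2 hs)

end Sym

/-- **SYM** -/
theorem sym_of (h : UNIQ) : SYM := by
  intro n μ A hp
  refine ⟨fun v h1 h2 t => ?_, fun hc t ht => ?_⟩
  · have h3 := h _ _ _ _ (Sym.pr_congr (Sym.pr_zoom hp (-(t • v)) one_pos) hp.ms
      ((Sym.inv_all h1 h2 (-t)).mono fun x hx => by
        rw [← hx, mem_ofPred_eq, one_smul, neg_smul, add_comm x])) hp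
    simpa [zoom] using h3
  · have h3 := h _ _ _ _ (Sym.pr_congr (Sym.pr_zoom hp 0 (inv_pos.2 ht)) hp.ms
      ((hc t⁻¹ (inv_pos.2 ht)).mono fun x hx => by rw [← hx, mem_ofPred_eq, zero_add])) hp
    rw [zoom, inv_inv] at h3
    conv_rhs => rw [← h3]
    rw [smul_smul, ← ENNReal.ofReal_mul (by positivity), ← mul_pow, inv_mul_cancel₀ ht.ne']
    simp

end Vale.Agent.P134S
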