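import Vale.Agent.P134S.Defs

/-!
# P134S: the sign of the normal of a monotone set
-/

open MeasureTheory Metric Filter Topology Set
open Vale.Agent.P366.Stmt (E)

noncomputable section

namespace Vale.Agent.P134S

theorem neg_side {g : ℝ → ℝ} {d : ℝ} (h : HasDerivAt g d 0) (h0 : g 0 = 0) (hd : d < 0) :
    ∀ᶠ s in 𝓝[>] (0 : ℝ), g s < 0 := by
  have h1 := (hasDerivAt_iff_tendsto_slope_zero.1 h).mono_left
    (nhdsWithin_mono _ fun s (hs : s ∈ Ioi (0 : ℝ)) => (ne_of_gt hs : s ≠ 0))
  filter_upwards [h1.eventually (gt_mem_nhds hd), self_mem_nhdsWithin] with s a (b : 0 < s)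
  rw [zero_add, h0, sub_zero, smul_eq_mul] at a
  by_contra k
  exact absurd a (not_lt.2 (mul_nonneg (inv_pos.2 b).le (not_lt.1 k)))

theorem sgn : SGN := by
  intro N A S F x a hL ⟨U, hU, hA⟩ hup
  have h0 := (((hL.sm.and hL.mem).and hU).eventually_nhds).filter_mono (nhdsWithin_le_nhds (s := S))
  filter_upwards [h0, self_mem_nhdsWithin] with y hy hS
  by_contra k
  replace k := not_le.1 k
  obtain ⟨⟨y1, y2⟩, -⟩ := hy.self_of_nhds
  have dF := (y1.differentiableAt (by simp)).hasFDerivAt
  have F0 := y2.1 hS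
  have d : ∀ v : E N, HasDerivAt (fun s : ℝ => F (y + s • v)) (fderiv ℝ F y v) 0 := fun v => by
    have h1 : HasDerivAt (fun s : ℝ => y + s • v) v 0 := by
      simpa using ((hasDerivAt_id (0 : ℝ)).smul_const v).const_add y
    exact HasFDerivAt.comp_hasDerivAt (f := fun s : ℝ => y + s • v) 0 (by simpa using dF) h1
  have c : ∀ v : E N, Tendsto (fun s : ℝ => y + s • v) (𝓝[>] 0) (𝓝 y) := fun v =>
    ((continuous_const.add (continuous_id.smul continuous_const)).tendsto' 0 y
      (by simp)).mono_left nhdsWithin_le_nhds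
  obtain ⟨s, ⟨⟨⟨a1, a2⟩, a3⟩, a4⟩, s0⟩ := (((((neg_side (d a) (by simpa using F0) k).and
    (neg_side (d (-a)).neg (by simpa using F0) (by simpa using k))).and
    ((c a).eventually hy.eventually_nhds)).and ((c (-a)).eventually hy.eventually_nhds)).and
    self_mem_nhdsWithin).exists
  replace s0 : 0 < s := s0
  have a5 : 0 < F (y + s • -a) := by simpa using a2
  have t : Tendsto (fun z => z + (2 * s) • a) (𝓝 (y + s • -a)) (𝓝 (y + s • a)) :=
    (continuous_id.add continuous_const).tendsto' _ _ (by show y + s • -a + (2 * s) • a = _; module)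
  have hV := ((a4.and (a4.self_of_nhds.1.1.continuousAt.eventually (lt_mem_nhds a5))).and
    (t.eventually a3)).and
    (t.eventually (a3.self_of_nhds.1.1.continuousAt.eventually (gt_mem_nhds a1)))
  refine (Measure.measure_pos_of_mem_nhds volume hV).ne' (measure_eq_zero_iff_ae_notMem.2 ?_)
  filter_upwards [hA, hup (2 * s) (by linarith),
    (measurePreserving_add_right volume ((2 * s) • a)).quasiMeasurePreserving.ae hA]
    with z b1 b2 b3 hz
  exact lt_asymm hz.2 ((b3 hz.1.2.2).1 (b2 ((b1 hz.1.1.1.2).2 hz.1.1.2)))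

end Vale.Agent.P134S
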