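import Vale.Agent.P134S.Defs
import Vale.Agent.P366S.Inv

/-!
# P134S: a constant tangent vector lies in the spine
-/

open MeasureTheory Set Filter Topology Metric
open scoped ContDiff InnerProductSpace ENNReal
open Vale.Agent.P366S Vale.Agent.P366L
open Vale.Agent.P098.H246 (ct exists_cover)

noncomputable section

namespace Vale.Agent.P134S.Tv

variable {E : Type} [NormedAddCommGroup E] [InnerProductSpace ℝ E] [FiniteDimensional ℝ E]
  [MeasurableSpace E] [BorelSpace E] {μ : Measure E} {n : ℕ}

theorem ball_le (hE : Module.finrank ℝ E = n + 1) [IsFiniteMeasureOnCompacts μ] (hc : Cal μ) :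
    ∃ C > (0 : ℝ), ∀ (x : E) (r : ℝ), 0 < r → μ (closedBall x r) ≤ ENNReal.ofReal (C * r ^ n) := by
  let b : ContDiffBump (0 : E) := ⟨1, 2, one_pos, one_lt_two⟩
  have b1 : ContDiff ℝ 1 b := b.contDiff
  have hD : 0 ≤ ∫ y, ‖fderiv ℝ b y‖ := integral_nonneg fun _ => norm_nonneg _
  refine ⟨(∫ y, ‖fderiv ℝ b y‖) + 1, by positivity, fun x r hr => ?_⟩
  have c1 := scale_c1 b1 x r
  have c2 := scale_cs b.hasCompactSupport x hr.ne'
  have h1 := hc _ c1 c2 fun _ => b.nonneg
  have h2 : ∫ y, ‖fderiv ℝ (fun y => b (r⁻¹ • (y - x))) y‖ = (∫ y, ‖fderiv ℝ b y‖) * r ^ n := by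
    have e : ∀ y, ‖fderiv ℝ (fun y => b (r⁻¹ • (y - x))) y‖ =
        r⁻¹ * ‖fderiv ℝ b (r⁻¹ • (y - x))‖ := fun y => by
      rw [show fderiv ℝ (fun y => b (r⁻¹ • (y - x))) y = r⁻¹ • fderiv ℝ b (r⁻¹ • (y - x)) from
        ContinuousLinearMap.ext fun w => scale_fderiv b1 x y w r, norm_smul, Real.norm_of_nonneg
        (inv_pos.2 hr).le]
    simp only [e]
    rw [integral_const_mul, integral_sub_right_eq_self (fun y => ‖fderiv ℝ b (r⁻¹ • y)‖) x,
      Measure.integral_comp_inv_smul_of_nonneg volume (fun y => ‖fderiv ℝ b y‖) hr.le, hE,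
      smul_eq_mul, pow_succ]
    field_simp
  have h3 : μ.real (closedBall x r) ≤ ∫ y, b (r⁻¹ • (y - x)) ∂μ := by
    rw [← integral_indicator_one measurableSet_closedBall]
    refine integral_mono ((integrable_indicator_iff measurableSet_closedBall).2
      (integrableOn_const (isCompact_closedBall x r).measure_lt_top.ne))
      (c1.continuous.integrable_of_hasCompactSupport c2) fun y => ?_
    by_cases hy : y ∈ closedBall x r
    · rw [indicator_of_mem hy]
      refine (b.one_of_mem_closedBall ?_).ge
      rw [mem_closedBall, dist_eq_norm] at hy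
      rw [mem_closedBall_zero_iff, norm_smul, Real.norm_of_nonneg (inv_pos.2 hr).le,
        inv_mul_le_iff₀ hr]
      simpa [b] using hy
    · rw [indicator_of_notMem hy]; exact b.nonneg
  rw [← ofReal_measureReal (isCompact_closedBall x r).measure_lt_top.ne]
  refine ENNReal.ofReal_le_ofReal ?_
  have : 0 ≤ μ.real (closedBall x r) := measureReal_nonneg
  have : 0 < r ^ n := by positivity
  nlinarith

theorem null_sub (hE : Module.finrank ℝ E = n + 1) [IsFiniteMeasureOnCompacts μ] (hc : Cal μ)
    (W : Submodule ℝ E) (hW : Module.finrank ℝ W < n) : μ W = 0 := by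
  obtain ⟨C, hC, h⟩ := ball_le hE hc
  have n0 : (0 : ℝ) < n := by exact_mod_cast (by omega : 0 < n)
  have h1 : ∀ s : Set E, μ s ≤ ENNReal.ofReal C * ediam s ^ (n : ℝ) := fun s => by
    rcases s.eq_empty_or_nonempty with rfl | ⟨x, hx⟩
    · simp
    by_cases ht : ediam s = ⊤
    · rw [ht, ENNReal.top_rpow_of_pos n0, ENNReal.mul_top (by simpa using hC)]; exact le_top
    have c : Continuous fun r : ℝ => ENNReal.ofReal (C * r ^ n) :=
      ENNReal.continuous_ofReal.comp (by fun_prop)
    have := ge_of_tendsto ((c.tendsto (diam s)).mono_left (nhdsWithin_le_nhds (s := Ioi (diam s))))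
      (b := μ s) (eventually_nhdsWithin_of_forall fun r hr => (measure_mono fun y hy =>
        (dist_le_diam_of_mem' ht hy hx).trans (le_of_lt hr)).trans (h x r (diam_nonneg.trans_lt hr)))
    rwa [ENNReal.ofReal_mul hC.le, ENNReal.ofReal_pow diam_nonneg, diam, ENNReal.ofReal_toReal ht,
      ← ENNReal.rpow_natCast] at this
  have h2 := ct_submodule n0 W (by exact_mod_cast hW)
  refine le_antisymm (ENNReal.le_of_forall_pos_le_add fun e he _ => ?_) zero_le
  obtain ⟨t, t1, t2⟩ := exists_cover n0 (h2.trans_lt (ENNReal.ofReal_pos.2 (div_pos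
    (show (0 : ℝ) < e from he) hC)))
  refine (measure_mono t1).trans ((measure_iUnion_le t).trans
    ((ENNReal.tsum_le_tsum fun k => h1 (t k)).trans ?_))
  rw [ENNReal.tsum_mul_left, zero_add]
  refine (mul_le_mul_right t2.le _).trans_eq ?_
  rw [← ENNReal.ofReal_mul hC.le, mul_div_cancel₀ _ hC.ne', ENNReal.ofReal_coe_nnreal]

theorem mem_sp [IsFiniteMeasureOnCompacts μ] {a : E} (h : ∀ φ : E → ℝ, ContDiff ℝ ∞ φ →
    HasCompactSupport φ → ∫ y, fderiv ℝ φ y a ∂μ = 0) : a ∈ Sp μ := fun t => by
  have : IsFiniteMeasureOnCompacts (μ.map fun y => y + t • a) :=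
    Measure.IsFiniteMeasureOnCompacts.map μ (Homeomorph.addRight (t • a))
  refine ext_sm fun φ h1 h2 => ?_
  have hd : Continuous (fderiv ℝ φ) := h1.continuous_fderiv (by simp)
  have df := h1.differentiable (by simp)
  have cs : ∀ s : ℝ, HasCompactSupport fun y => φ (y + s • a) := fun s =>
    h2.comp_homeomorph (Homeomorph.addRight (s • a))
  obtain ⟨R, -, hR⟩ := h2.isCompact.isBounded.subset_closedBall_lt 0 (0 : E)
  obtain ⟨C, hC⟩ := (h2.fderiv ℝ).exists_bound_of_continuous hd
  have key : ∀ s : ℝ, HasDerivAt (fun s : ℝ => ∫ y, φ (y + s • a) ∂μ) 0 s := fun s => by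
    have := (hasDerivAt_integral_of_dominated_loc_of_deriv_le (μ := μ)
      (F := fun s y => φ (y + s • a)) (F' := fun s y => fderiv ℝ φ (y + s • a) a)
      (bound := (closedBall (0 : E) (R + (|s| + 1) * ‖a‖)).indicator fun _ => C * ‖a‖)
      (ball_mem_nhds s one_pos)
      (.of_forall fun u => (h1.continuous.comp (by fun_prop)).aestronglyMeasurable)
      ((h1.continuous.comp (by fun_prop)).integrable_of_hasCompactSupport (cs s))
      (Continuous.aestronglyMeasurable (by fun_prop)) (.of_forall fun y u hu => ?_)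
      ((integrable_indicator_iff measurableSet_closedBall).2
        (integrableOn_const (isCompact_closedBall _ _).measure_lt_top.ne))
      (.of_forall fun y u _ => ?_)).2
    · have e := h _ (h1.comp (contDiff_id.add contDiff_const)) (cs s)
      simp only [Function.comp_def, id, fderiv_comp_add_right] at e
      rwa [e] at this
    · by_cases hy : y + u • a ∈ tsupport φ
      · have a1 : ‖y + u • a‖ ≤ R := mem_closedBall_zero_iff.1 (hR hy)
        have a2 : |u| ≤ |s| + 1 := by
          have := abs_sub_abs_le_abs_sub u s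
          rw [mem_ball, Real.dist_eq] at hu
          linarith
        have a3 := norm_sub_le (y + u • a) (u • a)
        rw [add_sub_cancel_right, norm_smul, Real.norm_eq_abs] at a3
        rw [indicator_of_mem (mem_closedBall_zero_iff.2 (by
          linarith [mul_le_mul_of_nonneg_right a2 (norm_nonneg a)]))]
        exact ((fderiv ℝ φ _).le_opNorm _).trans (mul_le_mul_of_nonneg_right (hC _) (norm_nonneg _))
      · rw [image_eq_zero_of_notMem_tsupport fun h => hy (tsupport_fderiv_subset ℝ h)]
        simp only [zero_apply, norm_zero]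
        exact indicator_nonneg (fun _ _ => mul_nonneg ((norm_nonneg _).trans (hC 0))
          (norm_nonneg _)) _
    · have := (df _).hasFDerivAt.comp_hasDerivAt u (((hasDerivAt_id u).smul_const a).const_add y)
      rw [one_smul] at this
      exact this
  rw [integral_map (by fun_prop) h1.continuous.aestronglyMeasurable]
  simpa using is_const_of_deriv_eq_zero (fun s => (key s).differentiableAt)
    (fun s => (key s).deriv) t 0

theorem tra' {V : Submodule ℝ E} {S : Set E} {a : E} (hc : Cal μ) (hs : Stable (V : Set E)ᶜ S μ)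
    (h1 : Module.finrank ℝ V + 3 ≤ Module.finrank ℝ E) (h0 : ∀ x ∈ S, prj S x a = a) :
    a ∈ Sp μ := by
  have : IsFiniteMeasureOnCompacts μ := ⟨fun K hK => hs.fin K hK⟩
  obtain ⟨n, hE⟩ : ∃ n, Module.finrank ℝ E = n + 1 := ⟨Module.finrank ℝ E - 1, by omega⟩
  set W := V ⊔ Submodule.span ℝ {a}
  have hW : μ W = 0 := null_sub hE hc W (by
    have h2 : Module.finrank ℝ W ≤ _ :=
      Submodule.finrank_add_le_finrank_add_finrank V (Submodule.span ℝ {a})
    have h3 := finrank_span_le_card (R := ℝ) ({a} : Set E)
    simp only [toFinset_singleton, Finset.card_singleton] at h3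
    omega)
  have aW : a ∈ W := Submodule.mem_sup_right (Submodule.mem_span_singleton_self a)
  have ae : ∀ᵐ y ∂μ, y ∉ W ∧ y ∈ S := by
    filter_upwards [measure_eq_zero_iff_ae_notMem.1 hW, measure_eq_zero_iff_ae_notMem.1 hs.null]
      with y a1 a2
    exact ⟨a1, by_contra fun h => a2 ⟨fun hv => a1 (Submodule.mem_sup_left hv), h⟩⟩
  refine mem_sp fun φ p1 p2 => ?_
  set ζ : ℕ → E → ℝ := fun k y => Real.smoothTransition (k * rho W y - 1) with hζ
  have z1 : ∀ k, ContDiff ℝ ∞ (ζ k) := fun k => Real.smoothTransition.contDiff.comp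
    ((contDiff_const.mul rho_smooth).sub contDiff_const)
  have z2 : ∀ k y, fderiv ℝ (ζ k) y a = 0 := fun k y => by
    have b1 := ((z1 k).differentiable (by simp) y).hasFDerivAt.comp_hasDerivAt_of_eq (0 : ℝ)
      (((hasDerivAt_id (0 : ℝ)).smul_const a).const_add y) (by simp)
    have b2 : (ζ k ∘ fun t : ℝ => y + id t • a) = fun _ => ζ k y := by
      funext t
      simp only [hζ, Function.comp, rho, id, map_add,
        Submodule.starProjection_eq_self_iff.2 (W.smul_mem t aW), add_sub_add_right_eq_sub]
    rw [b2, one_smul] at b1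
    exact b1.unique (hasDerivAt_const _ _)
  have z3 : ∀ k, ∫ y, ζ k y * fderiv ℝ φ y a ∂μ = 0 := fun k => by
    have t : Test (V : Set E)ᶜ fun y => ζ k y * φ y := ⟨(z1 k).mul p1, p2.mul_left, by
      refine tsupport_mul_subset_left.trans ((closure_minimal (t := {y | 1 ≤ k * rho W y})
        (fun y hy => ?_) (isClosed_le continuous_const
          (continuous_const.mul rho_smooth.continuous))).trans fun y hy hv => ?_)
      · by_contra h
        exact hy (Real.smoothTransition.zero_of_nonpos (by
          linarith [show k * rho W y < 1 from not_le.1 h]))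
      · have : rho W y = 0 := by
          have e : W.starProjection y = y :=
            Submodule.starProjection_eq_self_iff.2 (Submodule.mem_sup_left hv)
          simp [rho, e]
        simp only [mem_ofPred_eq, this, mul_zero] at hy
        linarith⟩
    rw [← hs.var _ t a]
    refine integral_congr_ae (ae.mono fun y hy => ?_)
    simp only [h0 y hy.2]
    rw [fderiv_fun_mul ((z1 k).differentiable (by simp) y) (p1.differentiable (by simp) y)]
    simp [z2]
  have cD : Continuous fun y => fderiv ℝ φ y a :=
    (p1.continuous_fderiv (by simp)).clm_apply continuous_const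
  have lim := tendsto_integral_of_dominated_convergence (μ := μ)
    (F := fun k y => ζ k y * fderiv ℝ φ y a) (f := fun y => fderiv ℝ φ y a)
    (fun y => ‖fderiv ℝ φ y a‖) (fun k => ((z1 k).continuous.mul cD).aestronglyMeasurable)
    (cD.integrable_of_hasCompactSupport (p2.fderiv_apply ℝ a)).norm
    (fun k => .of_forall fun y => by
      rw [norm_mul, Real.norm_of_nonneg (Real.smoothTransition.nonneg _)]
      exact mul_le_of_le_one_left (norm_nonneg _) (Real.smoothTransition.le_one _))
    (ae.mono fun y hy => tendsto_const_nhds.congr' (by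
      filter_upwards [(tendsto_natCast_atTop_atTop.atTop_mul_const (rho_pos hy.1)).eventually_ge_atTop
        (2 : ℝ)] with k hk
      rw [show ζ k y = 1 from Real.smoothTransition.one_of_one_le (by linarith), one_mul]))
  simp only [z3] at lim
  exact tendsto_nhds_unique lim tendsto_const_nhds |>.symm ▸ rfl

end Vale.Agent.P134S.Tv

namespace Vale.Agent.P134S

theorem tra : TRA := fun _ _ _ _ _ hc hs h1 h0 => Tv.tra' hc hs (by simpa using h1) h0

end Vale.Agent.P134S
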