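import Vale.Agent.P134S.Defs

/-!
# P134S, row UNIQ: the set determines the measure
-/

open MeasureTheory Metric Filter Topology Set
open scoped ContDiff
open Vale.Agent.P366.Stmt (E)

noncomputable section

namespace Vale.Agent.P134S

theorem uniq_le (h1 : MOL) (h2 : MINP) {N : ℕ} {μ μ' : Measure (E N)} {A : Set (E N)}
    (P : Pr μ A) (P' : Pr μ' A) {ψ : E N → ℝ} (h : Tf ψ) : ∫ x, ψ x ∂μ ≤ ∫ x, ψ x ∂μ' := by
  have := P'.fin
  obtain ⟨θ, η, M⟩ := h1 N A P.ms
  obtain ⟨K, hK⟩ := h.c1.lipschitzWith_of_hasCompactSupport h.cs one_ne_zero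
  obtain ⟨R, hR⟩ := h.cs.isCompact.isBounded.subset_closedBall 0
  have z : ∀ x ∉ closedBall (0 : E N) R, ψ x = 0 := fun x hx =>
    image_eq_zero_of_notMem_tsupport fun e => hx (hR e)
  have iψ : Integrable ψ μ' := h.c1.continuous.integrable_of_hasCompactSupport h.cs
  have iB : Integrable (ind (closedBall (0 : E N) (R + 1))) μ' :=
    (integrableOn_const (isCompact_closedBall _ _).measure_ne_top).integrable_indicator
      measurableSet_closedBall
  have near : ∀ (k : ℕ) (x y : E N), ψ x ≠ 0 → η k (x - y) ≠ 0 →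
      dist x y ≤ 1 / ((k : ℝ) + 1) ∧ y ∈ closedBall (0 : E N) (R + 1) := fun k x y hx hy => by
    have a : dist x y ≤ 1 / ((k : ℝ) + 1) :=
      (dist_eq_norm x y).le.trans (not_le.1 fun e => hy (M.sup k _ e)).le
    have b : dist x 0 ≤ R := by_contra fun e => hx (z x e)
    have c : 1 / ((k : ℝ) + 1) ≤ 1 := (div_le_one (by positivity)).2 (by simp)
    exact ⟨a, (dist_triangle_left y 0 x).trans (by linarith)⟩
  have d0 : Integrable fun x => ‖fderiv ℝ ψ x‖ :=
    (h.c1.continuous_fderiv one_ne_zero).norm.integrable_of_hasCompactSupport (h.cs.fderiv ℝ).norm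
  have t1 : Tendsto (fun k => ∫ x, ‖fderiv ℝ ψ x‖ * |θ k x - ind A x|) atTop (𝓝 0) := by
    have := tendsto_integral_of_dominated_convergence (μ := volume) (f := fun _ => (0 : ℝ))
      (F := fun k x => ‖fderiv ℝ ψ x‖ * |θ k x - ind A x|) _
      (fun k => d0.1.mul (((M.smθ k).continuous.measurable.sub
        (measurable_const.indicator P.ms)).abs.aestronglyMeasurable)) d0
      (fun k => .of_forall fun x => ?_) (M.lim.mono fun x hx => ?_)
    · simpa using this
    · rw [norm_mul, norm_norm, Real.norm_eq_abs, abs_abs]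
      refine mul_le_of_le_one_right (norm_nonneg _) (abs_le.2 ?_)
      have := M.bd k x
      by_cases e : x ∈ A <;> simp only [ind, e, indicator_of_mem, indicator_of_notMem,
        not_false_eq_true] <;> constructor <;> linarith
    · simpa using ((hx.sub_const (ind A x)).abs).const_mul ‖fderiv ℝ ψ x‖
  have t2 := ((tendsto_one_div_add_atTop_nhds_zero_nat.const_mul (K : ℝ)).mul_const
    (∫ y, ind (closedBall (0 : E N) (R + 1)) y ∂μ')).const_add (∫ x, ψ x ∂μ') |>.add t1
  simp only [mul_zero, zero_mul, add_zero] at t2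
  refine ge_of_tendsto' t2 fun k => (h2 N μ A ψ (θ k) P h ((M.smθ k).of_le (by simp))
    (M.bd k)).trans (add_le_add_left ?_ _)
  have cη := (M.smη k).continuous
  have hF : Integrable (Function.uncurry fun x y => ψ x * η k (x - y)) (volume.prod μ') :=
    ((h.c1.continuous.comp continuous_fst).mul
      (cη.comp (continuous_fst.sub continuous_snd))).integrable_of_hasCompactSupport
      (.intro ((isCompact_closedBall 0 R).prod (isCompact_closedBall 0 (R + 1))) fun p hp =>
        by_contra fun e => hp ⟨by_contra fun e' => left_ne_zero_of_mul e (z _ e'),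
          (near k _ _ (left_ne_zero_of_mul e) (right_ne_zero_of_mul e)).2⟩)
  calc _ ≤ ∫ x, ∫ y, ψ x * η k (x - y) ∂μ' :=
        integral_mono_of_nonneg (.of_forall fun x => mul_nonneg (h.nn x) (norm_nonneg _))
          hF.integral_prod_left (.of_forall fun x => by
            simp only [integral_const_mul]
            exact mul_le_mul_of_nonneg_left (M.grad μ' P' k x) (h.nn x))
    _ = ∫ y, ∫ x, ψ x * η k (x - y) ∂volume ∂μ' := integral_integral_swap hF
    _ ≤ ∫ y, (ψ y + K * (1 / ((k : ℝ) + 1)) * ind (closedBall (0 : E N) (R + 1)) y) ∂μ' := by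
        refine integral_mono hF.integral_prod_right (iψ.add (iB.const_mul _)) fun y => ?_
        have e : ∫ x, η k (x - y) = 1 := (integral_sub_right_eq_self _ y).trans (M.one k)
        have i0 : 0 ≤ ind (closedBall (0 : E N) (R + 1)) y := indicator_nonneg (by simp) _
        refine (integral_mono_of_nonneg (.of_forall fun x => mul_nonneg (h.nn x) (M.nn k _))
          ((Integrable.of_integral_ne_zero (e.trans_ne one_ne_zero)).const_mul _)
          (.of_forall fun x => ?_)).trans_eq (by rw [integral_const_mul, e, mul_one])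
        by_cases a : η k (x - y) = 0
        · simp [a]
        refine mul_le_mul_of_nonneg_right ?_ (M.nn k _)
        by_cases b : ψ x = 0
        · exact b.le.trans (add_nonneg (h.nn y) (by positivity))
        obtain ⟨c, d⟩ := near k x y b a
        have := (hK.dist_le_mul x y).trans (mul_le_mul_of_nonneg_left c K.2)
        rw [ind, indicator_of_mem d, mul_one]
        exact sub_le_iff_le_add'.1 (le_of_abs_le this)
    _ = _ := by rw [integral_add iψ (iB.const_mul _), integral_const_mul]

theorem uniq_of (h1 : MOL) (h2 : MINP) : UNIQ := by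
  intro N μ μ' A P P'
  have := P.fin
  have := P'.fin
  refine P366L.ext_c1 fun φ c s => ?_
  obtain ⟨R, R0, hR⟩ := s.isCompact.isBounded.subset_closedBall_lt 0 0
  let χ : ContDiffBump (0 : E N) := ⟨R, R + 1, R0, by linarith⟩
  have T : ∀ a : ℝ, Tf fun x => (φ x + a * χ x) ^ 2 := fun a =>
    ⟨(c.add (contDiff_const.mul χ.contDiff)).pow 2,
      (s.add χ.hasCompactSupport.mul_left).comp_left (g := fun t : ℝ => t ^ 2) (by simp),
      fun _ => sq_nonneg _⟩
  have e : ∀ x, φ x = 1 / 4 * ((φ x + 1 * χ x) ^ 2 - (φ x + -1 * χ x) ^ 2) := fun x => by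
    by_cases h : x ∈ tsupport φ
    · rw [χ.one_of_mem_closedBall (hR h)]
      ring
    · rw [image_eq_zero_of_notMem_tsupport h]
      ring
  have k : ∀ ν : Measure (E N), IsFiniteMeasureOnCompacts ν → ∫ x, φ x ∂ν =
      1 / 4 * (∫ x, (φ x + 1 * χ x) ^ 2 ∂ν - ∫ x, (φ x + -1 * χ x) ^ 2 ∂ν) := fun ν _ => by
    rw [← integral_sub ((T _).c1.continuous.integrable_of_hasCompactSupport (T _).cs)
      ((T _).c1.continuous.integrable_of_hasCompactSupport (T _).cs), ← integral_const_mul]
    exact integral_congr_ae (.of_forall e)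
  rw [k μ P.fin, k μ' P'.fin, (uniq_le h1 h2 P P' (T 1)).antisymm (uniq_le h1 h2 P' P (T 1)),
    (uniq_le h1 h2 P P' (T (-1))).antisymm (uniq_le h1 h2 P' P (T (-1)))]

end Vale.Agent.P134S
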