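import Vale.Agent.P134S.Acw1
import Vale.Agent.P134S.Acw2
import Vale.Agent.P134S.BAR
import Vale.Agent.P134S.BLD3
import Vale.Agent.P134S.Bld2
import Vale.Agent.P134S.CONST
import Vale.Agent.P134S.CYL
import Vale.Agent.P134S.Cap0
import Vale.Agent.P134S.Cmp
import Vale.Agent.P134S.Cone
import Vale.Agent.P134S.END0
import Vale.Agent.P134S.EST
import Vale.Agent.P134S.GRB
import Vale.Agent.P134S.HALF
import Vale.Agent.P134S.HYP
import Vale.Agent.P134S.JAC
import Vale.Agent.P134S.LIM
import Vale.Agent.P134S.LOC
import Vale.Agent.P134S.MIN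
import Vale.Agent.P134S.MOL
import Vale.Agent.P134S.SEQ
import Vale.Agent.P134S.SPR
import Vale.Agent.P134S.SUB
import Vale.Agent.P134S.SYM
import Vale.Agent.P134S.Sgn
import Vale.Agent.P134S.TRA
import Vale.Agent.P134S.UNIQ

/-!
# P134S: the assembly of the block
-/

namespace Vale.Agent.P134S

theorem app : APP := app_of (seq_of mol cap0 bar (est_of minm)) grb sub_all lim

/-- monotone minimising cones in dimension at most eight are half spaces -/
theorem bern : BERN := bern_of app cyl_all
  (cone_of (sym_of (uniq_of mol minp)) end0 (half_of (const_of mol)) (loc_of (const_of mol)) sgn jac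
    tra hyp spr)

theorem out : OUT :=
  out_of acw1 acw2 (oute_of scl bld1 (bld2_of scl) bld3 bern)

theorem sav4 : P134Y.SAV 4 := out 4 le_rfl

end Vale.Agent.P134S
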