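import Vale.Agent.P134S.Defs

/-!
# P134S, row CMP: compactness
-/

open MeasureTheory Metric Filter Topology Set
open scoped ContDiff RealInnerProductSpace ENNReal
open Vale.Agent.P366.Stmt (E)

noncomputable section

namespace Vale.Agent.P134S

namespace CmpA

variable {N : ℕ} {ι : Type}

theorem unif (𝒰 : Ultrafilter ι) {K : Set (E N)} (hK : IsCompact K) (v : ι → E N → ℝ) {L : ℝ}
    (hL : 0 ≤ L) (hb : ∀ i x, |v i x| ≤ 1)
    (hl : ∀ i, ∀ x ∈ K, ∀ y ∈ K, |v i x - v i y| ≤ L * dist x y) {ε : ℝ} (hε : 0 < ε) :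
    ∃ S ∈ (𝒰 : Filter ι), ∀ i ∈ S, ∀ j ∈ S, ∀ x ∈ K, |v i x - v j x| ≤ ε := by
  have h1 : ∀ x, ∃ a, Tendsto (fun i => v i x) 𝒰 (𝓝 a) := fun x => by
    obtain ⟨a, -, ha⟩ := (isCompact_Icc (a := (-1 : ℝ)) (b := 1)).ultrafilter_le_nhds
      (𝒰.map fun i => v i x) (le_principal_iff.2 (mem_map.2 (univ_mem' fun i => abs_le.1 (hb i x))))
    exact ⟨a, ha⟩
  choose a ha using h1
  obtain ⟨t, ht, hf, hc⟩ := finite_cover_balls_of_compact hK
    (show 0 < ε / (4 * (L + 1)) by positivity)
  refine ⟨{i | ∀ x ∈ t, dist (v i x) (a x) < ε / 4}, (eventually_all_finite hf).2 fun x _ =>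
    Metric.tendsto_nhds.1 (ha x) _ (by positivity), fun i hi j hj x hx => ?_⟩
  obtain ⟨y, hy, hxy⟩ := mem_iUnion₂.1 (hc hx)
  have h2 : L * dist x y ≤ ε / 4 := by
    refine (mul_le_mul_of_nonneg_left (mem_ball.1 hxy).le hL).trans ?_
    rw [← mul_div_assoc, div_le_div_iff₀ (by positivity) (by positivity)]
    nlinarith
  have h3 := abs_le.1 ((hl i x hx y (ht hy)).trans h2)
  have h4 := abs_le.1 ((hl j x hx y (ht hy)).trans h2)
  have h5 := abs_lt.1 (hi y hy)
  have h6 := abs_lt.1 (hj y hy)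
  rw [abs_le]
  constructor <;> linarith

theorem int_ball {f : E N → ℝ} {R : ℝ} (hf : ContinuousOn f (closedBall 0 R)) :
    IntegrableOn f (ball 0 R) :=
  (hf.integrableOn_compact (isCompact_closedBall _ _)).mono_set ball_subset_closedBall

theorem conv {η : E N → ℝ} (h1 : ContDiff ℝ 1 η) (h0 : ∀ y, 0 ≤ η y)
    (hs : ∀ y, 1 ≤ ‖y‖ → η y = 0) (hi : ∫ y, η y = 1) (R : ℝ) : ∃ L ≥ (0 : ℝ), ∀ w : E N → ℝ,
    Continuous w → (∀ x, 0 ≤ w x ∧ w x ≤ 1) → (∀ x, |∫ y, η (x - y) * w y| ≤ 1) ∧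
      ∀ x ∈ closedBall (0 : E N) R, ∀ z ∈ closedBall (0 : E N) R,
        |(∫ y, η (x - y) * w y) - ∫ y, η (z - y) * w y| ≤ L * dist x z := by
  have hc : HasCompactSupport η := HasCompactSupport.intro (isCompact_closedBall 0 1)
    fun y hy => hs y (not_le.1 (mt mem_closedBall_zero_iff.2 hy)).le
  obtain ⟨L, hL⟩ := h1.lipschitzWith_of_hasCompactSupport hc one_ne_zero
  have hI : ∀ x, Integrable fun y => η (x - y) := fun x =>
    (h1.continuous.integrable_of_hasCompactSupport hc).comp_sub_left x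
  refine ⟨L * volume.real (closedBall (0 : E N) (R + 1)), by positivity, fun w hw hb => ?_⟩
  have hw1 : ∀ y, ‖w y‖ ≤ 1 := fun y => by
    rw [Real.norm_eq_abs, abs_of_nonneg (hb y).1]; exact (hb y).2
  have hJ : ∀ x, Integrable fun y => η (x - y) * w y := fun x =>
    (hI x).mul_bdd hw.aestronglyMeasurable (Eventually.of_forall hw1)
  refine ⟨fun x => ?_, fun x hx z hz => ?_⟩
  · rw [← Real.norm_eq_abs]
    refine (norm_integral_le_of_norm_le (hI x) (Eventually.of_forall fun y => ?_)).trans_eq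
      ((integral_sub_left_eq_self η volume x).trans hi)
    rw [norm_mul, Real.norm_of_nonneg (h0 _)]
    exact mul_le_of_le_one_right (h0 _) (hw1 y)
  · rw [← integral_sub (hJ x) (hJ z), ← Real.norm_eq_abs]
    refine (norm_integral_le_of_norm_le (g := (closedBall (0 : E N) (R + 1)).indicator
      fun _ => L * dist x z) ((integrable_indicator_iff measurableSet_closedBall).2
        (continuousOn_const.integrableOn_compact (isCompact_closedBall _ _)))
      (Eventually.of_forall fun y => ?_)).trans_eq ?_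
    · by_cases hy : y ∈ closedBall (0 : E N) (R + 1)
      · rw [indicator_of_mem hy, ← sub_mul, norm_mul]
        have h2 := hL.dist_le_mul (x - y) (z - y)
        rw [dist_sub_right, dist_eq_norm] at h2
        exact (mul_le_of_le_one_right (norm_nonneg _) (hw1 y)).trans h2
      · rw [mem_closedBall_zero_iff] at hx hz
        have hy' := not_le.1 (mt mem_closedBall_zero_iff.2 hy)
        have h3 : ∀ u : E N, ‖u‖ ≤ R → η (u - y) = 0 := fun u hu => hs _ (by
          have := norm_sub_norm_le y u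
          rw [norm_sub_rev] at this
          linarith)
        rw [indicator_of_notMem hy, h3 x hx, h3 z hz]
        simp
    · rw [integral_indicator measurableSet_closedBall, setIntegral_const, smul_eq_mul]
      ring

theorem cau (h : TRL) (𝒰 : Ultrafilter ι) (w : ι → E N → ℝ) (h1 : ∀ i, ContDiff ℝ 1 (w i))
    (hb : ∀ i x, 0 ≤ w i x ∧ w i x ≤ 1)
    (hC : ∀ R : ℝ, ∃ C : ℝ, ∀ᶠ i in (𝒰 : Filter ι),
      ∫ x in ball (0 : E N) R, ‖fderiv ℝ (w i) x‖ ≤ C) (R : ℝ) {ε : ℝ} (hε : 0 < ε) :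
    ∃ S ∈ (𝒰 : Filter ι), ∀ i ∈ S, ∀ j ∈ S, ∫ x in ball (0 : E N) R, |w i x - w j x| ≤ ε := by
  obtain ⟨C, hC⟩ := hC (R + 1)
  obtain ⟨r, hr0, hr1, hr2⟩ : ∃ r : ℝ, 0 < r ∧ r ≤ 1 ∧ r * C ≤ ε / 3 := by
    refine ⟨min 1 (ε / (3 * (|C| + 1))), by positivity, min_le_left _ _, ?_⟩
    refine (mul_le_mul_of_nonneg_left (le_abs_self C) (by positivity)).trans
      ((mul_le_mul_of_nonneg_right (min_le_right _ _) (abs_nonneg C)).trans ?_)
    rw [div_mul_eq_mul_div, div_le_div_iff₀ (by positivity) (by positivity)]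
    nlinarith [abs_nonneg C]
  let b : ContDiffBump (0 : E N) := ⟨r / 2, r, by positivity, by linarith⟩
  have hs : ∀ y, r ≤ ‖y‖ → b.normed volume y = 0 := fun y hy => by
    rw [← Function.notMem_support, b.support_normed_eq, mem_ball_zero_iff, not_lt]
    exact hy
  obtain ⟨L, hL, hv⟩ := conv (b.contDiff_normed (μ := volume)) b.nonneg_normed
    (fun y hy => hs y (hr1.trans hy)) b.integral_normed R
  obtain ⟨V, hV⟩ : ∃ V, V = volume.real (ball (0 : E N) R) := ⟨_, rfl⟩
  have hV0 : 0 ≤ V := hV ▸ measureReal_nonneg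
  obtain ⟨S, hS, hu⟩ := unif 𝒰 (isCompact_closedBall 0 R)
    (fun i x => ∫ y, b.normed volume (x - y) * w i y) hL
    (fun i => (hv _ (h1 i).continuous (hb i)).1) (fun i => (hv _ (h1 i).continuous (hb i)).2)
    (show 0 < ε / (3 * (V + 1)) by positivity)
  have hc : ∀ i, ContinuousOn (fun x => ∫ y, b.normed volume (x - y) * w i y)
      (closedBall 0 R) := fun i =>
    (LipschitzOnWith.of_dist_le_mul (K := ⟨L, hL⟩) (hv _ (h1 i).continuous (hb i)).2).continuousOn
  have hd : ∀ i, ∫ x in ball (0 : E N) (R + 1), ‖fderiv ℝ (w i) x‖ ≤ C →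
      ∫ x in ball (0 : E N) R, |(∫ y, b.normed volume (x - y) * w i y) - w i x| ≤ ε / 3 := by
    intro i hi
    refine (h N (w i) _ R r (h1 i) b.continuous_normed b.nonneg_normed hr0 hs
      b.integral_normed).trans (le_trans (mul_le_mul_of_nonneg_left (le_trans ?_ hi) hr0.le) hr2)
    exact setIntegral_mono_set (int_ball ((h1 i).continuous_fderiv one_ne_zero).norm.continuousOn)
      (Eventually.of_forall fun x => norm_nonneg _)
      (LE.le.eventuallyLE (ball_subset_ball (by linarith)))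
  refine ⟨_, inter_mem hS hC, fun i hi j hj => ?_⟩
  have i1 := int_ball ((hc i).sub (h1 i).continuous.continuousOn).abs
  have i2 := int_ball ((hc j).sub (h1 j).continuous.continuousOn).abs
  have i3 : IntegrableOn (fun _ => ε / (3 * (V + 1))) (ball (0 : E N) R) :=
    int_ball continuousOn_const
  refine (setIntegral_mono_on (int_ball ((h1 i).continuous.sub (h1 j).continuous).abs.continuousOn)
    ((i1.add i2).add i3) measurableSet_ball fun x hx => ?_).trans ?_
  · have h2 := abs_le.1 (hu i hi.1 j hj.1 x (ball_subset_closedBall hx))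
    simp only [Pi.add_apply, Pi.sub_apply]
    have h3 := le_abs_self ((∫ y, b.normed volume (x - y) * w i y) - w i x)
    have h4 := neg_abs_le ((∫ y, b.normed volume (x - y) * w i y) - w i x)
    have h5 := le_abs_self ((∫ y, b.normed volume (x - y) * w j y) - w j x)
    have h6 := neg_abs_le ((∫ y, b.normed volume (x - y) * w j y) - w j x)
    rw [abs_le]
    constructor <;> linarith [h2.1, h2.2]
  · rw [integral_add' (i1.add i2) i3, integral_add' i1 i2, setIntegral_const, smul_eq_mul, ← hV]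
    have h2 : V * (ε / (3 * (V + 1))) ≤ ε / 3 := by
      rw [← mul_div_assoc, div_le_div_iff₀ (by positivity) (by positivity)]
      nlinarith
    have h3 := hd i hi.2
    have h4 := hd j hj.2
    simp only [Pi.sub_apply]
    linarith

theorem cut {w g : ℝ} (h0 : 0 ≤ w) (h1 : w ≤ 1) :
    |w - if 1 / 2 < g then 1 else 0| ≤ 2 * (w * (1 - w)) + 2 * |w - g| := by
  have h2 := le_abs_self (w - g)
  have h3 := neg_abs_le (w - g)
  have h4 := abs_nonneg (w - g)
  split_ifs with h
  · rw [abs_of_nonpos (by linarith)]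
    rcases le_total w (1 / 2) with k | k <;> nlinarith
  · rw [sub_zero, abs_of_nonneg h0]
    rcases le_total w (1 / 2) with k | k <;> nlinarith

theorem int_ind {w : E N → ℝ} (hw : Continuous w) {A : Set (E N)} (hA : MeasurableSet A) (R : ℝ) :
    IntegrableOn (fun x => |w x - ind A x|) (ball 0 R) :=
  ((int_ball hw.continuousOn).sub ((int_ball continuousOn_const).indicator hA)).abs

theorem loc (𝒰 : Ultrafilter ι) (w : ι → E N → ℝ) (h1 : ∀ i, Continuous (w i))
    (hb : ∀ i x, 0 ≤ w i x ∧ w i x ≤ 1) (R : ℝ) (hc : ∀ ε > (0 : ℝ), ∃ S ∈ (𝒰 : Filter ι),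
      ∀ i ∈ S, ∀ j ∈ S, ∫ x in ball (0 : E N) R, |w i x - w j x| ≤ ε)
    (ht : Tendsto (fun i => ∫ x in ball (0 : E N) R, w i x * (1 - w i x)) 𝒰 (𝓝 0)) :
    ∃ A, MeasurableSet A ∧
      Tendsto (fun i => ∫ x in ball (0 : E N) R, |w i x - ind A x|) 𝒰 (𝓝 0) := by
  have hi : ∀ i, Integrable (w i) (volume.restrict (ball 0 R)) := fun i =>
    int_ball (h1 i).continuousOn
  let W : ι → Lp ℝ 1 (volume.restrict (ball (0 : E N) R)) := fun i => (hi i).toL1 _
  have hW : ∀ i (g : Lp ℝ 1 (volume.restrict (ball (0 : E N) R))),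
      dist (W i) g = ∫ x in ball (0 : E N) R, |w i x - g x| := fun i g => by
    rw [L1.dist_eq_integral_dist]
    refine integral_congr_ae ?_
    filter_upwards [(hi i).coeFn_toL1] with x hx
    rw [← hx, Real.dist_eq]
  have hcau : Cauchy (map W 𝒰) := by
    refine Metric.cauchy_iff.2 ⟨inferInstance, fun ε hε => ?_⟩
    obtain ⟨S, hS, hs⟩ := hc (ε / 2) (by positivity)
    refine ⟨W '' S, image_mem_map hS, ?_⟩
    rintro _ ⟨i, hi', rfl⟩ _ ⟨j, hj, rfl⟩
    refine lt_of_eq_of_lt ?_ ((hs i hi' j hj).trans_lt (half_lt_self hε))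
    rw [hW]
    refine integral_congr_ae ?_
    filter_upwards [(hi j).coeFn_toL1] with x hx
    rw [← hx]
  obtain ⟨g, hg⟩ := CompleteSpace.complete hcau
  have hg' : Tendsto (fun i => ∫ x in ball (0 : E N) R, |w i x - g x|) 𝒰 (𝓝 0) := by
    simpa only [hW] using tendsto_iff_dist_tendsto_zero.1 (show Tendsto W 𝒰 (𝓝 g) from hg)
  have hA : MeasurableSet {x | 1 / 2 < g x} :=
    measurableSet_lt measurable_const (Lp.stronglyMeasurable g).measurable
  refine ⟨_, hA, squeeze_zero (fun i => integral_nonneg fun x => abs_nonneg _) (fun i => ?_)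
    (by simpa using (ht.const_mul 2).add (hg'.const_mul 2))⟩
  have i1 : IntegrableOn (fun x => 2 * (w i x * (1 - w i x))) (ball (0 : E N) R) :=
    int_ball (by have := h1 i; fun_prop)
  have i2 : IntegrableOn (fun x => 2 * |w i x - g x|) (ball (0 : E N) R) :=
    ((hi i).sub (L1.integrable_coeFn g)).abs.const_mul 2
  rw [← integral_const_mul, ← integral_const_mul, ← integral_add i1 i2]
  refine integral_mono (int_ind (h1 i) hA R) (i1.add i2) fun x => ?_
  have := cut (g := g x) (hb i x).1 (hb i x).2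
  simpa only [ind, indicator, mem_ofPred_eq] using this

end CmpA

open CmpA in
theorem cmp_of (h : TRL) : CMP := by
  intro N ι 𝒰 w h1 hb hC ht
  choose A hA hl using fun n : ℕ => loc 𝒰 w (fun i => (h1 i).continuous) hb ((n : ℝ) + 1)
    (fun ε hε => cau h 𝒰 w h1 hb hC _ hε) (ht _)
  have hm : MeasurableSet {x : E N | x ∈ A ⌊‖x‖⌋₊} := by
    have : {x : E N | x ∈ A ⌊‖x‖⌋₊} = ⋃ n, A n ∩ (fun x : E N => ⌊‖x‖⌋₊) ⁻¹' {n} := by
      ext x
      simp
    rw [this]
    exact MeasurableSet.iUnion fun n => (hA n).inter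
      (measurable_norm.nat_floor (measurableSet_singleton n))
  refine ⟨_, hm, fun R => ?_⟩
  have h2 := tendsto_finsetSum (Finset.range (⌊R⌋₊ + 1)) fun n _ => hl n
  rw [Finset.sum_const_zero] at h2
  refine squeeze_zero (fun i => integral_nonneg fun x => abs_nonneg _) (fun i => ?_) h2
  have h3 : ∀ n : ℕ, Integrable ((ball (0 : E N) ((n : ℝ) + 1)).indicator
      fun x => |w i x - ind (A n) x|) := fun n =>
    (integrable_indicator_iff measurableSet_ball).2 (int_ind (h1 i).continuous (hA n) _)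
  simp only [← integral_indicator measurableSet_ball]
  rw [← integral_finsetSum _ fun n _ => h3 n]
  refine integral_mono ((integrable_indicator_iff measurableSet_ball).2
    (int_ind (h1 i).continuous hm R)) (integrable_finsetSum _ fun n _ => h3 n) fun x => ?_
  have h4 : ∀ n ∈ Finset.range (⌊R⌋₊ + 1), 0 ≤ (ball (0 : E N) ((n : ℝ) + 1)).indicator
      (fun x => |w i x - ind (A n) x|) x := fun n _ => indicator_nonneg (fun _ _ => abs_nonneg _) x
  by_cases hx : x ∈ ball (0 : E N) R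
  · refine le_trans (le_of_eq ?_) (Finset.single_le_sum h4 (a := ⌊‖x‖⌋₊) (Finset.mem_range.2
      (Nat.lt_succ_of_le (Nat.floor_le_floor (mem_ball_zero_iff.1 hx).le))))
    rw [indicator_of_mem hx, indicator_of_mem (mem_ball_zero_iff.2 (Nat.lt_floor_add_one _))]
    rfl
  · rw [indicator_of_notMem hx]
    exact Finset.sum_nonneg h4

end Vale.Agent.P134S
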