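import Vale.Agent.P366W.Cap
import Vale.Agent.P366L.Cls

/-!
# P134S: monotone minimising cones in dimension at most eight; definitions and statements
-/

open MeasureTheory Metric Filter Topology Set
open scoped ContDiff RealInnerProductSpace ENNReal
open Vale.Agent.P366.Stmt (E)
open Vale.Agent.P366W (dvg Surf Fr gsurf adj)
open Vale.Agent.P366L (Sg Cal Dil Sp Lm CL Cls)
open Vale.Agent.P366S (Lev Stable Cone prj c2)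

noncomputable section

namespace Vale.Agent.P134S

variable {N n : ℕ}

/-- nonnegative test functions -/
structure Tf (φ : E N → ℝ) : Prop where
  c1 : ContDiff ℝ 1 φ
  cs : HasCompactSupport φ
  nn : ∀ x, 0 ≤ φ x

/-- the characteristic function -/
def ind (A : Set (E N)) (x : E N) : ℝ := A.indicator (fun _ => (1 : ℝ)) x

/-- the boundary of `A` minimises the area -/
structure Mn (A : Set (E N)) : Prop where
  ms : MeasurableSet A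
  m1 : ∀ (φ : E N → ℝ) (Z : E N → E N), Tf φ → ContDiff ℝ 1 Z → (∀ x, ‖Z x‖ ≤ φ x) →
    ∫ x in A, dvg Z x ≤ ∫ x in A, ‖fderiv ℝ φ x‖
  m2 : ∀ (φ : E N → ℝ) (Z : E N → E N), Tf φ → ContDiff ℝ 1 Z → (∀ x, ‖Z x‖ ≤ φ x) →
    ∫ x in A, dvg Z x ≤ ∫ x in Aᶜ, ‖fderiv ℝ φ x‖

/-- `μ` is the area of the minimising boundary of `A` -/
structure Pr (μ : Measure (E N)) (A : Set (E N)) : Prop where
  fin : IsFiniteMeasureOnCompacts μ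
  ms : MeasurableSet A
  bv : ∀ Z : E N → E N, ContDiff ℝ 1 Z → HasCompactSupport Z →
    ∫ x in A, dvg Z x ≤ ∫ x, ‖Z x‖ ∂μ
  f1 : ∀ φ : E N → ℝ, Tf φ → ∫ x, φ x ∂μ ≤ ∫ x in A, ‖fderiv ℝ φ x‖
  f2 : ∀ φ : E N → ℝ, Tf φ → ∫ x, φ x ∂μ ≤ ∫ x in Aᶜ, ‖fderiv ℝ φ x‖

/-- `A` is monotone in the direction `a` -/
def Up (A : Set (E N)) (a : E N) : Prop := ∀ t : ℝ, 0 ≤ t → ∀ᵐ x, x ∈ A → x + t • a ∈ A

/-- `A` is a cone -/
def Cn (A : Set (E N)) : Prop := ∀ t : ℝ, 0 < t → ∀ᵐ x, (t • x ∈ A ↔ x ∈ A)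

/-- `A` is a half space -/
def Hs (A : Set (E N)) (e : E N) : Prop := ∀ᵐ x, (x ∈ A ↔ 0 < ⟪e, x⟫)

/-- near `x`, the set `A` is the side `0 < F` -/
def Side (A : Set (E N)) (F : E N → ℝ) (x : E N) : Prop :=
  ∃ U ∈ 𝓝 x, ∀ᵐ y, y ∈ U → (y ∈ A ↔ 0 < F y)

/-- local convergence in the mean to the characteristic function of `A` -/
def Cv {ι : Type} (l : Filter ι) (w : ι → E N → ℝ) (A : Set (E N)) : Prop :=
  ∀ R : ℝ, Tendsto (fun i => ∫ x in ball (0 : E N) R, |w i x - ind A x|) l (𝓝 0)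

/-- the cylinder over `A` -/
def cyl (L : E n →ₗᵢ[ℝ] E (n + 1)) (A : Set (E n)) : Set (E (n + 1)) := {x | adj L x ∈ A}

/-! ### sets and their area measures -/

/-- mollifications `θ k` of the characteristic function of `A` with the kernels `η k` -/
structure Ml (A : Set (E N)) (θ η : ℕ → E N → ℝ) : Prop where
  smθ : ∀ k, ContDiff ℝ ∞ (θ k)
  bd : ∀ k x, 0 ≤ θ k x ∧ θ k x ≤ 1
  smη : ∀ k, ContDiff ℝ ∞ (η k)
  nn : ∀ k x, 0 ≤ η k x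
  sup : ∀ (k : ℕ) x, 1 / ((k : ℝ) + 1) ≤ ‖x‖ → η k x = 0
  one : ∀ k, ∫ x, η k x = 1
  lim : ∀ᵐ x, Tendsto (fun k => θ k x) atTop (𝓝 (ind A x))
  grad : ∀ μ, Pr μ A → ∀ k x, ‖fderiv ℝ (θ k) x‖ ≤ ∫ y, η k (x - y) ∂μ

/-- **MOL**: mollification -/
def MOL : Prop := ∀ (N : ℕ) (A : Set (E N)), MeasurableSet A → ∃ θ η, Ml A θ η

/-- **MINP**: comparison of the area with a function -/
def MINP : Prop := ∀ (N : ℕ) (μ : Measure (E N)) (A : Set (E N)) (ψ θ : E N → ℝ), Pr μ A → Tf ψ →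
  ContDiff ℝ 1 θ → (∀ x, 0 ≤ θ x ∧ θ x ≤ 1) → ∫ x, ψ x ∂μ ≤
    (∫ x, ψ x * ‖fderiv ℝ θ x‖) + ∫ x, ‖fderiv ℝ ψ x‖ * |θ x - ind A x|

/-- **MINM**: the same for a minimising set -/
def MINM : Prop := ∀ (N : ℕ) (A : Set (E N)) (ψ θ : E N → ℝ) (Z : E N → E N), Mn A → Tf ψ →
  ContDiff ℝ 1 θ → (∀ x, 0 ≤ θ x ∧ θ x ≤ 1) → ContDiff ℝ 1 Z → (∀ x, ‖Z x‖ ≤ ψ x) →
  ∫ x in A, dvg Z x ≤ (∫ x, ψ x * ‖fderiv ℝ θ x‖) + ∫ x, ‖fderiv ℝ ψ x‖ * |θ x - ind A x|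

/-- **UNIQ** (from MOL, MINP): the set determines the measure -/
def UNIQ : Prop := ∀ (N : ℕ) (μ μ' : Measure (E N)) (A : Set (E N)), Pr μ A → Pr μ' A → μ = μ'

/-- **SYM** (from UNIQ): the symmetries of the set are symmetries of the measure -/
def SYM : Prop := ∀ (n : ℕ) (μ : Measure (E (n + 1))) (A : Set (E (n + 1))), Pr μ A →
  (∀ v, Up A v → Up A (-v) → v ∈ Sp μ) ∧ (Cn A → Dil n μ 0)

/-- **CONST** (from MOL): the set is trivial where the measure vanishes -/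
def CONST : Prop := ∀ (N : ℕ) (μ : Measure (E N)) (A U : Set (E N)), Pr μ A → IsOpen U →
  IsPreconnected U → μ U = 0 → (∀ᵐ x, x ∈ U → x ∈ A) ∨ ∀ᵐ x, x ∈ U → x ∉ A

/-- **LOC** (from CONST): at a regular point the set is one side of the surface -/
def LOC : Prop := ∀ (N : ℕ) (μ : Measure (E N)) (A S : Set (E N)) (F : E N → ℝ) (x : E N),
  Pr μ A → Lev S F x → x ∈ μ.support → (∀ᶠ y in 𝓝 x, y ∈ μ.support → y ∈ S) →
  Side A F x ∨ Side A (fun y => -F y) x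

/-- **SGN**: the sign of the normal of a monotone set -/
def SGN : Prop := ∀ (N : ℕ) (A S : Set (E N)) (F : E N → ℝ) (x a : E N), Lev S F x → Side A F x →
  Up A a → ∀ᶠ y in 𝓝[S] x, 0 ≤ fderiv ℝ F y a

/-- **SPR**: a monotone set which is locally a half space along a hyperplane -/
def SPR : Prop := ∀ (N : ℕ) (A : Set (E N)) (V : Submodule ℝ (E N)) (a : E N) (L : E N →L[ℝ] ℝ),
  Module.finrank ℝ V + 2 ≤ N → 0 < L a → Up A a → (∀ z, L z = 0 → z ∉ V → Side A L z) →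
  ∀ᵐ x, (x ∈ A ↔ 0 < L x)

/-- **HALF** (from CONST): the support lies in a hyperplane -/
def HALF : Prop := ∀ (N : ℕ) (μ : Measure (E N)) (A : Set (E N)) (e : E N), Pr μ A → ‖e‖ = 1 →
  (∀ x ∈ μ.support, ⟪e, x⟫ = 0) → volume A ≠ 0 → volume Aᶜ ≠ 0 → ∃ e', ‖e'‖ = 1 ∧ Hs A e'

/-- **CYL**: cylinders -/
def CYL : Prop := ∀ (n : ℕ) (e : E (n + 1)) (L : E n →ₗᵢ[ℝ] E (n + 1)) (A : Set (E n)), Fr e L →
  MeasurableSet A → (Cn A → Cn (cyl L A)) ∧ (∀ a, Up A a → Up (cyl L A) (L a)) ∧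
    Up (cyl L A) e ∧ Up (cyl L A) (-e) ∧ (volume A ≠ 0 → volume (cyl L A) ≠ 0) ∧
    (volume Aᶜ ≠ 0 → volume (cyl L A)ᶜ ≠ 0) ∧
    ∀ e', ‖e'‖ = 1 → Hs (cyl L A) e' → ∃ e'', ‖e''‖ = 1 ∧ Hs A e''

/-! ### cones -/

/-- the length of the normal part of `a` -/
def nu (S : Set (E N)) (a x : E N) : ℝ := ‖a - prj S x a‖

/-- **END0**: a cone which is regular at the vertex -/
def END0 : Prop := ∀ (n : ℕ) (δ : ℝ) (C : Set (Measure (E (n + 1)))) (μ : Measure (E (n + 1))),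
  Cls n δ C → μ ∈ C → Dil n μ 0 → (0 : E (n + 1)) ∉ Sg n δ μ →
  ∃ e : E (n + 1), ‖e‖ = 1 ∧ ∀ x ∈ μ.support, ⟪e, x⟫ = 0

/-- **TRA**: a constant tangent vector lies in the spine -/
def TRA : Prop := ∀ (N : ℕ) (μ : Measure (E N)) (V : Submodule ℝ (E N)) (S : Set (E N)) (a : E N),
  Cal μ → Stable (V : Set (E N))ᶜ S μ → Module.finrank ℝ V + 3 ≤ N →
  (∀ x ∈ S, prj S x a = a) → a ∈ Sp μ

/-- **JAC**: the Jacobi equation on a cone -/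
def JAC : Prop := ∀ (N : ℕ) (μ : Measure (E N)) (V : Submodule ℝ (E N)) (S : Set (E N)) (a : E N),
  Stable (V : Set (E N))ᶜ S μ → Cone V S μ →
  (∀ x ∈ S, ∃ F, Lev S F x ∧ ∀ᶠ y in 𝓝[S] x, 0 ≤ fderiv ℝ F y a) →
  ∀ x ∈ S, c2 S x * nu S a x = 0

/-- **HYP**: the cone contains a hyperplane -/
def HYP : Prop := ∀ (N : ℕ) (μ : Measure (E N)) (V : Submodule ℝ (E N)) (S : Set (E N))
  (a x : E N), Stable (V : Set (E N))ᶜ S μ → Cone V S μ → Module.finrank ℝ V + 3 ≤ N →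
  (∀ y ∈ S, c2 S y * nu S a y = 0) → x ∈ S → nu S a x ≠ 0 →
  ∃ L : E N →L[ℝ] ℝ, 0 < L a ∧ (∀ v ∈ V, L v = 0) ∧
    ∀ z, L z = 0 → z ∉ V → ∀ᶠ y in 𝓝 z, (y ∈ S ↔ L y = 0)

/-- **CONE**: monotone cylindrical cones in dimension at most nine -/
def CONE : Prop := ∀ (n : ℕ) (μ : Measure (E (n + 1))) (B : Set (E (n + 1))) (v a : E (n + 1)),
  3 ≤ n → n ≤ 8 → μ ∈ CL n → Pr μ B → Cn B → Up B v → Up B (-v) → Up B a → v ≠ 0 →
  a ∉ Submodule.span ℝ {v} → volume B ≠ 0 → volume Bᶜ ≠ 0 → ∃ e, ‖e‖ = 1 ∧ Hs B e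

/-! ### approximation by capillary graphs -/

/-- the horizontal part of the normal of the graph -/
def nr (f : E n → ℝ) (x : E n) : E n := (√(1 + ‖gradient f x‖ ^ 2))⁻¹ • gradient f x

/-- the mean curvature of the graph -/
def mc (f : E n → ℝ) (x : E n) : ℝ := dvg (nr f) x

/-- **CAP0**: the capillary equation on a ball -/
def CAP0 : Prop := ∀ (n : ℕ) (b : E n → ℝ) (R τ : ℝ), 2 ≤ n → ContDiff ℝ ∞ b → 0 < τ →
  ∃ f : E n → ℝ, ContDiff ℝ ∞ f ∧ ∀ x ∈ ball (0 : E n) R, mc f x = τ * f x + b x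

/-- **BAR**: the barrier -/
def BAR : Prop := ∀ (n : ℕ) (f b : E n → ℝ) (x₀ : E n) (ρ τ l : ℝ), ContDiff ℝ ∞ f → 0 < ρ →
  0 ≤ τ → (∀ x ∈ ball x₀ ρ, mc f x = τ * f x + b x ∧ |b x| ≤ l) → |τ * f x₀| ≤ l + 2 * n / ρ

/-- **EST** (from MINM): comparison of a capillary graph with a minimising set -/
def EST : Prop := ∃ M : ℝ, 0 ≤ M ∧ ∀ (n : ℕ) (A : Set (E n)) (u b ψ : E n → ℝ) (τ c : ℝ), Mn A →
  ContDiff ℝ ∞ u → Continuous b → Tf ψ → 0 ≤ τ →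
  (∀ x ∈ tsupport ψ, mc u x = τ * u x + c + b x) →
  ∫ x, ψ x * ((Real.smoothTransition (u x) - ind A x) * b x) ≤
    (τ + |c|) * (∫ x, ψ x) + M * (∫ x in {x | |u x| ≤ 1}, ψ x) +
      2 * ∫ x, ‖fderiv ℝ ψ x‖ * |Real.smoothTransition (u x) - ind A x|

/-- a capillary graph which is close to the cylinder over `A` -/
structure Ap (A : Set (E n)) (R η : ℝ) (u b : E n → ℝ) (τ c : ℝ) : Prop where
  smu : ContDiff ℝ ∞ u
  smb : ContDiff ℝ ∞ b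
  τ0 : 0 ≤ τ
  eq : ∀ x ∈ ball (0 : E n) R, mc u x = τ * u x + c + b x
  H0 : ∀ x ∈ ball (0 : E n) R, |mc u x| ≤ η
  H1 : ∀ x ∈ ball (0 : E n) R, τ + ‖fderiv ℝ b x‖ ≤ η ^ 2
  thin : volume.real {x | x ∈ ball (0 : E n) R ∧ |u x| ≤ R} ≤ η
  close : ∫ x in ball (0 : E n) R, |Real.smoothTransition (u x) - ind A x| ≤ η

/-- **SEQ** (from MOL, CAP0, BAR, EST): the choice of the parameters -/
def SEQ : Prop := ∀ (n : ℕ) (A : Set (E n)) (R η : ℝ), 2 ≤ n → Mn A → 1 ≤ R → 0 < η → η ≤ 1 →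
  ∃ u b τ c, Ap A R η u b τ c

/-- the graph of `u` in Euclidean space -/
def gr (e : E (n + 1)) (L : E n →ₗᵢ[ℝ] E (n + 1)) (u : E n → ℝ) : Surf (n + 1) :=
  gsurf e L u (fun _ => ContinuousLinearMap.id ℝ _) fun _ => 1

/-- **GRB**: the bounds for the graph -/
def GRB : Prop := ∀ (n : ℕ) (e : E (n + 1)) (L : E n →ₗᵢ[ℝ] E (n + 1)) (A : Set (E n)) (R η : ℝ)
  (u b : E n → ℝ) (τ c : ℝ), Fr e L → 0 ≤ η → Ap A R η u b τ c →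
  (gr e L u).Ok ∧ (gr e L u).Bd 0 R 0 η

/-- **SUB**: the subgraphs converge to the cylinder -/
def SUB : Prop := ∀ (n : ℕ) (e : E (n + 1)) (L : E n →ₗᵢ[ℝ] E (n + 1)) (A : Set (E n))
  (u b : ℕ → E n → ℝ) (τ c : ℕ → ℝ), Fr e L → MeasurableSet A →
  (∀ i : ℕ, Ap A ((i : ℝ) + 1) (1 / ((i : ℝ) + 1)) (u i) (b i) (τ i) (c i)) →
  Cv atTop (fun i => ind {x | (gr e L (u i)).Φ x < 0}) (cyl L A)

/-- **LIM**: the limit of the areas is the area of the limit -/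
def LIM : Prop := ∀ (n : ℕ) (ι : Type) (𝒰 : Ultrafilter ι) (S : ι → Surf (n + 1)) (R η Λ : ι → ℝ)
  (μ : Measure (E (n + 1))) (B : Set (E (n + 1))), Lm 𝒰 S R η Λ μ →
  (∀ i, ((S i).B = fun _ => ContinuousLinearMap.id ℝ _) ∧ (S i).a = fun _ => 1) →
  MeasurableSet B → Cv (𝒰 : Filter ι) (fun i => ind {x | (S i).Φ x < 0}) B → Pr μ B

/-- **APP**: cylinders over minimising sets are limits of capillary graphs -/
def APP : Prop := ∀ (n : ℕ) (e : E (n + 1)) (L : E n →ₗᵢ[ℝ] E (n + 1)) (A : Set (E n)), 2 ≤ n →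
  Fr e L → Mn A → ∃ μ ∈ CL n, Pr μ (cyl L A)

/-- **BERN**: monotone minimising cones in dimension at most eight are half spaces -/
def BERN : Prop := ∀ (n : ℕ) (A : Set (E n)) (a : E n), 3 ≤ n → n ≤ 8 → a ≠ 0 → Mn A → Up A a →
  Cn A → volume A ≠ 0 → volume Aᶜ ≠ 0 → ∃ e, ‖e‖ = 1 ∧ Hs A e

/-! ### the blow-down -/

/-- **TRL**: the distance to a mean of translates -/
def TRL : Prop := ∀ (N : ℕ) (w η : E N → ℝ) (R r : ℝ), ContDiff ℝ 1 w → Continuous η →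
  (∀ y, 0 ≤ η y) → 0 < r → (∀ y, r ≤ ‖y‖ → η y = 0) → ∫ y, η y = 1 →
  ∫ x in ball (0 : E N) R, |(∫ y, η (x - y) * w y) - w x| ≤
    r * ∫ x in ball (0 : E N) (R + r), ‖fderiv ℝ w x‖

/-- **CMP** (from TRL): compactness -/
def CMP : Prop := ∀ (N : ℕ) (ι : Type) (𝒰 : Ultrafilter ι) (w : ι → E N → ℝ),
  (∀ i, ContDiff ℝ 1 (w i)) → (∀ i x, 0 ≤ w i x ∧ w i x ≤ 1) →
  (∀ R : ℝ, ∃ C : ℝ, ∀ᶠ i in (𝒰 : Filter ι), ∫ x in ball (0 : E N) R, ‖fderiv ℝ (w i) x‖ ≤ C) →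
  (∀ R : ℝ, Tendsto (fun i => ∫ x in ball (0 : E N) R, w i x * (1 - w i x)) 𝒰 (𝓝 0)) →
  ∃ A, MeasurableSet A ∧ Cv (𝒰 : Filter ι) w A

/-- the two flux inequalities -/
structure Fx (w : E N → ℝ) : Prop where
  c1 : ContDiff ℝ 1 w
  bd : ∀ x, 0 ≤ w x ∧ w x ≤ 1
  f1 : ∀ φ, Tf φ → ∫ x, φ x * ‖fderiv ℝ w x‖ ≤ ∫ x, w x * ‖fderiv ℝ φ x‖
  f2 : ∀ φ, Tf φ → ∫ x, φ x * ‖fderiv ℝ w x‖ ≤ ∫ x, (1 - w x) * ‖fderiv ℝ φ x‖

/-- the behaviour at infinity -/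
structure Fa (w : E N → ℝ) : Prop where
  thin : ∀ ε > (0 : ℝ), ∀ᶠ R : ℝ in atTop,
    ∫ x in ball (0 : E N) R, w x * (1 - w x) ≤ ε * R ^ N
  rad : ∀ ε > (0 : ℝ), ∀ᶠ R : ℝ in atTop, ∫ x in ball (0 : E N) R, |fderiv ℝ w x x| ≤ ε * R ^ N
  low : ∃ c > (0 : ℝ), ∀ᶠ R : ℝ in atTop, c * R ^ N ≤ ∫ x in ball (0 : E N) R, w x ∧
    c * R ^ N ≤ ∫ x in ball (0 : E N) R, (1 - w x)

/-- the rescaled function -/
def sc (w : E N → ℝ) (r : ℝ) (x : E N) : ℝ := w (r • x)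

/-- **SCL**: scaling -/
def SCL : Prop := ∀ (N : ℕ) (w : E N → ℝ) (r : ℝ), 0 < r → (Fx w → Fx (sc w r)) ∧
  ∀ R : ℝ, ∫ x in ball (0 : E N) R, sc w r x = r⁻¹ ^ N * ∫ x in ball (0 : E N) (r * R), w x

/-- **BLD1** (from SCL, CMP): existence of the blow-down -/
def BLD1 : Prop := ∀ (N : ℕ) (ι : Type) (𝒰 : Ultrafilter ι) (w : E N → ℝ) (r : ι → ℝ), Fx w →
  Fa w → Tendsto r 𝒰 atTop → ∃ A, MeasurableSet A ∧ Cv (𝒰 : Filter ι) (fun i => sc w (r i)) A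

/-- **BLD2** (from SCL): the blow-down is minimising and not trivial -/
def BLD2 : Prop := ∀ (N : ℕ) (ι : Type) (l : Filter ι) (w : E N → ℝ) (r : ι → ℝ) (A : Set (E N)),
  l.NeBot → Fx w → Fa w → Tendsto r l atTop → MeasurableSet A → Cv l (fun i => sc w (r i)) A →
  Mn A ∧ volume A ≠ 0 ∧ volume Aᶜ ≠ 0

/-- **BLD3** (from SCL): the blow-down is a monotone cone -/
def BLD3 : Prop := ∀ (N : ℕ) (ι : Type) (l : Filter ι) (w : E N → ℝ) (r : ι → ℝ) (A : Set (E N)),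
  l.NeBot → Fx w → Fa w → Tendsto r l atTop → MeasurableSet A → Cv l (fun i => sc w (r i)) A →
  Cn A ∧ ∀ a, (∀ x, ∀ t : ℝ, 0 ≤ t → w x ≤ w (x + t • a)) → Up A a

/-- **OUTE** (from SCL, BLD1, BLD2, BLD3, BERN): closeness to half spaces at large scales -/
def OUTE : Prop := ∀ (N : ℕ) (w : E N → ℝ) (a : E N), 3 ≤ N → N ≤ 8 → a ≠ 0 → Fx w → Fa w →
  (∀ x, ∀ t : ℝ, 0 ≤ t → w x ≤ w (x + t • a)) → ∀ ε > (0 : ℝ), ∀ᶠ R : ℝ in atTop,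
    ∃ e : E N, ‖e‖ = 1 ∧ ∫ x in ball (0 : E N) R, |w x - ind {y | 0 < ⟪e, y⟫} x| ≤ ε * R ^ N

end Vale.Agent.P134S
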