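import Vale.Agent.P134S.Defs
import Vale.Agent.P134Y.Defs

/-!
# P134S: the link with the Allen-Cahn equation; definitions and statements
-/

open Vale.Agent.P366.Stmt (E)
open Vale.Agent.P134.H891 (Psi)
open Vale.Agent.P134.R2.H561 (Mo)

noncomputable section

namespace Vale.Agent.P134S

/-- the normalised phase function -/
def wu {N : ℕ} (u : (Fin N → ℝ) → ℝ) (x : E N) : ℝ := Psi (u x.ofLp) / Psi 1

/-- **ACW1**: the flux inequalities and the monotonicity -/
def ACW1 : Prop := ∀ (m : ℕ) (q : Fin (m + 4)) (u : (Fin (m + 4) → ℝ) → ℝ), Mo q u →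
  Fx (wu u) ∧ ∀ x, ∀ t : ℝ, 0 ≤ t → wu u x ≤ wu u (x + t • EuclideanSpace.single q 1)

/-- **ACW2**: the behaviour at infinity -/
def ACW2 : Prop := ∀ (m : ℕ) (q : Fin (m + 4)) (u : (Fin (m + 4) → ℝ) → ℝ), Mo q u → Fa (wu u)

/-- **OUT** (from ACW1, ACW2, OUTE): the output of the block -/
def OUT : Prop := ∀ m : ℕ, m ≤ 4 → P134Y.SAV m

end Vale.Agent.P134S
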