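import Vale.Agent.P134S.Defs

/-!
# P134S: comparison of the area with a function
-/

set_option linter.all false

open MeasureTheory Metric Filter Topology Set
open scoped ContDiff RealInnerProductSpace
open Vale.Agent.P366.Stmt (E)
open Vale.Agent.P366W

noncomputable section

namespace Vale.Agent.P134S

namespace Min

variable {N : ℕ} {A : Set (E N)} {ψ θ : E N → ℝ}

theorem tf_mul (hψ : Tf ψ) (hθ : ContDiff ℝ 1 θ) (h : ∀ x, 0 ≤ θ x) : Tf fun x => ψ x * θ x :=
  ⟨hψ.c1.mul hθ, hψ.cs.mul_right, fun x => mul_nonneg (hψ.nn x) (h x)⟩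

theorem int_d (hψ : Tf ψ) : Integrable fun x => ‖fderiv ℝ ψ x‖ :=
  ((hψ.c1.continuous_fderiv one_ne_zero).integrable_of_hasCompactSupport (hψ.cs.fderiv ℝ)).norm

theorem norm_mul (hψ : Tf ψ) (hθ : ContDiff ℝ 1 θ) (x : E N) :
    ‖fderiv ℝ (fun x => ψ x * θ x) x‖ ≤ ψ x * ‖fderiv ℝ θ x‖ + ‖fderiv ℝ ψ x‖ * |θ x| := by
  rw [fderiv_fun_mul (hψ.c1.differentiable one_ne_zero x) (hθ.differentiable one_ne_zero x)]
  refine (norm_add_le _ _).trans (le_of_eq ?_)
  rw [norm_smul, norm_smul, Real.norm_eq_abs, Real.norm_eq_abs, abs_of_nonneg (hψ.nn x),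
    mul_comm |θ x|]

theorem core (hA : MeasurableSet A) (hψ : Tf ψ) (hθ : ContDiff ℝ 1 θ)
    (h : ∀ x, 0 ≤ θ x ∧ θ x ≤ 1) :
    (∫ x in A, ‖fderiv ℝ (fun x => ψ x * (1 - θ x)) x‖) +
      ∫ x in Aᶜ, ‖fderiv ℝ (fun x => ψ x * θ x) x‖ ≤
    (∫ x, ψ x * ‖fderiv ℝ θ x‖) + ∫ x, ‖fderiv ℝ ψ x‖ * |θ x - ind A x| := by
  have hθ' : ContDiff ℝ 1 fun x => 1 - θ x := contDiff_const.sub hθ
  have i1 : Integrable fun x => ψ x * ‖fderiv ℝ θ x‖ :=
    (hψ.c1.continuous.mul (hθ.continuous_fderiv one_ne_zero).norm).integrable_of_hasCompactSupport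
      hψ.cs.mul_right
  have i2 : Integrable fun x => ‖fderiv ℝ ψ x‖ * |θ x - ind A x| := by
    refine (int_d hψ).mul_bdd (c := 1) ((hθ.continuous.measurable.sub
      (measurable_const.indicator hA)).abs.aestronglyMeasurable) (Eventually.of_forall fun x => ?_)
    rw [Real.norm_eq_abs, abs_abs, abs_le, ind]
    by_cases hx : x ∈ A
    · rw [indicator_of_mem hx]; constructor <;> linarith [(h x).1, (h x).2]
    · rw [indicator_of_notMem hx]; constructor <;> linarith [(h x).1, (h x).2]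
  refine le_trans ?_ ((integral_add_compl hA (i1.add i2)).trans (integral_add i1 i2)).le
  refine add_le_add
    (setIntegral_mono_on (int_d (tf_mul hψ hθ' fun x => sub_nonneg.2 (h x).2)).integrableOn
      (i1.add i2).integrableOn hA fun x hx => ?_)
    (setIntegral_mono_on (int_d (tf_mul hψ hθ fun x => (h x).1)).integrableOn
      (i1.add i2).integrableOn hA.compl fun x hx => ?_)
  · refine (norm_mul hψ hθ' x).trans (le_of_eq ?_)
    simp only [Pi.add_apply, ind, indicator_of_mem hx]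
    rw [fderiv_const_sub, norm_neg, abs_sub_comm]
  · refine (norm_mul hψ hθ x).trans (le_of_eq ?_)
    simp only [Pi.add_apply, ind, indicator_of_notMem hx, sub_zero]

end Min

open Min in
theorem minp : MINP := by
  intro N μ A ψ θ hP hψ hθ h
  have := hP.fin
  have t1 := tf_mul hψ (contDiff_const.sub hθ) fun x => sub_nonneg.2 (h x).2
  have t2 := tf_mul hψ hθ fun x => (h x).1
  refine le_trans ?_ ((add_le_add (hP.f1 _ t1) (hP.f2 _ t2)).trans (core hP.ms hψ hθ h))
  rw [← integral_add (t1.c1.continuous.integrable_of_hasCompactSupport t1.cs)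
    (t2.c1.continuous.integrable_of_hasCompactSupport t2.cs)]
  exact le_of_eq (integral_congr_ae (Eventually.of_forall fun x => by simp only; ring))

open Min in
theorem minm : MINM := by
  intro N A ψ θ Z hM hψ hθ h hZ hb
  have hθ' : ContDiff ℝ 1 fun x => 1 - θ x := contDiff_const.sub hθ
  have t1 := tf_mul hψ hθ' fun x => sub_nonneg.2 (h x).2
  have t2 := tf_mul hψ hθ fun x => (h x).1
  have hc : HasCompactSupport Z := hψ.cs.mono fun x hx h0 =>
    hx (norm_le_zero_iff.1 ((hb x).trans h0.le))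
  have hs : ∀ f : E N → ℝ, (∀ x, 0 ≤ f x) → ∀ x, ‖f x • Z x‖ ≤ ψ x * f x := fun f hf x => by
    rw [norm_smul, Real.norm_eq_abs, abs_of_nonneg (hf x), mul_comm]
    exact mul_le_mul_of_nonneg_right (hb x) (hf x)
  have hi : ∀ f : E N → ℝ, ContDiff ℝ 1 f → Integrable (dvg fun x => f x • Z x) := fun f hf =>
    (continuous_dvg (hf.smul hZ)).integrable_of_hasCompactSupport (hcs_dvg hc.smul_left)
  refine le_trans ?_ ((add_le_add
    (hM.m1 _ _ t1 (hθ'.smul hZ) (hs _ fun x => sub_nonneg.2 (h x).2))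
    (hM.m2 _ _ t2 (hθ.smul hZ) (hs _ fun x => (h x).1))).trans (core hM.ms hψ hθ h))
  refine le_of_eq (Eq.trans ?_ (integral_add (hi _ hθ').integrableOn (hi _ hθ).integrableOn))
  refine integral_congr_ae (Eventually.of_forall fun x => ?_)
  refine Eq.trans ?_ (dvg_add ((hθ'.smul hZ).differentiable one_ne_zero x)
    ((hθ.smul hZ).differentiable one_ne_zero x))
  congr 1
  funext y
  simp [← add_smul]

end Vale.Agent.P134S
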